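import Vale.Agent.P134E.Defs
import Vale.Agent.P134B.PX

/-!
# P134E: close sheets are parallel
-/

open MeasureTheory Metric Filter Topology Set
open scoped ContDiff RealInnerProductSpace
open Vale.Agent.P366.Stmt (E)
open Vale.Agent.P366W (Fr adj)

noncomputable section

namespace Vale.Agent.P134E

open Vale.Agent.P134B

variable {m : ℕ} {C θ r ε : ℝ} {u : E (m + 1) → ℝ} {z e : E (m + 1)}
  {L : E m →ₗᵢ[ℝ] E (m + 1)} {h : E m → ℝ}

theorem gr_lip (gd : GD) (ok : Ok C u) (g : Gr u z e L r h θ) (hθ : θ ≤ 1 / 10) {y w : E m}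
    (hy : y ∈ ball (0 : E m) r) (hw : w ∈ ball (0 : E m) r) : |h y - h w| ≤ 2 * θ * ‖y - w‖ :=
  (convex_ball (0 : E m) r).norm_image_sub_le_of_norm_fderiv_le (𝕜 := ℝ)
    (fun x _ => g.sm.differentiable (by simp) x) (fun x hx => by
      have := (gd m C θ r u z e L h ok g hθ x hx).2.2.1
      rwa [gradient, LinearIsometryEquiv.norm_map] at this) hw hy

theorem pt_adj (f : Fr e L) (z x : E (m + 1)) : pt z e L (adj L (x - z)) ⟪e, x - z⟫ = x := by
  rw [pt, add_assoc, f.dec, add_sub_cancel]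

theorem pt_sub (z e : E (m + 1)) (L : E m →ₗᵢ[ℝ] E (m + 1)) (y : E m) (t : ℝ) (f : Fr e L) :
    ‖pt z e L y t - z‖ ≤ ‖y‖ + |t| := by
  rw [pt, add_assoc, add_sub_cancel_left]
  refine (norm_add_le _ _).trans_eq ?_
  rw [L.norm_map, norm_smul, f.one, mul_one, Real.norm_eq_abs]

/-- the sheet through a zero in the good region -/
theorem sheet (gr : GR) (m : ℕ) (C : ℝ) : ∃ ε₀ > (0 : ℝ), ε₀ ≤ 1 / 10 ∧
    ∀ (u : E (m + 1) → ℝ) (ε r : ℝ) (z : E (m + 1)), Ok C u → 0 < ε → ε ≤ ε₀ → 0 < r →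
    Gd u ε z (3 * r + 3) → u z = 0 → 2 * ε ^ 2 + 4 * C * ε * r ≤ 1 / 10 → pp u z ≠ 0 ∧
    ∃ L h, h 0 = 0 ∧ Gr u z (nu u z) L r h (2 * ε ^ 2 + 4 * C * ε * r) := by
  obtain ⟨ε₀, p0, gr⟩ := gr m C
  refine ⟨min ε₀ (1 / 10), by positivity, min_le_right _ _, fun u ε r z ok e0 e1 r0 g z0 hs => ?_⟩
  have e2 := e1.trans (min_le_right _ _)
  have q := Px.q_le z0 (g z (mem_ball_self (by positivity)))
  obtain ⟨n0, n1⟩ := Px.tilt0 (ok.q0 z) q (by nlinarith)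
  have u1 : ‖nu u z‖ = 1 := by
    rw [nu, norm_smul, norm_inv, norm_norm, inv_mul_cancel₀ n0.ne']
  obtain ⟨L, f⟩ := Px.ex_fr u1
  have C0 : 0 ≤ C := zero_le_one.trans ok.C1
  obtain ⟨h, h0, hg⟩ := gr u ε 0 r (2 * ε ^ 2) (2 * C * ε) z (nu u z) L ok f e0
    (e1.trans (min_le_left _ _)) r0 (by positivity) (by simpa using g) (fun x hx x0 => by
      refine (ok.S0 x).trans ?_
      rw [mul_comm 2 C, mul_assoc]
      refine mul_le_mul_of_nonneg_left (Real.sqrt_le_iff.2 ⟨by positivity, ?_⟩) C0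
      have := Px.q_le x0 (g x (by simpa using hx))
      nlinarith [sq_nonneg ε]) (by simpa using z0) (by simpa [nu] using n1) (by linarith)
  exact ⟨norm_pos_iff.1 n0, L, h, h0, Px.gr_mono hg (le_of_eq (by ring))⟩

/-- two graphs which are close at their centres are almost parallel -/
theorem cross (gd : GD) (ok : Ok C u) {z' e' τ : E (m + 1)} {L' : E m →ₗᵢ[ℝ] E (m + 1)}
    {h' : E m → ℝ} (g : Gr u z e L r h θ) (g' : Gr u z' e' L' (3 * r) h' θ) (h0 : h 0 = 0)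
    (h0' : h' 0 = 0) (hθ : θ ≤ 1 / 10) (r0 : 0 < r) (hz : ‖z' - z‖ ≤ r) (t0 : ⟪e, τ⟫ = 0)
    (t1 : ‖τ‖ = 1) : |⟪e', τ⟫| ≤ 4 * ‖z' - z‖ / r + 6 * θ := by
  have θ0 : 0 ≤ θ := (norm_nonneg _).trans (g.ti 0 (mem_ball_self r0))
  obtain ⟨v, rfl⟩ : ∃ v, L v = τ := ⟨adj L τ, by simpa [t0] using g.fr.dec τ⟩
  rw [L.norm_map] at t1
  obtain ⟨γ, hγ⟩ : ∃ γ : ℝ → E (m + 1), γ = fun t => pt z e L (t • v) (h (t • v)) := ⟨_, rfl⟩
  obtain ⟨w, hw⟩ : ∃ w : ℝ → ℝ, w = fun t => ⟪e', γ t - z'⟫ - h' (adj L' (γ t - z')) := ⟨_, rfl⟩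
  have cγ : Continuous γ := by
    have := g.sm.continuous
    have := L.continuous
    rw [hγ]
    unfold pt
    fun_prop
  have cw : Continuous w := by
    have := g'.sm.continuous
    rw [hw]
    fun_prop
  have nv : ∀ t : ℝ, ‖t • v‖ = |t| := fun t => by rw [norm_smul, t1, mul_one, Real.norm_eq_abs]
  have k : ∀ t, |t| ≤ r / 2 → t • v ∈ ball (0 : E m) r ∧
      adj L' (γ t - z') ∈ ball (0 : E m) (3 * r) ∧
      |w t - t * ⟪e', L v⟫| ≤ 2 * ‖z' - z‖ + 6 * θ * (r / 2) := fun t ht => by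
    have a1 : t • v ∈ ball (0 : E m) r := mem_ball_zero_iff.2 (by rw [nv]; linarith)
    have a2 := gr_lip gd ok g hθ a1 (mem_ball_self r0)
    rw [h0, sub_zero, sub_zero, nv] at a2
    have a3 : ‖γ t - z‖ ≤ |t| + |h (t • v)| := by
      rw [hγ, ← nv]
      exact pt_sub _ _ _ _ _ g.fr
    have a4 := (g'.fr.norm_adj (γ t - z')).trans (norm_sub_le_norm_sub_add_norm_sub (γ t) z z')
    rw [norm_sub_rev z] at a4
    have a5 : θ * |t| ≤ θ * (r / 2) := mul_le_mul_of_nonneg_left ht θ0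
    have a6 : θ * (r / 2) ≤ 1 / 10 * (r / 2) := mul_le_mul_of_nonneg_right hθ (by positivity)
    have a7 : adj L' (γ t - z') ∈ ball (0 : E m) (3 * r) := mem_ball_zero_iff.2 (by linarith)
    have a8 := gr_lip gd ok g' hθ a7 (mem_ball_self (by positivity))
    rw [h0', sub_zero, sub_zero] at a8
    have a9 : 2 * θ * ‖adj L' (γ t - z')‖ ≤ 2 * θ * (‖z' - z‖ + r) :=
      mul_le_mul_of_nonneg_left (by linarith) (by positivity)
    have b1 : w t - t * ⟪e', L v⟫ =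
        ⟪e', z - z'⟫ + h (t • v) * ⟪e', e⟫ - h' (adj L' (γ t - z')) := by
      simp only [hw, hγ, pt, map_smul, inner_sub_right, inner_add_right, inner_smul_right]
      ring
    have b2 := abs_real_inner_le_norm e' (z - z')
    have b3 := abs_real_inner_le_norm e' e
    rw [g'.fr.one, one_mul, norm_sub_rev] at b2
    rw [g'.fr.one, g.fr.one, one_mul] at b3
    have b4 : |h (t • v) * ⟪e', e⟫| ≤ |h (t • v)| := by
      rw [abs_mul]
      exact mul_le_of_le_one_right (abs_nonneg _) b3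
    have b5 : θ * ‖z' - z‖ ≤ 1 / 10 * ‖z' - z‖ := mul_le_mul_of_nonneg_right hθ (norm_nonneg _)
    refine ⟨a1, a7, b1 ▸ (abs_sub _ _).trans ?_⟩
    linarith [abs_add_le ⟪e', z - z'⟫ (h (t • v) * ⟪e', e⟫), norm_nonneg (z' - z)]
  by_contra! hc
  have c1 : 2 * ‖z' - z‖ + 6 * θ * (r / 2) < r / 2 * |⟪e', L v⟫| := by
    have := mul_lt_mul_of_pos_left hc (half_pos r0)
    rwa [show r / 2 * (4 * ‖z' - z‖ / r + 6 * θ) = 2 * ‖z' - z‖ + 6 * θ * (r / 2) by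
      field_simp; ring] at this
  have r1 : |r / 2| ≤ r / 2 := (abs_of_pos (half_pos r0)).le
  have p1 := abs_le.1 (k _ r1).2.2
  have p2 := abs_le.1 (k (-(r / 2)) (by rwa [abs_neg])).2.2
  obtain ⟨t, ht, w0⟩ : 0 ∈ w '' uIcc (-(r / 2)) (r / 2) := by
    refine intermediate_value_uIcc cw.continuousOn (mem_uIcc.2 ?_)
    rcases abs_cases ⟪e', L v⟫ with a | a <;> rw [a.1] at c1
    · exact Or.inl ⟨by linarith, by linarith⟩
    · exact Or.inr ⟨by linarith, by linarith⟩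
  rw [uIcc_of_le (by linarith)] at ht
  obtain ⟨k1, k2, -⟩ := k t (abs_le.2 ht)
  have d1 := g'.ti _ k2
  rw [← sub_eq_zero.1 (show ⟪e', γ t - z'⟫ - h' (adj L' (γ t - z')) = 0 by rw [← w0, hw]),
    pt_adj g'.fr] at d1
  have d2 : ‖pp u (γ t) - e‖ ≤ θ := hγ ▸ g.ti _ k1
  have d3 := abs_real_inner_le_norm (e' - e) (L v)
  rw [inner_sub_left, t0, sub_zero, L.norm_map, t1, mul_one] at d3
  have d4 := norm_sub_le_norm_sub_add_norm_sub e' (pp u (γ t)) e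
  rw [norm_sub_rev e' (pp u (γ t))] at d4
  have : 0 ≤ 4 * ‖z' - z‖ / r := by positivity
  linarith

theorem par2 : rPAR2 := by
  intro gr gd m C θ θ0
  obtain ⟨ε₀, p0, -, sh⟩ := sheet gr m C
  obtain ⟨t, ht⟩ : ∃ t, t = min θ 1 := ⟨_, rfl⟩
  have t0 : 0 < t := ht ▸ lt_min θ0 one_pos
  have t1 : t ≤ 1 := ht ▸ min_le_right _ _
  have t2 : t ≤ θ := ht ▸ min_le_left _ _
  obtain ⟨κ, hκ⟩ : ∃ κ, κ = t / (300 * (|C| + 1)) := ⟨_, rfl⟩
  have κ0 : 0 < κ := by rw [hκ]; positivity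
  have κ1 : (|C| + 1) * κ = t / 300 := by rw [hκ]; field_simp
  have κ2 : κ ≤ t / 300 := by nlinarith [abs_nonneg C]
  have κ3 : C * κ ≤ t / 300 := by nlinarith [le_abs_self C]
  refine ⟨min ε₀ (κ * t / 20), by positivity, fun u ε z z' τ ok e0 e1 g z0 z1 hz hτ => ?_⟩
  have β1 : κ * t / 20 ≤ κ / 20 := by nlinarith
  have e2 := e1.trans (min_le_right _ _)
  have hz' := hz.trans (min_le_right _ _)
  obtain ⟨r, hr⟩ : ∃ r, r = κ / ε := ⟨_, rfl⟩
  have r0 : 0 < r := by rw [hr]; positivity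
  have r1 : ε * r = κ := by rw [hr]; field_simp
  have C0 : 0 ≤ C := zero_le_one.trans ok.C1
  have zr : ‖z' - z‖ ≤ r := le_of_mul_le_mul_right (a := ε) (by linarith) e0
  have b : 10 * r + 3 ≤ 2 / ε := by
    rw [le_div_iff₀ e0]
    linarith
  have s : 4 * C * ε * (3 * r) = 12 * (C * κ) := by rw [← r1]; ring
  have s1 : 2 * ε ^ 2 ≤ t / 100 := by nlinarith
  obtain ⟨n', L', h', h0', g'⟩ := sh u ε (3 * r) z' ok e0 (e1.trans (min_le_left _ _))
    (by positivity) (fun x hx => g x (ball_subset_ball' (by rw [dist_eq_norm]; linarith) hx)) z1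
    (by linarith)
  have s2 : 4 * C * ε * r ≤ 4 * C * ε * (3 * r) :=
    mul_le_mul_of_nonneg_left (by linarith) (by positivity)
  obtain ⟨n, L, h, h0, g0⟩ := sh u ε r z ok e0 (e1.trans (min_le_left _ _)) r0
    (fun x hx => g x (ball_subset_ball (by linarith) hx)) z0 (by linarith)
  rcases eq_or_ne τ 0 with rfl | τ0
  · simp
  have τ1 := norm_pos_iff.2 τ0
  have c := cross gd ok (τ := ‖τ‖⁻¹ • τ) (Px.gr_mono g0 (by linarith)) g' h0 h0' (by linarith) r0 zr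
    (by rw [nu, inner_smul_left, inner_smul_right, real_inner_comm, hτ, mul_zero, mul_zero])
    (by rw [norm_smul, norm_inv, norm_norm, inv_mul_cancel₀ τ1.ne'])
  have c1 : 4 * ‖z' - z‖ / r ≤ t / 5 := by
    rw [div_le_iff₀ r0]
    refine le_of_mul_le_mul_right (a := ε) ?_ e0
    rw [mul_assoc (t / 5), mul_comm r, r1]
    linarith
  have c2 : ⟪τ, pp u z'⟫ = ‖pp u z'‖ * ‖τ‖ * ⟪nu u z', ‖τ‖⁻¹ • τ⟫ := by
    have := norm_ne_zero_iff.2 n'
    rw [nu, real_inner_smul_left, inner_smul_right, real_inner_comm]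
    field_simp
  rw [c2, abs_mul, abs_of_nonneg (by positivity), mul_comm θ]
  have p1 : ‖pp u z'‖ ≤ 1 := by
    have := ok.q0 z'
    rw [qq] at this
    nlinarith [norm_nonneg (pp u z')]
  exact mul_le_mul (mul_le_of_le_one_left τ1.le p1) (by linarith) (abs_nonneg _) τ1.le

end Vale.Agent.P134E
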