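import Vale.Agent.P134E.Fin0

/-!
# P134E: the right side of `TE0`
-/

set_option linter.unusedVariables false

open MeasureTheory Metric Filter Topology Set
open scoped ContDiff RealInnerProductSpace
open Vale.Agent.P366.Stmt (E)

noncomputable section

namespace Vale.Agent.P134E

open Vale.Agent.P134B
open Vale.Agent.P134C (Wt Bad Xi Rt dd Pos Ft Bd CNT CNR SLO)

theorem CostF.gd {n : ℕ} {C δ D : ℝ} {u : E n → ℝ} {y : E n} (rt : Rt C δ u) (D0 : 0 < D)
    (hy : D / 5 ≤ dd δ u y) : Gd u (80 * √C / D) y (4 / (80 * √C / D)) := fun x hx => by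
  have C1 : 1 ≤ √C := Real.one_le_sqrt.2 rt.ok.C1
  have a1 : dist x y < D / 20 := lt_of_lt_of_le hx (by
    rw [div_div_eq_mul_div, div_le_div_iff₀ (by positivity) (by norm_num)]; nlinarith)
  have a2 : dd δ u y ≤ dd δ u x + dist y x := infDist_le_infDist_add_dist
  have a3 : D / 80 ≤ dd δ u x := by rw [dist_comm] at a2; linarith
  have a4 := rt.rt x
  rw [div_pow, mul_pow, Real.sq_sqrt (by linarith [rt.ok.C1]), le_div_iff₀ (by positivity)]
  by_cases a5 : 0 ≤ EE u x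
  · nlinarith [mul_le_mul_of_nonneg_left (pow_le_pow_left₀ (by positivity) a3 2) a5]
  · nlinarith [rt.ok.C1, sq_nonneg D]

theorem CostF.ar {Kx Kf Cr Kp Ku v k3 K D P X l r ι e I1 I2 I3 J1 J2 : ℝ} (hx : 0 ≤ Kx)
    (hf : 1 ≤ Kf) (hr : 0 < Cr) (hp : 0 ≤ Kp) (hu : 1 ≤ Ku) (hv : 0 ≤ v) (hD : 2 ≤ D) (hP : 0 < P)
    (hX : 0 ≤ X) (h0 : 0 ≤ r) (hι : 0 ≤ ι) (he : 0 ≤ e) (q1 : Kx * Kf * (Cr * (Kp * 128)) ≤ K)
    (q2 : (Kx * (100 * Kf) + 1) * (Cr * ((3 * Ku) ^ 7 * v)) ≤ K) (q3 : k3 ≤ K)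
    (t1 : I1 ≤ Kx * Kf / (D ^ 2 * P) * J1 + Kx * (100 * Kf) * (l ^ 2 + r) * J2) (t2 : I2 ≤ J2)
    (t3 : I3 ≤ k3 * X) (j1 : J1 ≤ Cr * (Kp * (D + 2) ^ (6 + 1)) * X)
    (j2 : J2 ≤ Cr * ((3 * Ku) ^ 7 * v * e) * X) :
    I1 + ι * I2 + I3 ≤ K * (D ^ 5 / P + (l ^ 2 + r + ι) * e + 1) * X := by
  have D0 : 0 < D := by linarith
  have u1 : Kx * Kf / (D ^ 2 * P) * (Cr * (Kp * (D + 2) ^ (6 + 1)) * X) ≤ K * (D ^ 5 / P) * X :=
    calc _ ≤ Kx * Kf / (D ^ 2 * P) * (Cr * (Kp * (2 * D) ^ (6 + 1)) * X) := by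
          gcongr; linarith
      _ = Kx * Kf * (Cr * (Kp * 128)) * (D ^ 5 / P) * X := by field_simp; ring
      _ ≤ _ := by gcongr
  have u2 : (Kx * (100 * Kf) * (l ^ 2 + r) + ι) * (Cr * ((3 * Ku) ^ 7 * v * e) * X) ≤
      K * ((l ^ 2 + r + ι) * e) * X :=
    calc _ ≤ ((Kx * (100 * Kf) + 1) * (l ^ 2 + r + ι)) * (Cr * ((3 * Ku) ^ 7 * v * e) * X) := by
          gcongr
          have : 0 ≤ Kx * (100 * Kf) * ι + (l ^ 2 + r) := by positivity
          linarith
      _ = (Kx * (100 * Kf) + 1) * (Cr * ((3 * Ku) ^ 7 * v)) * ((l ^ 2 + r + ι) * e) * X := by ring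
      _ ≤ _ := by gcongr
  have u3 : k3 * X ≤ K * X := by gcongr
  have w1 := mul_le_mul_of_nonneg_left j1 (show 0 ≤ Kx * Kf / (D ^ 2 * P) by positivity)
  have w2 := mul_le_mul_of_nonneg_left j2 (show 0 ≤ Kx * (100 * Kf) * (l ^ 2 + r) by positivity)
  have w3 := mul_le_mul_of_nonneg_left (t2.trans j2) hι
  linarith

theorem CostF.fb {Kf ι g₀ S g : ℝ} {F Θ : ℝ → ℝ} (pf : Pf Kf ι g₀ S (100 * S) F Θ) (hf : 1 ≤ Kf)
    (hS : 1 ≤ S) (h2 : 2 ≤ g) (hg : g ≤ 100 * S) :
    F g ^ 2 ≤ Kf * (g ^ (4 / 5 : ℝ) / S ^ (4 / 5 : ℝ)) ∧ F g ^ 2 ≤ 100 * Kf := by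
  have S0 : 0 < S := by linarith
  have g0 : 0 ≤ g := by linarith
  have a := pf.up g (by linarith)
  refine ⟨by rwa [← Real.div_rpow g0 S0.le], a.trans ?_⟩
  rw [mul_comm 100]
  refine mul_le_mul_of_nonneg_left ?_ (by linarith)
  refine (Real.rpow_le_rpow (div_nonneg g0 S0.le) ((div_le_iff₀ S0).2 hg) (by norm_num)).trans ?_
  exact (Real.rpow_le_rpow_of_exponent_le (by norm_num) (by norm_num : (4 / 5 : ℝ) ≤ 1)).trans
    (by simp)

theorem CostF.vol {Ku S : ℝ} (hu : 1 ≤ Ku) (hS : 1 ≤ S) {A : Set (E 7)} (m2 : MeasurableSet A)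
    (z : E 7) : IntegrableOn (A.indicator fun _ => (1 : ℝ))
      (ball z (Ku * Real.exp (500 * S / 7) + 2)) ∧
    ∫ x in ball z (Ku * Real.exp (500 * S / 7) + 2), A.indicator (fun _ => (1 : ℝ)) x ≤
      (3 * Ku) ^ 7 * (volume : Measure (E 7)).real (ball 0 1) * Real.exp (500 * S) := by
  have e1 : 1 ≤ Real.exp (500 * S / 7) := Real.one_le_exp (by positivity)
  have a : IntegrableOn (fun _ : E 7 => (1 : ℝ)) (ball z (Ku * Real.exp (500 * S / 7) + 2)) :=
    integrableOn_const measure_ball_lt_top.ne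
  refine ⟨a.indicator m2, (integral_mono (a.indicator m2) a
    (indicator_le_self' fun _ _ => zero_le_one)).trans ?_⟩
  have e : Real.exp (500 * S) = Real.exp (500 * S / 7) ^ 7 := by
    rw [← Real.exp_nat_mul]; congr 1; push_cast; ring
  rw [setIntegral_const, smul_eq_mul, mul_one, Measure.real, Measure.addHaar_ball _ _ (by positivity),
    finrank_euclideanSpace_fin, ENNReal.toReal_mul, ENNReal.toReal_ofReal (by positivity), e,
    mul_right_comm, ← mul_pow, Measure.real]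
  gcongr
  nlinarith

theorem CostF.p1 {Kx Kf D P l r f a g w : ℝ} (hx : 0 ≤ Kx) (hD : 0 < D) (hP : 0 < P) (hr : 0 ≤ r)
    (f0 : 0 ≤ f) (F1 : f ≤ Kf * (g / P)) (F2 : f ≤ 100 * Kf) (hw : 0 ≤ w)
    (h : a ≤ Kx * (1 / D ^ 2 + l ^ 2 + r) * w) :
    f * a ≤ Kx * Kf / (D ^ 2 * P) * (g * w) + Kx * (100 * Kf) * (l ^ 2 + r) * (1 * w) := by
  refine (mul_le_mul_of_nonneg_left h f0).trans ?_
  have a := mul_le_mul_of_nonneg_right F1 (show 0 ≤ Kx * (1 / D ^ 2) * w by positivity)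
  have b := mul_le_mul_of_nonneg_right F2 (show 0 ≤ Kx * (l ^ 2 + r) * w by positivity)
  refine le_trans (le_of_eq (by ring)) ((add_le_add a b).trans (le_of_eq ?_))
  field_simp

theorem CostF.p3 {Kf c e d : ℝ} (hf : 1 ≤ Kf) (a : 2 ≤ d) (b : 0 ≤ e * d) (b' : e * d ≤ c) :
    100 * Kf * e ^ 80 * (1 + d) ^ (5 * 7 + 5) ≤ 100 * Kf * c ^ 80 := by
  rw [mul_assoc (100 * Kf)]
  refine mul_le_mul_of_nonneg_left (le_trans ?_ (pow_le_pow_left₀ b b' 80)) (by linarith)
  rw [mul_pow, show d ^ 80 = (d ^ 2) ^ (5 * 7 + 5) by ring]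
  exact mul_le_mul_of_nonneg_left (pow_le_pow_left₀ (by positivity) (by nlinarith) _)
    (by positivity)

theorem CostF.nums {Ku K S D l c β : ℝ} (hu : 1 ≤ Ku) (hS : 1 ≤ S) (hl : 0 ≤ l) (hβ : 0 < β)
    (hc : 0 ≤ c) (h1 : 500 * Ku ≤ K) (h2 : 8000 * c / β ≤ K) (hD : K * S ≤ D)
    (hK : l * (K * Real.exp (100 * S) + D + 2) ≤ 1) :
    500 * S ≤ D ∧ Ku * (100 * S) ≤ D / 5 ∧ 100 * S * (80 * c / D) ≤ β ∧ l * (D + 2) ≤ 1 ∧
      l * (Ku * Real.exp (500 * S / 7) + 2) ≤ 1 ∧ ∀ g ≤ 100 * S, g / √2 ≤ 500 * S / 7 := by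
  have D1 : 500 * Ku * S ≤ D := le_trans (by gcongr) hD
  have D2 : 8000 * c / β * S ≤ D := le_trans (by gcongr) hD
  have D3 : 500 * S ≤ D := by nlinarith
  have D0 : 0 < D := by linarith
  have K0 : 0 ≤ K := by linarith
  refine ⟨D3, by linarith, ?_, le_trans ?_ hK, le_trans ?_ hK, fun g hg => ?_⟩
  · rw [div_mul_eq_mul_div, div_le_iff₀ hβ] at D2
    rw [← mul_div_assoc, div_le_iff₀ D0]
    linarith
  · have : 0 ≤ K * Real.exp (100 * S) := by positivity
    gcongr; linarith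
  · have : Ku * Real.exp (500 * S / 7) ≤ K * Real.exp (100 * S) := by
      gcongr <;> linarith
    gcongr; linarith
  · have : 7 / 5 ≤ √2 := Real.le_sqrt_of_sq_le (by norm_num)
    rw [div_le_iff₀ (by positivity)]
    nlinarith

theorem costF : rCOST := fun greg cnt cnr cx pki upd C δ Kf hKf => by
  obtain ⟨Kx, hx, cx⟩ := cx
  obtain ⟨Kp, hp, β, hβ, pki⟩ := pki 6 C
  obtain ⟨Ku, hu, upd⟩ := upd 6 C δ
  obtain ⟨Cr, hr, cnr⟩ := cnr 7
  obtain ⟨Ct, ht, cnt⟩ := cnt 7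
  have hv : 0 ≤ (volume : Measure (E 7)).real (ball 0 1) := measureReal_nonneg
  obtain ⟨K, K1, q0, q0', q1, q2, q3⟩ : ∃ K, 1 ≤ K ∧ 500 * Ku ≤ K ∧ 8000 * √C / β ≤ K ∧
      Kx * Kf * (Cr * (Kp * 128)) ≤ K ∧ (Kx * (100 * Kf) + 1) * (Cr * ((3 * Ku) ^ 7 *
        (volume : Measure (E 7)).real (ball 0 1))) ≤ K ∧ Ct * (100 * Kf * (64 * √C) ^ 80) ≤ K :=
    ⟨max 1 (max _ (max _ (max _ (max _ _)))), le_max_left _ _, le_max_of_le_right (le_max_left _ _),
      le_max_of_le_right (le_max_of_le_right (le_max_left _ _)),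
      le_max_of_le_right (le_max_of_le_right (le_max_of_le_right (le_max_left _ _))),
      le_max_of_le_right (le_max_of_le_right (le_max_of_le_right (le_max_of_le_right
        (le_max_left _ _)))),
      le_max_of_le_right (le_max_of_le_right (le_max_of_le_right (le_max_of_le_right
        (le_max_right _ _))))⟩
  refine ⟨K, K1, fun u ρ ζ l S D R ι g₀ F Θ rt rd wt pf hS hD hR hι hl hlK => ?_⟩
  obtain ⟨D3, D1, D2, l1, l2, sq⟩ := CostF.nums hu hS hl hβ (Real.sqrt_nonneg C) q0 q0' hD hlK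
  have C1 : 1 ≤ √C := Real.one_le_sqrt.2 rt.ok.C1
  have D0 : 0 < D := by linarith only [D3, hS]
  have G2 : 2 ≤ 100 * S := by linarith only [hS]
  have f0 : 0 ≤ Kf := by linarith only [hKf]
  obtain ⟨mg, gr⟩ := greg 7 C (100 * S) u rt.ok G2
  obtain ⟨-, c⟩ := cx 7 C δ l D R (100 * S) _ u ρ ζ rt rd wt (by linarith only [D3, hS]) hR G2 le_rfl
  have cd : Continuous (dd δ u) := continuous_infDist_pt _
  have mB : MeasurableSet (Bs δ u D) := ((isClosed_le rt.ok.smp.continuous.abs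
    continuous_const).inter (isClosed_le continuous_const cd)).measurableSet
  have m1 : MeasurableSet (Bs δ u D ∩ {y | dd δ u y < D}) :=
    mB.inter (measurableSet_lt cd.measurable measurable_const)
  have m2 : MeasurableSet (Bs δ u D ∩ {y | gp u (100 * S) y < 100 * S}) :=
    mB.inter (measurableSet_lt mg measurable_const)
  have g0 : ∀ y, 0 ≤ gp u (100 * S) y ^ (4 / 5 : ℝ) := fun y =>
    Real.rpow_nonneg (zero_le_two.trans (gr y).1) _
  have S0 : 0 < S ^ (4 / 5 : ℝ) := Real.rpow_pos_of_pos (one_pos.trans_le hS) _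
  have fb := fun y => CostF.fb pf hKf hS (gr y).1 (gr y).2.1
  obtain ⟨i1, j1⟩ := cnr (Bad δ u) l (Kp * (D + 2) ^ (6 + 1)) D ζ
    ((Bs δ u D ∩ {y | dd δ u y < D}).indicator fun y => gp u (100 * S) y ^ (4 / 5 : ℝ)) rt.ne wt hl
    l1 (fun x => indicator_nonneg (fun y _ => g0 y) x) ((mg.pow_const _).indicator m1)
    (fun x hx => indicator_of_notMem (fun h => lt_asymm hx h.2) _) fun z => by
      rw [IntegrableOn, integrable_indicator_iff m1, IntegrableOn, Measure.restrict_restrict m1,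
        integral_indicator m1, Measure.restrict_restrict m1]
      exact pki u (80 * √C / D) (100 * S) (D + 2) _ z rt.ok D2 G2 (by linarith only [D3, hS]) m1
        fun y hy => ⟨by positivity, CostF.gd rt D0 hy.1.2, hy.1.1, G2⟩
  obtain ⟨i2, j2⟩ := cnr (Bad δ u) l _ (Ku * Real.exp (500 * S / 7)) ζ
    ((Bs δ u D ∩ {y | gp u (100 * S) y < 100 * S}).indicator fun _ => 1) rt.ne wt hl l2
    (fun x => indicator_nonneg (fun y _ => zero_le_one) x) (measurable_const.indicator m2)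
    (fun x hx => indicator_of_notMem (fun h => not_le.2 hx
      ((upd u x (100 * S) rt h.1.1 G2 (D1.trans h.1.2) h.2).trans (mul_le_mul_of_nonneg_left
        (Real.exp_le_exp.2 (sq _ (gr x).2.1)) (zero_le_one.trans hu)))) _) (CostF.vol hu hS m2)
  have ce : Continuous (ee C ρ) := continuous_const.div
    ((continuous_const.add (rd.c1.continuous.pow 2)).sqrt) fun y => by positivity
  obtain ⟨i3, j3⟩ := cnt (Bad δ u) l (100 * Kf * (64 * √C) ^ 80) ζ
    ((Bs δ u D).indicator fun y => 100 * Kf * ee C ρ y ^ 80) rt.ne wt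
    (fun x => indicator_nonneg (fun y _ => by positivity) x)
    (((continuous_const.mul (ce.pow 80)).measurable.indicator mB).aestronglyMeasurable)
    (Eventually.of_forall fun x => by
      by_cases h : x ∈ Bs δ u D
      · have a : 2 ≤ dd δ u x := by linarith only [h.2, D3, hS]
        have b := (c x).2.2.2.2.2 a
        rw [indicator_of_mem h]
        exact CostF.p3 hKf a (le_trans (by positivity) b.1) b.2.1
      · rw [indicator_of_notMem h, zero_mul]; positivity)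
  have t1 := integral_mono_of_nonneg (μ := volume) (f := fun y => F (gp u (100 * S) y) ^ 2 *
      ‖Pj u y (gradient (zc u ρ ζ D R) y)‖ ^ 2) (Eventually.of_forall fun _ => by positivity)
    ((i1.const_mul (Kx * Kf / (D ^ 2 * S ^ (4 / 5 : ℝ)))).add
      (i2.const_mul (Kx * (100 * Kf) * (l ^ 2 + 1 / R ^ 2)))) (Eventually.of_forall fun y => by
      have n1 := indicator_nonneg (s := Bs δ u D ∩ {y | dd δ u y < D}) (fun y _ => g0 y) y
      have n2 := indicator_nonneg (s := Bs δ u D ∩ {y | gp u (100 * S) y < 100 * S})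
        (f := fun _ => (1 : ℝ)) (fun y _ => zero_le_one) y
      simp only [Pi.add_apply]
      by_cases h : y ∈ Bs δ u D
      swap
      · rw [((c y).1 h).2, map_zero, norm_zero, zero_pow two_ne_zero, mul_zero]; positivity
      by_cases h' : gp u (100 * S) y < 100 * S
      swap
      · rw [(pf.ze _ (by linarith only [h'])).1, zero_pow two_ne_zero, zero_mul]; positivity
      rw [indicator_of_mem (s := Bs δ u D ∩ {y | gp u (100 * S) y < 100 * S}) ⟨h, h'⟩]
      by_cases h'' : dd δ u y < D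
      · rw [indicator_of_mem (s := Bs δ u D ∩ {y | dd δ u y < D}) ⟨h, h''⟩]
        exact CostF.p1 hx D0 S0 (by positivity) (sq_nonneg _) (fb y).1 (fb y).2 (sq_nonneg _)
          (c y).2.2.1
      · exact (mul_le_mul (fb y).2 ((c y).2.2.2.1 (not_lt.1 h'')) (sq_nonneg _)
          (by positivity)).trans (le_add_of_nonneg_of_le (by positivity) (le_of_eq (by ring))))
  have t2 : ∫ y in {y | gp u (100 * S) y < 100 * S}, zc u ρ ζ D R y ^ 2 ≤ ∫ y,
      (Bs δ u D ∩ {y | gp u (100 * S) y < 100 * S}).indicator (fun _ => 1) y * ζ y ^ 2 := by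
    rw [← integral_indicator (measurableSet_lt mg measurable_const)]
    refine integral_mono_of_nonneg (Eventually.of_forall fun y => indicator_nonneg
      (fun _ _ => sq_nonneg _) y) i2 (Eventually.of_forall fun y => ?_)
    have n2 := indicator_nonneg (s := Bs δ u D ∩ {y | gp u (100 * S) y < 100 * S})
      (f := fun _ => (1 : ℝ)) (fun y _ => zero_le_one) y
    refine indicator_apply_le' (fun h' => ?_) fun _ => by positivity
    by_cases h : y ∈ Bs δ u D
    · simp only [indicator_of_mem (s := Bs δ u D ∩ {y | gp u (100 * S) y < 100 * S}) ⟨h, h'⟩,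
        one_mul]
      exact (c y).2.1
    · rw [((c y).1 h).1, zero_pow two_ne_zero]; positivity
  have t3 := integral_mono_of_nonneg (μ := volume)
    (f := fun y => et u (zc u ρ ζ D R) (100 * S) F y ^ 2 * ee C ρ y ^ 80)
    (Eventually.of_forall fun _ => by positivity) i3 (Eventually.of_forall fun y => by
      simp only [et, mul_pow]
      by_cases h : y ∈ Bs δ u D
      · rw [indicator_of_mem h, mul_right_comm _ _ (ζ y ^ 2)]
        exact mul_le_mul_of_nonneg_right (mul_le_mul (fb y).2 (c y).2.1 (sq_nonneg _)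
          (by positivity)) (by positivity)
      · simp [((c y).1 h).1, indicator_of_notMem h])
  rw [integral_add' (i1.const_mul _) (i2.const_mul _), integral_const_mul, integral_const_mul] at t1
  exact CostF.ar hx hKf hr hp hu hv (by linarith only [D3, hS]) S0
    (integral_nonneg fun _ => sq_nonneg _) (by positivity) hι (by positivity) q1 q2 q3 t1 t2
    (t3.trans j3) j1 j2

end Vale.Agent.P134E
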