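import Vale.Agent.P134E.Fin0

/-!
# P134E: the row COVA, the area inequality against an integrable density
-/

set_option linter.unusedVariables false

open MeasureTheory Metric Filter Topology Set
open scoped ContDiff RealInnerProductSpace
open Vale.Agent.P366.Stmt (E)

noncomputable section

namespace Vale.Agent.P134E

open Vale.Agent.P134B

theorem cova : rCOVA := by
  classical
  intro tgc ar n C c u φ H S h hφ hφ0 hH hH0 hc hS
  obtain ⟨hU, hJ, -, hy, -, -⟩ := tgc n C u h
  have hg : ContinuousOn (fun z => c * (φ (ray u z) * JJ u z)) (UU u) := by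
    refine continuousOn_const.mul (ContinuousOn.mul (fun z hz => ?_) hJ)
    have h1 : ContinuousAt (ray u) z := ((hy z.1 hz.1).2.2.2.2.1 z.2).continuousAt
    exact (hφ.continuousAt.comp h1).continuousWithinAt
  have hm : Measurable ((UU u).piecewise (fun z => c * (φ (ray u z) * JJ u z)) (fun _ => 0)) :=
    hg.measurable_piecewise continuousOn_const hU.measurableSet
  have hH' : Measurable (hH.1.mk H) := hH.1.stronglyMeasurable_mk.measurable
  set N : Set (E n × ℝ) := toMeasurable volume {z | ¬ H z = hH.1.mk H z} with hN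
  have hN0 : volume N = 0 := by
    rw [hN, measure_toMeasurable]
    exact hH.1.ae_eq_mk
  set Z : Set (E n × ℝ) := UU u ∩
    ({z | (UU u).piecewise (fun z => c * (φ (ray u z) * JJ u z)) (fun _ => 0) z ≤
      hH.1.mk H z} ∪ N) with hZ
  have hZm : MeasurableSet Z :=
    hU.measurableSet.inter ((measurableSet_le hm hH').union (measurableSet_toMeasurable _ _))
  have hA := ar n C u φ Z S h hZm inter_subset_left (fun w hw => by
    obtain ⟨z, hz, e1, e2, e3⟩ := hS w hw
    refine ⟨z, ⟨hz, ?_⟩, e1, e2⟩
    by_cases e : H z = hH.1.mk H z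
    · left
      rw [mem_ofPred_eq, piecewise_eq_of_mem _ _ _ hz, ← e, e1]
      exact e3
    · right
      exact subset_toMeasurable _ _ e)
  have hae : ∀ᵐ z ∂(volume : Measure (E n × ℝ)), z ∉ N := measure_eq_zero_iff_ae_notMem.1 hN0
  calc ENNReal.ofReal c * ∫⁻ w in S, ENNReal.ofReal (φ w.1)
      ≤ ENNReal.ofReal c * ∫⁻ z in Z, ENNReal.ofReal (φ (ray u z) * JJ u z) := by gcongr
    _ = ∫⁻ z in Z, ENNReal.ofReal (c * (φ (ray u z) * JJ u z)) := by
        rw [← lintegral_const_mul' _ _ ENNReal.ofReal_ne_top]
        simp only [ENNReal.ofReal_mul hc.le]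
    _ ≤ ∫⁻ z in Z, ENNReal.ofReal (H z) := by
        refine lintegral_mono_ae ((ae_restrict_iff' hZm).2 ?_)
        filter_upwards [hae] with z hz hzZ
        have e : H z = hH.1.mk H z := by
          by_contra e
          exact hz (subset_toMeasurable _ _ e)
        rcases hzZ.2 with h1 | h1
        · have h2 : (UU u).piecewise (fun z => c * (φ (ray u z) * JJ u z)) (fun _ => 0) z ≤
              hH.1.mk H z := h1
          rw [piecewise_eq_of_mem _ _ _ hzZ.1, ← e] at h2
          exact ENNReal.ofReal_le_ofReal h2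
        · exact absurd h1 hz
    _ ≤ ∫⁻ z, ENNReal.ofReal (H z) := setLIntegral_le_lintegral _ _
    _ = ENNReal.ofReal (∫ z, H z) :=
        (ofReal_integral_eq_lintegral_ofReal hH (Eventually.of_forall hH0)).symm

end Vale.Agent.P134E
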