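import Vale.Agent.P134E.Lib
import Vale.Agent.P134C.Top

/-!
# P134E: points on a ray at which the cuts are trivial
-/

open MeasureTheory Metric Filter Topology Set
open scoped ContDiff RealInnerProductSpace
open Vale.Agent.P366.Stmt (E)

noncomputable section

namespace Vale.Agent.P134E.Cov0

open Vale.Agent.P134B
open Vale.Agent.P134C (Pos Ft)

variable {n : ℕ} {C K η L ℓ δ ε G T a t : ℝ} {u e : E n → ℝ} {x y : E n}

theorem dps (h : Ok C u) (y : E n) (t : ℝ) :
    HasDerivAt (fun t => ps u (ray u (y, t))) (sl u (y, t)) t := by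
  have h1 : HasDerivAt (fun τ : ℝ => y + τ • nu u y) (nu u y) t := by
    simpa using ((hasDerivAt_id t).smul_const (nu u y)).const_add y
  exact (h.smp.differentiable (by simp) _).hasGradientAt.hasFDerivAt.comp_hasDerivAt t h1

theorem nu_neg (hS : SYM) (u : E n → ℝ) (y : E n) : nu (-u) y = -nu u y := by
  simp [nu, (hS.1 n u).1.2.2.1]

theorem ray_neg (hS : SYM) (u : E n → ℝ) (y : E n) (t : ℝ) : ray (-u) (y, -t) = ray u (y, t) := by
  simp [ray, nu_neg hS]

theorem sl_neg (hS : SYM) (u : E n → ℝ) (y : E n) (t : ℝ) : sl (-u) (y, -t) = sl u (y, t) := by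
  rw [sl, ray_neg hS, nu_neg hS, (hS.1 n u).1.2.2.1, sl]
  simp

theorem ft_neg (hS : SYM) (h : Ft u T x y t) : Ft (-u) T x y (-t) := by
  refine ⟨h.eq.trans (ray_neg hS u y t).symm, ?_, by simpa using h.le, fun t' ht k => ?_⟩
  · rw [(hS.1 n u).1.1]; simpa using h.lo
  · have k1 := ray_neg hS u y (-t')
    rw [neg_neg] at k1
    have k2 : ps (-u) (ray (-u) (y, t')) = ps (-u) y := k
    rw [k1, (hS.1 n u).1.1] at k2
    refine h.ne (-t') ?_ (neg_injective k2)
    simp only [uIoo, mem_Ioo, min_lt_iff, lt_max_iff] at ht ⊢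
    exact ⟨ht.2.imp (fun k => by linarith) fun k => by linarith,
      ht.1.imp (fun k => by linarith) fun k => by linarith⟩

theorem nu_le (u : E n → ℝ) (y : E n) : ‖nu u y‖ ≤ 1 := by
  rw [nu, norm_smul, norm_inv, norm_norm]
  exact inv_mul_le_one

theorem dist_le (h : Ft u T x y t) : dist x y ≤ |t| := by
  rw [h.eq, dist_self_add_left, norm_smul]
  exact mul_le_of_le_one_right (abs_nonneg t) (nu_le u y)

/-- the gap is at least `a` -/
theorem lo (hr : Ry C K η L ℓ δ u ε G y) (hp : Pos u y a) : a ≤ gp u G y := by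
  by_contra hn
  have h1 := hr.rm.1
  have h2 := hr.L1
  exact (hp _ ⟨by linarith, (not_le.1 hn).le⟩).ne' hr.r1.1

/-- a foot is not farther away than the gap -/
theorem up (h : Ok C u) (hr : Ry C K η L 1 δ u ε G y) (hF : Ft u T x y t) : t ≤ gp u G y + 1 := by
  by_contra hn
  have h1 := hr.rm.1
  have h2 := hr.L1
  have h3 := hr.rm.2.2.1 L ⟨le_rfl, by linarith⟩
  have h4 : ps u (ray u (y, gp u G y)) = 0 := by simp [ps, hr.r1.1]
  have h5 := abs_le.1 hF.lo
  have h7 := hr.η1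
  have hc : Continuous fun t => ps u (ray u (y, t)) :=
    continuous_iff_continuousAt.2 fun t => (dps h y t).continuousAt
  obtain ⟨c, hc1, hc2⟩ := exists_hasDerivAt_eq_slope _ _ (lt_add_one (gp u G y)) hc.continuousOn
    fun t _ => dps h y t
  have h6 := (hr.r1.2 c (abs_le.2 ⟨by linarith [hc1.1], by linarith [hc1.2]⟩)).1
  rw [hc2, h4, add_sub_cancel_left, div_one] at h6
  obtain ⟨s, hs, k⟩ := intermediate_value_Icc' (show L ≤ gp u G y + 1 by linarith) hc.continuousOn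
    (show ps u y ∈ Icc _ _ from ⟨by linarith [h5.1], by linarith [h5.2]⟩)
  refine hF.ne s ?_ k
  rw [uIoo_of_le (by linarith)]
  exact ⟨by linarith [hs.1], by linarith [hs.2]⟩

/-- the heights between the two sheets -/
theorem inn (hW : REGW) (h : Ok C u) (hr : Ry C K η L ℓ δ u (e y) G y) (t0 : 0 ≤ t)
    (t1 : t ≤ gp u G y + 1) : (y, t) ∈ UU u ∧ aa u e G (y, t) = 1 ∧ 1 / 2 ≤ sv u G (y, t) := by
  obtain ⟨B, -, hW⟩ := hW
  have h1 := hr.L1
  have h2 := hr.lg
  have h3 := hr.gG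
  obtain ⟨k1, k2⟩ := (hW n C K η L ℓ δ G u e y h hr).2.2.2.2.2.1 t ⟨by linarith, by linarith⟩
  refine ⟨(hr.ra.2 t (abs_le.2 ⟨by linarith, by linarith⟩)).1, ?_, k1⟩
  rw [aa, k2, aT, st_one (by simp only; linarith), st_one (by simp only; linarith)]
  simp

/-- the heights on the outer side -/
theorem out (hr : Ry C K η L ℓ δ u (e y) G y) (t0 : 0 ≤ t) (t1 : t + 1 ≤ 64 * lg (e y))
    (hs : ∀ s ∈ Icc (-t) 0, 1 / 2 ≤ sl u (y, s)) :
    (y, -t) ∈ UU u ∧ aa u e G (y, -t) = 1 ∧ 1 / 2 ≤ sv u G (y, -t) := by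
  have h1 := hr.L1
  have h2 := hr.lg
  have h3 := hr.gG
  have h4 := hr.rm.1
  have k : ∀ s ∈ Icc (-t) 0, 1 / 2 ≤ sv u G (y, s) := fun s hs' => by
    rw [sv, if_pos (by simp only; linarith [hs'.2])]
    exact hs s hs'
  have k1 := k (-t) ⟨le_rfl, by linarith⟩
  have k2 : (y, -t) ∈ WW u G := fun s hs' => by
    rw [uIcc_of_ge (by simp only; linarith)] at hs'
    linarith [k s hs']
  refine ⟨(hr.ra.2 (-t) (abs_le.2 ⟨by linarith, by linarith⟩)).1, ?_, k1⟩
  rw [aa, aW, indicator_of_mem k2, aT, st_one (by simp only; linarith),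
    st_one (by simp only; linarith), st_one (by linarith)]
  simp

/-- a zero below the height `b` -/
theorem gp_le (hG : GREG) (h : Ok C u) (G2 : 2 ≤ G) (hp : ¬Pos u y a) : gp u G y ≤ a := by
  by_contra hn
  exact hp fun t ht => ((hG n C G u h G2).2 y).2.2.1 t ht.1 (ht.2.trans_lt (not_le.1 hn))

theorem pos_mono {b : ℝ} (hp : Pos u y b) (hab : a ≤ b) : Pos u y a :=
  fun t ht => hp t ⟨ht.1, ht.2.trans hab⟩

end Vale.Agent.P134E.Cov0
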