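import Vale.Agent.P134E.Fin0
import Vale.Agent.P134E.Cov0
import Vale.Agent.P134C.WT

/-!
# P134E, row CVP: the coverage of a point
-/

set_option linter.unusedVariables false

open MeasureTheory Metric Filter Topology Set
open scoped ContDiff RealInnerProductSpace
open Vale.Agent.P366.Stmt (E)

noncomputable section

namespace Vale.Agent.P134E

open Vale.Agent.P134B
open Vale.Agent.P134C (Pos Ft Bad Rt dd Bd)

namespace Cvp

open Cov0

variable {n : ℕ} {C K η L ℓ δ ε G S T a b t : ℝ} {u e : E n → ℝ} {x y : E n}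

/-- a foot below the point -/
theorem one (hS : SYM) (hG : GREG) (hW : REGW) (h : Ok C u) (G2 : 2 ≤ G)
    (r1 : gp u G y < G → Ry C K η L 1 δ u (e y) G y)
    (r2 : gp (-u) G y < G → Ry C K η L 1 δ (-u) (e y) G y)
    (hF : Ft u T x y t) (t0 : 0 ≤ t) (p1 : Pos u y a) (p2 : Pos (-u) y a)
    (p3 : ¬(Pos u y b ∧ Pos (-u) y b)) (hT : T + 1 ≤ 64 * lg (e y)) (bS : b ≤ S) (SG : S < G)
    (hs : Pos u y S → ∀ s ∈ Icc 0 t, 1 / 2 ≤ sl u (y, s)) :
    Cv u e G S a x y t ∨ Cv (-u) e G S a x y (-t) := by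
  by_cases c1 : gp u G y ≤ S
  · have hr := r1 (c1.trans_lt SG)
    obtain ⟨k1, k2, k3⟩ := inn hW h hr t0 (up h hr hF)
    exact .inl ⟨hF.eq.symm, k1, lo hr p1, c1, k2, k3⟩
  have p4 : Pos u y S := by
    by_contra hn
    exact c1 (gp_le hG h G2 hn)
  have c2 := gp_le hG ((hS.1 n u).2.1 C h) G2 fun k => p3 ⟨pos_mono p4 bS, k⟩
  have hr := r2 (c2.trans_lt (bS.trans_lt SG))
  obtain ⟨k1, k2, k3⟩ := out hr t0 (by linarith [(le_abs_self t).trans hF.le]) fun s k => by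
    rw [← neg_neg s, sl_neg hS]
    exact hs p4 _ ⟨by linarith [k.2], by linarith [k.1]⟩
  exact .inr ⟨(ray_neg hS u y t).trans hF.eq.symm, k1, lo hr p2, c2.trans bS, k2, k3⟩

/-- the slope below a long gap -/
theorem slope {A d₀ d : ℝ} (hL : ∀ (x y : E n) (t : ℝ), d₀ ≤ dd δ u x →
      Ft u (60 * Real.log (dd δ u x)) x y t → 0 ≤ t → Pos u y (3 * t + A) →
      1 - 1 / 2 ≤ pe u (P134C.nu u y) x) (hF : Ft u (30 * Real.log d) x y t)
    (h1 : 3 / 4 * d ≤ dd δ u y) (h2 : 120 * Real.log d ≤ d) (h3 : 2 * d₀ ≤ d) (h4 : 2 ≤ Real.log d)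
    (h5 : 3 * |t| + A ≤ S) (hp : Pos u y S) : ∀ s ∈ Icc 0 t, 1 / 2 ≤ sl u (y, s) := by
  intro s hs
  have k0 := hs.2.trans (le_abs_self t)
  have k1 := k0.trans hF.le
  have k2 : dd δ u y ≤ dd δ u (ray u (y, s)) + dist y (ray u (y, s)) := infDist_le_infDist_add_dist
  have k3 : dist y (ray u (y, s)) ≤ s := by
    rw [ray, dist_self_add_right, norm_smul, Real.norm_of_nonneg hs.1]
    exact mul_le_of_le_one_right hs.1 (nu_le u y)
  have k4 := Real.log_le_log (show 0 < d / 2 by linarith)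
    (show d / 2 ≤ dd δ u (ray u (y, s)) by linarith)
  rw [Real.log_div (by linarith) (by norm_num)] at k4
  have := hL (ray u (y, s)) y s (by linarith) ⟨rfl, hF.lo, by
    rw [abs_of_nonneg hs.1]; linarith [Real.log_two_lt_d9], fun t' ht' => hF.ne t' (by
      rw [uIoo_of_le hs.1] at ht'
      rw [uIoo_of_le (hs.1.trans hs.2)]
      exact ⟨ht'.1, ht'.2.trans_le hs.2⟩)⟩ hs.1 (pos_mono hp (by linarith))
  exact le_trans (by norm_num) this

theorem ev (c d₁ A : ℝ) : ∃ s' : ℝ, ∀ s ≥ s', ∀ d, s ^ (41 / 40 : ℝ) ≤ d → 1 ≤ s ∧ c ≤ s ∧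
    A * s ≤ d ∧ 120 * Real.log d ≤ d ∧ d₁ ≤ d ∧ c ≤ Real.log d := by
  obtain ⟨d₀, hd⟩ := eventually_atTop.1 ((eventually_ge_atTop d₁).and ((eventually_ge_atTop 0).and
    ((Real.tendsto_log_atTop.eventually_ge_atTop c).and
      (Real.isLittleO_log_id_atTop.bound (c := 1 / 120) (by positivity)))))
  obtain ⟨s', hs⟩ := eventually_atTop.1 ((eventually_ge_atTop (1 : ℝ)).and
    ((eventually_ge_atTop c).and ((eventually_ge_atTop d₀).and
      ((tendsto_rpow_atTop (y := 1 / 40) (by norm_num)).eventually_ge_atTop (max A 1)))))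
  refine ⟨s', fun s h d hsd => ?_⟩
  obtain ⟨b1, b2, b3, b4⟩ := hs s h
  rw [show (41 / 40 : ℝ) = 1 / 40 + 1 by norm_num, Real.rpow_add_one (by linarith)] at hsd
  have b5 := (mul_le_mul_of_nonneg_right b4 (by linarith : 0 ≤ s)).trans hsd
  have b6 := (mul_le_mul_of_nonneg_right (le_max_left A 1) (by linarith : 0 ≤ s)).trans b5
  have b7 := (mul_le_mul_of_nonneg_right (le_max_right A 1) (by linarith : 0 ≤ s)).trans b5
  obtain ⟨a1, a2, a3, a4⟩ := hd d (by linarith)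
  rw [id, Real.norm_of_nonneg a2] at a4
  exact ⟨b1, b2, b6, by linarith [le_abs_self (Real.log d), Real.norm_eq_abs (Real.log d)], a1, a3⟩

/-- the scale at the foot -/
theorem scale {β d d' r : ℝ} (r0 : 0 < r) (β0 : 0 < β) (d0 : 0 < d) (h0 : 3 / 4 * d ≤ d')
    (h1 : 16 * r ≤ ε * d') (h2 : ε * d' ≤ 64 * r) (G0 : 0 ≤ G) (h3 : 100 * r / β * G ≤ d) :
    0 < ε ∧ G * ε ≤ β ∧ Real.log d - Real.log (128 * r) ≤ lg ε := by
  have e0 : 0 < ε := (mul_pos_iff_of_pos_right (by linarith : 0 < d')).1 (by linarith)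
  have h4 : ε * d ≤ 100 * r := by nlinarith
  rw [div_mul_eq_mul_div, div_le_iff₀ β0] at h3
  refine ⟨e0, le_of_mul_le_mul_right ?_ d0, ?_⟩
  · nlinarith [mul_le_mul_of_nonneg_left h4 G0]
  · have := Real.log_le_log (mul_pos e0 d0) (show ε * d ≤ 128 * r by linarith)
    rw [Real.log_mul e0.ne' d0.ne'] at this
    rw [lg]
    linarith

/-- a short gap bounds the distance -/
theorem short {d d' g : ℝ} (K1 : 1 ≤ K) (d0 : 0 < d) (h0 : 3 / 4 * d ≤ d')
    (h1 : d' ≤ K * Real.exp (g / √2)) (g0 : 0 ≤ g) (h2 : g ≤ b) :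
    Real.log d ≤ Real.log (2 * K) + b := by
  have h3 : K * Real.exp (g / √2) ≤ K * Real.exp b := by
    gcongr
    exact (div_le_self g0 (Real.one_le_sqrt.2 (by norm_num))).trans h2
  have := Real.log_le_log d0 (show d ≤ 2 * K * Real.exp b by linarith)
  rwa [Real.log_mul (by linarith) (Real.exp_pos b).ne', Real.log_exp] at this

end Cvp

open Cov0 Cvp in
theorem cvp : rCVP := by
  intro hS hG hR hW hX hU hL m C δ M M1
  obtain ⟨L, hR⟩ := hR m C 1
  obtain ⟨K, -, hR⟩ := hR L le_rfl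
  obtain ⟨β, β0, hR⟩ := hR (1 / 1000) (1 / 1000) (by norm_num) le_rfl (by norm_num) le_rfl
  obtain ⟨K₂, K1, hU⟩ := hU m C δ
  obtain ⟨A, A0, d₀, hL⟩ := hL m C δ 60 (1 / 2) (by norm_num)
  obtain ⟨_, -, hX⟩ := hX
  obtain ⟨ζ, hζ⟩ := P134C.wt_ex (m + 1) 1 one_pos
  obtain ⟨M₂, hM⟩ : ∃ M₂, M₂ = 181 * M + A := ⟨_, rfl⟩
  obtain ⟨s', hs⟩ := ev (2 + 2 * |Real.log (128 * √C)| + |Real.log (2 * K₂)|) (2 * |d₀| + 4)
    ((100 * √C / β + 2 * K₂) * (100 * M₂))
  refine ⟨M₂, by linarith, s', fun u ρ x y s t hu hρ h1 h2 hB hF => ?_⟩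
  obtain ⟨a1, a2, a3, a4, a5, a6⟩ := hs s h1 _ h2
  obtain ⟨p1, p2, p3⟩ := hB y t hF
  have ok := hu.ok
  have r0 : 0 < √C := Real.sqrt_pos.2 (by linarith [ok.C1])
  have c1 := le_abs_self (Real.log (128 * √C))
  have c2 := le_abs_self (Real.log (2 * K₂))
  have c3 := abs_nonneg (Real.log (128 * √C))
  have c4 := abs_nonneg (Real.log (2 * K₂))
  have c5 := le_abs_self d₀
  have c6 := abs_nonneg d₀
  have sy := hS.1 _ u
  have e1 : Bad δ (-u) = Bad δ u := by rw [Bad, sy.1.2.2.2.2.2, Bad]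
  have e2 : dd δ (-u) = dd δ u := funext fun x => by rw [dd, e1, dd]
  have hu' : Rt C δ (-u) := ⟨sy.2.1 C ok, sy.2.2.1 hu.st, hu.d0, e1.symm ▸ hu.ne, fun x => by
    rw [e2, sy.1.2.2.2.2.2]; exact hu.rt x⟩
  have b0 : dd δ u x ≤ dd δ u y + dist x y := infDist_le_infDist_add_dist
  have b1 : 3 / 4 * dd δ u x ≤ dd δ u y := by linarith [dist_le hF, hF.le]
  have m1 : s ≤ M * s := le_mul_of_one_le_left (by linarith) M1
  have m2 : A ≤ A * s := le_mul_of_one_le_right A0.le a1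
  have m3 : M₂ * s = 181 * (M * s) + A * s := by rw [hM]; ring
  have m6 : 100 * √C / β * (100 * (M₂ * s)) + 2 * (K₂ * (100 * (M₂ * s))) ≤ dd δ u x :=
    le_of_eq_of_le (by ring) a3
  clear a3 hs
  generalize M₂ * s = S at *
  have G2 : 2 ≤ 100 * S := by linarith
  have m4 : 0 ≤ 100 * √C / β * (100 * S) := mul_nonneg (by positivity) (by linarith)
  have m5 : 0 ≤ K₂ * (100 * S) := mul_nonneg (by linarith) (by linarith)
  obtain ⟨x1, x2, x3⟩ := ((hX _ C δ 1 20 1 2 _ u ρ ζ hu hρ hζ le_rfl one_pos le_rfl le_rfl).2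
    y).2.2.2.2.2 (by linarith)
  obtain ⟨s0, s1, s2⟩ := scale (G := 100 * S) r0 β0 (by linarith) b1 x1 x2 (by linarith)
    (by linarith)
  have hF' := ft_neg hS hF
  have l1 := hF.lo.trans (show 1 / 2 ≤ (1 : ℝ) by norm_num)
  have l2 := hF'.lo.trans (show 1 / 2 ≤ (1 : ℝ) by norm_num)
  have r1 := (hR u _ _ y ok ⟨s0, x3, l1, G2⟩ s1).2
  have r2 := (hR (-u) _ _ y hu'.ok ⟨s0, fun z hz => by rw [sy.1.2.2.2.2.2]; exact x3 z hz, l2, G2⟩
    s1).2
  have sh : ∀ v, Rt C δ v → dd δ v = dd δ u → |ps v y| ≤ 1 → ¬Pos v y (M * s) →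
      Real.log (dd δ u x) ≤ Real.log (2 * K₂) + M * s := fun v k1 k2 k3 k4 => by
    have k5 := gp_le hG k1.ok G2 k4
    have k6 := hU v y _ k1 k3 G2 (by rw [k2]; linarith) (by linarith)
    rw [k2] at k6
    exact short K1 (by linarith) b1 k6 (by linarith [((hG _ C _ v k1.ok G2).2 y).1]) k5
  have lt : |t| ≤ 60 * (M * s) := by
    rcases not_and_or.1 p3 with k | k
    · linarith [sh u hu rfl l1 k, hF.le]
    · linarith [sh (-u) hu' e2 l2 k, hF.le]
  have hT : 30 * Real.log (dd δ u x) + 1 ≤ 64 * lg (ee C ρ y) := by linarith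
  refine ⟨by linarith, b1, ?_⟩
  rcases le_total 0 t with t0 | t0
  · exact one hS hG hW ok G2 r1 r2 hF t0 p1 p2 p3 hT (by linarith) (by linarith)
      (slope (fun x y t => hL u x y t hu) hF b1 a4 (by linarith) (by linarith) (by linarith))
  · have k := one hS hG hW hu'.ok G2 r2 (by rw [neg_neg]; exact r1) hF' (by linarith) p2
      (by rw [neg_neg]; exact p1) (by rw [neg_neg, and_comm]; exact p3) hT
      (show M * s ≤ S by linarith) (by linarith) (slope (fun x y t => hL (-u) x y t hu') hF'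
        (by rw [e2]; exact b1) a4 (by linarith) (by linarith) (by rw [abs_neg]; linarith))
    rw [neg_neg, neg_neg] at k
    exact k.symm

end Vale.Agent.P134E
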