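import Vale.Agent.P134E.Spec

/-!
# P134E: the smooth step and the bump
-/

open MeasureTheory Metric Filter Topology Set
open scoped ContDiff RealInnerProductSpace

noncomputable section

namespace Vale.Agent.P134E

theorem st_cd {k : ℕ∞} : ContDiff ℝ k st := Real.smoothTransition.contDiff
theorem st_cont : Continuous st := Real.smoothTransition.continuous
theorem st_nn (x : ℝ) : 0 ≤ st x := Real.smoothTransition.nonneg x
theorem st_le (x : ℝ) : st x ≤ 1 := Real.smoothTransition.le_one x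
theorem st_zero {x : ℝ} (h : x ≤ 0) : st x = 0 := Real.smoothTransition.zero_of_nonpos h
theorem st_one {x : ℝ} (h : 1 ≤ x) : st x = 1 := Real.smoothTransition.one_of_one_le h
theorem st_mono : Monotone st := Real.smoothTransition.monotone
theorem st_diff : Differentiable ℝ st := (st_cd (k := 1)).differentiable (by simp)
theorem st_hd (x : ℝ) : HasDerivAt st (deriv st x) x := (st_diff x).hasDerivAt
theorem dst_cd {k : ℕ∞} : ContDiff ℝ k (deriv st) :=
  ((contDiff_infty_iff_deriv.1 (st_cd (k := ⊤))).2).of_le (by exact_mod_cast le_top)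
theorem dst_cont : Continuous (deriv st) := (dst_cd (k := 0)).continuous
theorem dst_nn (x : ℝ) : 0 ≤ deriv st x := st_mono.deriv_nonneg
theorem ddst_cont : Continuous (deriv (deriv st)) := (dst_cd (k := 1)).continuous_deriv le_rfl

theorem dst_lo {x : ℝ} (h : x ≤ 0) : deriv st x = 0 :=
  IsLocalMin.deriv_eq_zero (Eventually.of_forall fun y => by rw [st_zero h]; exact st_nn y)

theorem dst_hi {x : ℝ} (h : 1 ≤ x) : deriv st x = 0 :=
  IsLocalMax.deriv_eq_zero (Eventually.of_forall fun y => by rw [st_one h]; exact st_le y)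

theorem ddst_lo {x : ℝ} (h : x ≤ 0) : deriv (deriv st) x = 0 :=
  IsLocalMin.deriv_eq_zero (Eventually.of_forall fun y => by rw [dst_lo h]; exact dst_nn y)

theorem ddst_hi {x : ℝ} (h : 1 ≤ x) : deriv (deriv st) x = 0 :=
  IsLocalMin.deriv_eq_zero (Eventually.of_forall fun y => by rw [dst_hi h]; exact dst_nn y)

/-- a bound for the first two derivatives of the step -/
theorem st_bd : ∃ B ≥ (1 : ℝ), ∀ x, |deriv st x| ≤ B ∧ |deriv (deriv st) x| ≤ B := by
  obtain ⟨a, ha⟩ := (isCompact_Icc (a := (0 : ℝ)) (b := 1)).exists_bound_of_continuousOn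
    dst_cont.continuousOn
  obtain ⟨b, hb⟩ := (isCompact_Icc (a := (0 : ℝ)) (b := 1)).exists_bound_of_continuousOn
    ddst_cont.continuousOn
  refine ⟨max 1 (max a b), le_max_left _ _, fun x => ?_⟩
  by_cases h0 : x ≤ 0
  · simp [dst_lo h0, ddst_lo h0]
  by_cases h1 : 1 ≤ x
  · simp [dst_hi h1, ddst_hi h1]
  have hx : x ∈ Icc (0 : ℝ) 1 := ⟨(not_le.1 h0).le, (not_le.1 h1).le⟩
  exact ⟨(ha x hx).trans (by simp), (hb x hx).trans (by simp)⟩

theorem bp_cd {k : ℕ∞} : ContDiff ℝ k bp :=
  (st_cd.comp (contDiff_id.add contDiff_const)).mul (st_cd.comp (contDiff_const.sub contDiff_id))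
theorem bp_cont : Continuous bp := (bp_cd (k := 0)).continuous
theorem bp_nn (x : ℝ) : 0 ≤ bp x := mul_nonneg (st_nn _) (st_nn _)
theorem bp_le (x : ℝ) : bp x ≤ 1 := mul_le_one₀ (st_le _) (st_nn _) (st_le _)

theorem bp_one {x : ℝ} (h : |x| ≤ 1) : bp x = 1 := by
  have := abs_le.1 h
  rw [bp, st_one (by linarith), st_one (by linarith), one_mul]

theorem bp_zero {x : ℝ} (h : 2 ≤ |x|) : bp x = 0 := by
  rcases le_abs'.1 h with h | h
  · rw [bp, st_zero (by linarith), zero_mul]
  · rw [bp, st_zero (x := 2 - x) (by linarith), mul_zero]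

theorem dbp_in {x : ℝ} (h : |x| ≤ 1) : deriv bp x = 0 :=
  IsLocalMax.deriv_eq_zero (Eventually.of_forall fun y => by rw [bp_one h]; exact bp_le y)

theorem dbp_out {x : ℝ} (h : 2 ≤ |x|) : deriv bp x = 0 :=
  IsLocalMin.deriv_eq_zero (Eventually.of_forall fun y => by rw [bp_zero h]; exact bp_nn y)

theorem bp_hd (x : ℝ) : HasDerivAt bp (deriv bp x) x :=
  ((bp_cd (k := 1)).differentiable (by simp) x).hasDerivAt

/-- a bound for the derivative of the bump -/
theorem bp_bd : ∃ B ≥ (1 : ℝ), ∀ x, |deriv bp x| ≤ B := by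
  obtain ⟨a, ha⟩ := (isCompact_Icc (a := (-2 : ℝ)) (b := 2)).exists_bound_of_continuousOn
    ((bp_cd (k := 1)).continuous_deriv le_rfl).continuousOn
  refine ⟨max 1 a, le_max_left _ _, fun x => ?_⟩
  by_cases h : 2 ≤ |x|
  · simp [dbp_out h]
  exact (ha x (abs_le.1 (not_le.1 h).le)).trans (by simp)

end Vale.Agent.P134E
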