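import Vale.Agent.P134E.Fin0
import Vale.Agent.P134E.Lib

/-!
# P134E, row CX: the cut-off of the base
-/

open Metric Filter Topology Set
open scoped ContDiff RealInnerProductSpace
open Vale.Agent.P366.Stmt (E)
open Vale.Agent.P366W (norm_gradient)

noncomputable section

namespace Vale.Agent.P134E

open Vale.Agent.P134B Vale.Agent.P134T
open Vale.Agent.P134C (Wt Bad Rt dd)

namespace CxA

variable {n : ℕ} {C δ D R : ℝ} {u ρ ζ : E n → ℝ} {y : E n}

theorem Pj_eq (u : E n → ℝ) (y v : E n) : Pj u y v = v - ⟪nu u y, v⟫ • nu u y := by simp [Pj]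

theorem Pj_pp (u : E n → ℝ) (y : E n) : Pj u y (pp u y) = 0 := by
  rcases eq_or_ne (pp u y) 0 with e | e
  · rw [e, map_zero]
  have := norm_ne_zero_iff.2 e
  rw [Pj_eq, nu, real_inner_smul_left, real_inner_self_eq_norm_sq, smul_smul,
    show ‖pp u y‖⁻¹ * ‖pp u y‖ ^ 2 * ‖pp u y‖⁻¹ = 1 by field_simp, one_smul, sub_self]

theorem Pj_le (u : E n → ℝ) (y v : E n) : ‖Pj u y v‖ ≤ ‖v‖ := by
  have a : ‖nu u y‖ ≤ 1 := by
    rw [nu, norm_smul, norm_inv, norm_norm]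
    exact inv_mul_le_one_of_le₀ le_rfl (norm_nonneg _)
  have b := mul_le_mul_of_nonneg_left (pow_le_one₀ (norm_nonneg _) a (n := 2))
    (sq_nonneg ⟪nu u y, v⟫)
  refine abs_le_of_sq_le_sq' ?_ (norm_nonneg v) |>.2
  rw [Pj_eq, norm_sub_sq_real, real_inner_smul_right, norm_smul, mul_pow, Real.norm_eq_abs, sq_abs,
    real_inner_comm (nu u y) v]
  nlinarith

theorem ee_cd (h : ContDiff ℝ 1 ρ) : ContDiff ℝ 1 (ee C ρ) :=
  contDiff_const.div ((contDiff_const.add (h.pow 2)).sqrt fun y => by positivity)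
    fun y => by positivity

theorem ee_pos (hC : 1 ≤ C) (ρ : E n → ℝ) (y : E n) : 0 < ee C ρ y := by
  have : 0 < C := by linarith
  unfold ee
  positivity

theorem ee_grad {B : Set (E n)} (hC : 1 ≤ C) (h : Rd B ρ) (y : E n) :
    ‖gradient (ee C ρ) y‖ ≤ ee C ρ y := by
  have p0 : 0 < 1 + ρ y ^ 2 := by positivity
  have s0 := Real.sqrt_pos.2 p0
  have d : HasDerivAt (fun s : ℝ => 32 * √C / √(1 + s ^ 2))
      (-(ρ y / (1 + ρ y ^ 2)) * ee C ρ y) (ρ y) := by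
    refine ((hasDerivAt_const _ _).div (((hasDerivAt_pow 2 (ρ y)).const_add 1).sqrt p0.ne')
      s0.ne').congr_deriv ?_
    rw [Real.sq_sqrt p0.le, ee]
    field_simp
    ring
  have e : gradient (ee C ρ) y = _ :=
    grad_comp (f := ρ) d (h.c1.differentiable one_ne_zero y)
  have a : |ρ y / (1 + ρ y ^ 2)| ≤ 1 := by
    rw [abs_div, abs_of_pos p0, div_le_one p0]
    nlinarith [sq_abs (ρ y), sq_nonneg (|ρ y| - 1)]
  have e0 := ee_pos hC ρ y
  rw [e, norm_smul, Real.norm_eq_abs, abs_mul, abs_neg, abs_of_pos e0]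
  exact (mul_le_of_le_one_right (by positivity) (h.gr y)).trans (mul_le_of_le_one_left e0.le a)

theorem ee_dd (r : Rt C δ u) (h : Rd (Bad δ u) ρ) (hy : 2 ≤ dd δ u y) :
    16 * √C ≤ ee C ρ y * dd δ u y ∧ ee C ρ y * dd δ u y ≤ 64 * √C ∧
      Gd u (ee C ρ y) y (4 / ee C ρ y) := by
  have C1 := r.ok.C1
  have c1 : 1 ≤ √C := Real.one_le_sqrt.2 C1
  have a : |ρ y - dd δ u y| ≤ 1 := h.ap y
  have a' := abs_le.1 a
  have s0 : 0 < √(1 + ρ y ^ 2) := by positivity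
  have s1 : √(1 + ρ y ^ 2) ≤ 2 * dd δ u y := Real.sqrt_le_iff.2 ⟨by linarith, by nlinarith⟩
  have s2 : dd δ u y / 2 ≤ √(1 + ρ y ^ 2) := Real.le_sqrt_of_sq_le (by nlinarith)
  have e0 := ee_pos C1 ρ y
  have b1 : 16 * √C ≤ ee C ρ y * dd δ u y := by
    rw [ee, div_mul_eq_mul_div, le_div_iff₀ s0]
    nlinarith
  refine ⟨b1, ?_, fun x hx => ?_⟩
  · rw [ee, div_mul_eq_mul_div, div_le_iff₀ s0]
    nlinarith
  have c2 : dd δ u y ≤ dd δ u x + dist y x := infDist_le_infDist_add_dist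
  rw [mem_ball, dist_comm, lt_div_iff₀ e0] at hx
  have c3 : dist y x ≤ dd δ u y / 4 := le_of_mul_le_mul_right (by linarith) e0
  have c4 : 1 * √C ≤ ee C ρ y * dd δ u x := by
    nlinarith [mul_le_mul_of_nonneg_left (show dd δ u y / 2 ≤ dd δ u x by linarith) e0.le]
  have c5 := pow_le_pow_left₀ (by positivity) c4 2
  rw [one_mul, Real.sq_sqrt (by linarith), mul_pow] at c5
  exact le_of_mul_le_mul_right ((r.rt x).trans c5) (pow_pos (by linarith) 2)

theorem supp (r : Rt C δ u) (h : Rd (Bad δ u) ρ) (hD : 20 ≤ D) :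
    tsupport (zc u ρ ζ D R) ⊆ Bs δ u D := by
  refine closure_minimal (fun y hy => ⟨?_, ?_⟩) ((isClosed_le r.ok.smp.continuous.abs
    continuous_const).inter (isClosed_le continuous_const (continuous_infDist_pt _)))
  · refine not_lt.1 fun k => hy ?_
    rw [zc, bp_zero (by rw [abs_mul, abs_two]; linarith)]
    ring
  · refine not_lt.1 fun k => hy ?_
    have a : |ρ y - dd δ u y| ≤ 1 := h.ap y
    rw [zc, st_zero (by
      rw [sub_nonpos, div_le_one (by linarith)]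
      linarith [(abs_le.1 a).2])]
    ring

theorem cpt (hR : 0 < R) : HasCompactSupport (zc u ρ ζ D R) :=
  HasCompactSupport.intro (isCompact_closedBall 0 (2 * R)) fun y hy => by
    rw [mem_closedBall_zero_iff, not_le] at hy
    rw [zc, bp_zero (x := ‖y‖ ^ 2 / R ^ 2) (le_trans (by
      rw [le_div_iff₀ (by positivity)]
      nlinarith) (le_abs_self _))]
    ring

theorem prod4 {a b c : E n → ℝ} (da : DifferentiableAt ℝ a y) (db : DifferentiableAt ℝ b y)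
    (dc : DifferentiableAt ℝ c y) (dζ : DifferentiableAt ℝ ζ y) (a1 : |a y| ≤ 1) (b1 : |b y| ≤ 1)
    (c1 : |c y| ≤ 1) (h0 : Pj u y (gradient a y) = 0) :
    ‖Pj u y (gradient (fun y => a y * b y * c y * ζ y) y)‖ ≤
      |ζ y| * (‖gradient c y‖ + ‖gradient b y‖) + ‖gradient ζ y‖ := by
  have k : ∀ (s : ℝ) (v : E n), |s| ≤ 1 → ‖s • Pj u y v‖ ≤ ‖v‖ := fun s v hs => by
    rw [norm_smul]
    exact (mul_le_of_le_one_left (norm_nonneg _) hs).trans (Pj_le u y v)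
  have m : ∀ s t : ℝ, |s| ≤ 1 → |t| ≤ 1 → |s * t| ≤ 1 := fun s t hs ht => by
    rw [abs_mul]; exact mul_le_one₀ hs (abs_nonneg _) ht
  rw [grad_mul ((da.fun_mul db).fun_mul dc) dζ, grad_mul (da.fun_mul db) dc, grad_mul da db]
  simp only [map_add, map_smul, h0, smul_zero, add_zero]
  refine (norm_add_le _ _).trans ?_
  rw [add_comm, norm_smul (ζ y), smul_smul]
  exact add_le_add (mul_le_mul_of_nonneg_left ((norm_add_le _ _).trans (add_le_add
    (k _ _ (m _ _ a1 b1)) (k _ _ (m _ _ c1 a1)))) (abs_nonneg _)) (k _ _ (m _ _ (m _ _ a1 b1) c1))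

theorem grad_zc {B l : ℝ} (h : Ok C u) (hρ : Rd (Bad δ u) ρ) (hζ : Wt l ζ) (hD : 0 < D)
    (hR : 0 < R) (hB : ∀ x, |deriv bp x| ≤ B) (y : E n) :
    ‖Pj u y (gradient (zc u ρ ζ D R) y)‖ ≤
      (4 * B / R + 4 * |deriv st (4 * ρ y / D - 1)| / D + |l|) * ζ y := by
  have d1 := d2 (c2 h.smp) y
  have d3 := hρ.c1.differentiable one_ne_zero y
  have d5 := d2 (cd_nsq (0 : E n)) y
  have k1 : HasDerivAt (fun s => bp (2 * s)) (deriv bp (2 * ps u y) * (2 * 1)) (ps u y) :=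
    (bp_hd _).comp _ ((hasDerivAt_id _).const_mul 2)
  have k2 : HasDerivAt (fun s => st (4 * s / D - 1)) (deriv st (4 * ρ y / D - 1) * (4 * 1 / D))
      (ρ y) := (st_hd _).comp _ ((((hasDerivAt_id _).const_mul 4).div_const D).sub_const 1)
  have k3 : HasDerivAt (fun s => bp (s / R ^ 2)) (deriv bp (‖y - 0‖ ^ 2 / R ^ 2) * (1 / R ^ 2))
      (‖y - 0‖ ^ 2) := (bp_hd _).comp _ ((hasDerivAt_id _).div_const _)
  have z0 := hζ.pos y
  have g1 := grad_comp k1 d1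
  have g2 := grad_comp k2 d3
  have g3 := grad_comp (f := fun y : E n => ‖y - 0‖ ^ 2) k3 d5
  have e3 : DifferentiableAt ℝ (fun y : E n => bp (‖y - 0‖ ^ 2 / R ^ 2)) y :=
    DifferentiableAt.comp (f := fun y : E n => ‖y - 0‖ ^ 2) y k3.differentiableAt d5
  have p1 : ∀ s, |bp s| ≤ 1 := fun s => abs_le.2 ⟨by linarith [bp_nn s], bp_le s⟩
  rw [grad_nsq] at g3
  simp only [sub_zero] at g3 e3
  have a := prod4 (u := u) (a := fun y => bp (2 * ps u y)) (b := fun y => st (4 * ρ y / D - 1))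
    (k1.differentiableAt.comp y d1) (k2.differentiableAt.comp y d3) e3 (d2 (c2 hζ.sm) y) (p1 _)
    (abs_le.2 ⟨le_trans (by norm_num) (st_nn _), st_le _⟩) (p1 _)
    (by rw [g1, map_smul]; exact smul_eq_zero_of_right _ (Pj_pp u y))
  rw [g2, g3, abs_of_pos z0] at a
  have b1 : ‖(deriv bp (‖y‖ ^ 2 / R ^ 2) * (1 / R ^ 2)) • (2 : ℝ) • y‖ ≤ 4 * B / R := by
    have B0 := (abs_nonneg _).trans (hB 0)
    rcases le_total ‖y‖ (2 * R) with k | k
    · rw [norm_smul, norm_smul, Real.norm_eq_abs, abs_mul, Real.norm_two,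
        abs_of_pos (a := 1 / R ^ 2) (by positivity)]
      calc _ ≤ B * (1 / R ^ 2) * (2 * (2 * R)) := by gcongr; exact hB _
        _ = _ := by field_simp; ring
    · rw [dbp_out (le_trans (by rw [le_div_iff₀ (by positivity)]; nlinarith) (le_abs_self _)),
        zero_mul, zero_smul, norm_zero]
      positivity
  have b2 : ‖(deriv st (4 * ρ y / D - 1) * (4 * 1 / D)) • gradient ρ y‖ ≤
      4 * |deriv st (4 * ρ y / D - 1)| / D := by
    rw [norm_smul, Real.norm_eq_abs, abs_mul, abs_of_pos (a := 4 * 1 / D) (by positivity)]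
    exact (mul_le_of_le_one_right (by positivity) (hρ.gr y)).trans_eq (by ring)
  have b3 := (hζ.d1 y).trans (mul_le_mul_of_nonneg_right (le_abs_self l) z0.le)
  refine a.trans ?_
  linarith [mul_le_mul_of_nonneg_left (add_le_add b1 b2) z0.le]

theorem sq3 {N a b l z : ℝ} (N0 : 0 ≤ N) (h : N ≤ (a + b + |l|) * z) :
    N ^ 2 ≤ 3 * (a ^ 2 + b ^ 2 + l ^ 2) * z ^ 2 := by
  refine (pow_le_pow_left₀ N0 h 2).trans ?_
  rw [mul_pow, ← sq_abs l]
  exact mul_le_mul_of_nonneg_right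
    (by nlinarith [sq_nonneg (a - b), sq_nonneg (a - |l|), sq_nonneg (b - |l|)]) (sq_nonneg z)

end CxA

open CxA in
theorem cx : CX := by
  obtain ⟨B₁, B1, h₁⟩ := st_bd
  obtain ⟨B₂, B2, h₂⟩ := bp_bd
  obtain ⟨B, hB⟩ : ∃ B, B = max B₁ B₂ := ⟨_, rfl⟩
  have b0 : 1 ≤ B := hB ▸ B1.trans (le_max_left _ _)
  have b1 : ∀ x, |deriv st x| ≤ B := fun x => hB ▸ (h₁ x).1.trans (le_max_left _ _)
  have b2 : ∀ x, |deriv bp x| ≤ B := fun x => hB ▸ (h₂ x).trans (le_max_right _ _)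
  refine ⟨48 * B ^ 2, by positivity, fun n C δ l D R G β u ρ ζ r hρ hζ hD hR hG hβ => ?_⟩
  have D0 : 0 < D := by linarith
  have h := r.ok
  have su := supp (ζ := ζ) (R := R) r hρ hD
  have k1 : 3 ≤ 48 * B ^ 2 := by nlinarith
  refine ⟨⟨ee_cd hρ.c1, ?_, cpt hR, fun y hy => ?_⟩, fun y => ⟨fun hy => ?_, ?_, ?_, fun hy => ?_,
    fun y1 y2 y3 => ?_, ee_dd r hρ⟩⟩
  · exact (((bp_cd.comp (contDiff_const.mul (h.smp.of_le (by norm_cast)))).mul (st_cd.comp
      (((contDiff_const.mul hρ.c1).div_const D).sub contDiff_const))).mul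
      (bp_cd.comp ((contDiff_norm_sq ℝ).div_const _))).mul (hζ.sm.of_le (by norm_cast))
  · obtain ⟨y1, y2⟩ := su hy
    obtain ⟨-, a2, a3⟩ := ee_dd r hρ (y := y) (by linarith)
    have e0 := ee_pos h.C1 ρ y
    refine ⟨⟨e0, a3, y1, hG⟩, le_trans (mul_le_mul_of_nonneg_left ?_ (by linarith)) hβ,
      ee_grad h.C1 hρ y⟩
    rw [le_div_iff₀ D0]
    linarith [mul_le_mul_of_nonneg_left y2 e0.le]
  · have k : y ∉ tsupport (zc u ρ ζ D R) := fun k => hy (su k)
    exact ⟨image_eq_zero_of_notMem_tsupport k, by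
      rw [← norm_eq_zero, norm_gradient, norm_eq_zero]
      exact image_eq_zero_of_notMem_tsupport fun a => k (tsupport_fderiv_subset ℝ a)⟩
  · rw [zc, mul_pow]
    exact mul_le_of_le_one_left (sq_nonneg _) (pow_le_one₀ (mul_nonneg (mul_nonneg (bp_nn _)
      (st_nn _)) (bp_nn _)) (mul_le_one₀ (mul_le_one₀ (bp_le _) (st_nn _) (st_le _)) (bp_nn _)
        (bp_le _)))
  · refine (sq3 (norm_nonneg _) (grad_zc h hρ hζ D0 hR b2 y)).trans
      (mul_le_mul_of_nonneg_right ?_ (sq_nonneg _))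
    have a1 : (4 * |deriv st (4 * ρ y / D - 1)| / D) ^ 2 ≤ (4 * B / D) ^ 2 := by
      gcongr
      exact b1 _
    have a2 : (4 * B / D) ^ 2 = 16 * B ^ 2 * (1 / D ^ 2) := by field_simp; norm_num
    have a3 : (4 * B / R) ^ 2 = 16 * B ^ 2 * (1 / R ^ 2) := by field_simp; norm_num
    linarith [mul_le_mul_of_nonneg_right k1 (sq_nonneg l)]
  · refine (sq3 (norm_nonneg _) (grad_zc h hρ hζ D0 hR b2 y)).trans
      (mul_le_mul_of_nonneg_right ?_ (sq_nonneg _))
    have a : |ρ y - dd δ u y| ≤ 1 := hρ.ap y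
    have a3 : (4 * B / R) ^ 2 = 16 * B ^ 2 * (1 / R ^ 2) := by field_simp; norm_num
    rw [dst_hi (by rw [le_sub_iff_add_le, le_div_iff₀ D0]; linarith [(abs_le.1 a).1]), abs_zero,
      mul_zero, zero_div]
    linarith [mul_le_mul_of_nonneg_right k1 (sq_nonneg l)]
  · have a : |ρ y - dd δ u y| ≤ 1 := hρ.ap y
    rw [zc, bp_one (by rw [abs_mul, abs_two]; linarith), st_one (by
      rw [le_sub_iff_add_le, le_div_iff₀ D0]; linarith [(abs_le.1 a).1]), bp_one (by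
      rw [abs_of_nonneg (by positivity), div_le_one (by positivity)]
      exact pow_le_pow_left₀ (norm_nonneg _) y3 2)]
    ring

end Vale.Agent.P134E
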