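import Vale.Agent.P134E.Fin0

/-!
# P134E: the row FEET
-/

set_option linter.unusedVariables false

open MeasureTheory Metric Filter Topology Set
open scoped ContDiff RealInnerProductSpace
open Vale.Agent.P366.Stmt (E)

noncomputable section

namespace Vale.Agent.P134E

open Vale.Agent.P134B
open Vale.Agent.P134C (Wt Bad Xi Rt dd Pos Ft Bd CNT CNR SLO)

namespace Feet

variable {n : ℕ} {u : E n → ℝ} {C : ℝ}

theorem hd (h : Ok C u) (x : E n) : HasFDerivAt (ps u) (innerSL ℝ (pp u x)) x := by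
  exact (h.smp.differentiable (by simp) x).hasGradientAt.hasFDerivAt

/-- the nearest point of a level set lies on the normal -/
theorem nearest (h : Ok C u) {R τ : ℝ} {x : E n} (h0 : ∃ z, ‖z - x‖ ≤ R ∧ ps u z = τ)
    (hp : ∀ z, ‖z - x‖ ≤ R → ps u z = τ → pp u z ≠ 0) :
    ∃ y, ps u y = τ ∧ ‖y - x‖ ≤ R ∧ (∀ z, ps u z = τ → ‖y - x‖ ≤ ‖z - x‖) ∧
      ∃ t : ℝ, x = y + t • P134C.nu u y ∧ ‖P134C.nu u y‖ = 1 := by
  obtain ⟨z, hz, hz0⟩ := h0
  obtain ⟨y, hy, e⟩ := (isClosed_eq h.smp.continuous continuous_const :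
    IsClosed {w | ps u w = τ}).exists_infDist_eq_dist ⟨z, hz0⟩ x
  have hm : ∀ w, ps u w = τ → ‖y - x‖ ≤ ‖w - x‖ := fun w hw => by
    rw [← dist_eq_norm, ← dist_eq_norm, dist_comm y, dist_comm w, ← e]
    exact infDist_le_dist_of_mem hw
  have hR := (hm z hz0).trans hz
  refine ⟨y, hy, hR, hm, ?_⟩
  have hpy := hp y hR hy
  have hn : ‖pp u y‖ ≠ 0 := norm_ne_zero_iff.2 hpy
  have h1 : IsLocalExtrOn (fun w => ‖w - x‖ ^ 2) {w | ps u w = ps u y} y :=
    Or.inl (IsMinOn.localize fun w hw => pow_le_pow_left₀ (norm_nonneg _)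
      (hm w (hw.trans hy)) 2)
  have hs : HasStrictFDerivAt (ps u) (innerSL ℝ (pp u y)) y := by
    have h2 := h.smp.contDiffAt.hasStrictFDerivAt (x := y) (by simp)
    rwa [(hd h y).fderiv] at h2
  obtain ⟨a, b, hab, h2⟩ := h1.exists_multipliers_of_hasStrictFDerivAt_1d hs
    ((hasStrictFDerivAt_norm_sq (y - x)).comp y ((hasStrictFDerivAt_id y).sub_const x))
  have h3 : a • pp u y + (2 * b) • (y - x) = 0 := ext_inner_right ℝ fun w => by
    have := DFunLike.congr_fun h2 w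
    simp [inner_add_left, inner_smul_left, inner_sub_left] at this ⊢
    linarith
  have hb : b ≠ 0 := fun hb => by
    have ha : a ≠ 0 := fun ha => hab (by simp [ha, hb])
    simp [hb, ha, hpy] at h3
  have h4 : (2 * b) • (x - y) = a • pp u y := by
    rw [← neg_sub y x, smul_neg, neg_eq_iff_add_eq_zero, add_comm]
    exact h3
  refine ⟨(2 * b)⁻¹ * a * ‖pp u y‖, ?_, ?_⟩
  · rw [P134C.nu, smul_smul, mul_assoc, mul_inv_cancel₀ hn, mul_one, mul_smul, ← h4, smul_smul,
      inv_mul_cancel₀ (by simpa using hb), one_smul, add_sub_cancel]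
  · rw [P134C.nu, norm_smul, norm_inv, norm_norm, inv_mul_cancel₀ hn]

/-- all the levels occur near a zero -/
theorem level (h : Ok C u) {z v : E n} (hz : u z = 0)
    (hv : ∀ t ∈ Icc (-1 : ℝ) 1, 1 / 2 ≤ ⟪pp u (z + t • v), v⟫) {τ : ℝ}
    (hτ : τ ∈ Icc (-(1 / 2) : ℝ) (1 / 2)) : ∃ t ∈ Icc (-1 : ℝ) 1, ps u (z + t • v) = τ := by
  have hg : ∀ t : ℝ, HasDerivAt (fun t : ℝ => ps u (z + t • v)) ⟪pp u (z + t • v), v⟫ t := fun t => by
    have h1 : HasDerivAt (fun t : ℝ => z + t • v) v t := by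
      simpa using ((hasDerivAt_id t).smul_const v).const_add z
    exact (hd h _).comp_hasDerivAt t h1
  have hc : Continuous fun t : ℝ => ps u (z + t • v) :=
    continuous_iff_continuousAt.2 fun t => (hg t).continuousAt
  have h0 : ps u (z + (0 : ℝ) • v) = 0 := by simp [ps, hz]
  obtain ⟨a, ha, ea⟩ := exists_hasDerivAt_eq_slope _ _ (zero_lt_one' ℝ) hc.continuousOn fun t _ => hg t
  obtain ⟨b, hb, eb⟩ := exists_hasDerivAt_eq_slope _ _ (by norm_num : (-1 : ℝ) < 0) hc.continuousOn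
    fun t _ => hg t
  have h1 := hv a ⟨by linarith [ha.1], ha.2.le⟩
  have h2 := hv b ⟨hb.1.le, by linarith [hb.2]⟩
  simp only [h0] at ea eb
  refine intermediate_value_Icc (by norm_num : (-1 : ℝ) ≤ 1) hc.continuousOn ⟨?_, ?_⟩
  · have := hτ.1
    norm_num at eb ⊢
    linarith
  · have := hτ.2
    norm_num at ea ⊢
    linarith

end Feet

open Feet

theorem feet : rFEET := by
  intro hS hQ C δ
  obtain ⟨K, hK, hsg⟩ := hS 7 C 2
  set ε : ℝ := 1 / (10 * K) with hε
  have ε0 : 0 < ε := by positivity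
  have Kε : K * ε = 1 / 10 := by rw [hε]; field_simp
  have ε1 : ε ≤ 1 / 10 := by nlinarith
  have e1 : ∀ᶠ d in atTop, 1 ≤ Real.log d := Real.tendsto_log_atTop.eventually_ge_atTop 1
  have e2 : ∀ᶠ d : ℝ in atTop, ‖Real.log d‖ ≤ 1 / 60 * ‖id d‖ :=
    Real.isLittleO_log_id_atTop.def (by norm_num)
  obtain ⟨d₀, hd₀⟩ := eventually_atTop.1
    (e1.and (e2.and ((eventually_ge_atTop 1).and (eventually_ge_atTop (4 * C / ε ^ 2)))))
  refine ⟨(1 + 7 * C ^ 2) * C ^ 2 * 2 ^ 40, by positivity, d₀, fun u x hR hx => ?_⟩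
  obtain ⟨a1, a2, a3, a4⟩ := hd₀ _ hx
  set d := dd δ u x with hd
  have h := hR.ok
  have hC := h.C1
  have d0 : 0 < d := by linarith
  have a5 : 30 * Real.log d ≤ d / 2 := by
    rw [Real.norm_eq_abs, Real.norm_eq_abs, id, abs_of_pos d0] at a2
    linarith [le_abs_self (Real.log d)]
  by_cases hz : ∀ y ∈ ball x (25 * Real.log d), u y ≠ 0
  · left
    have h1 := h.dec x _ (by linarith) hz
    obtain ⟨q1, p0, p1, s0, s1, -⟩ := (hQ 7 C u h).2.1 x
    have f0 : 0 ≤ ff u x := le_trans (by positivity) (h.flo x)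
    have h2 : Real.exp (-(25 * Real.log d)) = (d ^ 25)⁻¹ := by
      rw [Real.exp_neg, show 25 * Real.log d = ((25 : ℕ) : ℝ) * Real.log d by norm_num,
        Real.exp_nat_mul, Real.exp_log d0]
    rw [h2] at h1
    have h3 : PP u x + hs (SS u x) ≤ 1 + 7 * C ^ 2 := by
      have : ((7 : ℕ) : ℝ) * C ^ 2 * qq u x ≤ 7 * C ^ 2 * 1 := by
        push_cast
        gcongr
      linarith
    have h4 : (1 + d) ^ 40 ≤ (2 * d) ^ 40 := by gcongr; linarith
    have h5 : d ^ 40 ≤ d ^ 50 := pow_le_pow_right₀ a3 (by norm_num)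
    calc gn u x * (1 + d) ^ 40 ≤ (C * (d ^ 25)⁻¹) ^ 2 * (1 + 7 * C ^ 2) * (2 * d) ^ 40 := by
          unfold gn
          gcongr
      _ = (1 + 7 * C ^ 2) * C ^ 2 * 2 ^ 40 * (d ^ 40 / d ^ 50) := by field_simp
      _ ≤ (1 + 7 * C ^ 2) * C ^ 2 * 2 ^ 40 * 1 := by
          gcongr
          rwa [div_le_one (by positivity)]
      _ = _ := mul_one _
  · right
    push Not at hz
    obtain ⟨z, hz, hz0⟩ := hz
    rw [mem_ball, dist_eq_norm] at hz
    have hE : ∀ y, ‖y - x‖ ≤ 30 * Real.log d → EE u y ≤ ε ^ 2 := by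
      intro y hy
      have h1 : d ≤ dd δ u y + dist x y := infDist_le_infDist_add_dist
      rw [dist_comm, dist_eq_norm] at h1
      have h2 := hR.rt y
      have h3 : d / 2 ≤ dd δ u y := by linarith
      have h4 : (d / 2) ^ 2 ≤ dd δ u y ^ 2 := by gcongr
      rw [div_le_iff₀ (by positivity)] at a4
      by_contra h5
      push Not at h5
      have h6 : ε ^ 2 * (d / 2) ^ 2 < EE u y * dd δ u y ^ 2 :=
        mul_lt_mul h5 h4 (by positivity) ((sq_nonneg _).trans h5.le)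
      have h7 : d * ε ^ 2 * 1 ≤ d * ε ^ 2 * d := by gcongr
      nlinarith
    have hq : ∀ y, ‖y - x‖ ≤ 30 * Real.log d → |ps u y| ≤ 1 / 2 → 99 / 100 ≤ ‖pp u y‖ := by
      intro y hy hp
      have h1 := (hsg u ε y 0 0 h ε0 (by simp) le_rfl (fun t _ => by simpa using hE y hy)
        (by simp; linarith) 0 ⟨le_rfl, le_rfl⟩).2
      simp only [smul_zero, add_zero, qq] at h1
      have h2 : K * ε ^ 2 ≤ 1 / 100 := by nlinarith
      nlinarith [norm_nonneg (pp u y)]
    have pz : ps u z = 0 := by simp [ps, hz0]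
    have hpz := hq z (by linarith) (by rw [pz]; norm_num)
    set v : E 7 := ‖pp u z‖⁻¹ • pp u z with hv
    have v1 : ‖v‖ = 1 := by
      rw [hv, norm_smul, norm_inv, norm_norm, inv_mul_cancel₀ (by linarith)]
    have v2 : ⟪pp u z, v⟫ = ‖pp u z‖ := by
      rw [hv, inner_smul_right, real_inner_self_eq_norm_sq]
      field_simp
    have p1 : ‖pp u z‖ ≤ 1 := by
      have := h.q0 z
      unfold qq at this
      nlinarith [norm_nonneg (pp u z)]
    have near : ∀ (w : E 7) (t : ℝ), ‖w‖ = 1 → |t| ≤ 1 → ‖z + t • w - x‖ ≤ 30 * Real.log d := by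
      intro w t hw ht
      have e : z + t • w - x = (z - x) + t • w := by abel
      rw [e]
      refine (norm_add_le _ _).trans ?_
      rw [norm_smul, hw, mul_one, Real.norm_eq_abs]
      linarith
    have seg : ∀ w : E 7, ‖w‖ = 1 → ∀ t ∈ Icc (0 : ℝ) 1, ‖pp u (z + t • w) - pp u z‖ ≤ 1 / 10 := by
      intro w hw t ht
      have h1 : |pe u w z| ≤ 1 := by
        refine (abs_real_inner_le_norm _ _).trans ?_
        rw [hw, mul_one]
        exact p1
      have h2 := (hsg u ε z w 1 h ε0 hw.le zero_le_one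
        (fun s hs => hE _ (near w s hw (abs_le.2 ⟨by linarith [hs.1], hs.2⟩)))
        (by rw [pz, Kε, abs_zero]; linarith) t ht).1
      rw [Kε] at h2
      linarith [ht.2]
    have slope : ∀ t ∈ Icc (-1 : ℝ) 1, 1 / 2 ≤ ⟪pp u (z + t • v), v⟫ := by
      intro t ht
      have h1 : ‖pp u (z + t • v) - pp u z‖ ≤ 1 / 10 := by
        rcases le_total 0 t with h0 | h0
        · exact seg v v1 t ⟨h0, ht.2⟩
        · have := seg (-v) (by rw [norm_neg, v1]) (-t) ⟨by linarith, by linarith [ht.1]⟩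
          rwa [neg_smul_neg] at this
      have h2 := abs_real_inner_le_norm (pp u (z + t • v) - pp u z) v
      rw [v1, mul_one, inner_sub_left, v2] at h2
      linarith [(abs_le.1 (h2.trans h1)).1]
    intro τ hτ
    have hτ' : |τ| ≤ 1 / 2 := abs_le.2 hτ
    obtain ⟨s, hs1, hs2⟩ := level h hz0 slope hτ
    obtain ⟨y, y1, y2, y3, t, y4, y5⟩ := nearest h (x := x) ⟨_, near v s v1 (abs_le.2 hs1), hs2⟩
      fun w hw hw' h0 => by
        have := hq w hw (by rwa [hw'])
        rw [h0, norm_zero] at this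
        linarith
    have e : ∀ t' : ℝ, ‖y + t' • P134C.nu u y - x‖ = |t' - t| := fun t' => by
      have : y + t' • P134C.nu u y - x = (t' - t) • P134C.nu u y := by
        rw [sub_smul]
        nth_rewrite 1 [y4]
        abel
      rw [this, norm_smul, y5, mul_one, Real.norm_eq_abs]
    have e0 : ‖y - x‖ = |t| := by simpa using e 0
    refine ⟨y, t, ⟨y4, by rwa [y1], e0 ▸ y2, fun t' ht' h0 => ?_⟩, y1⟩
    have h1 := y3 _ (h0.trans y1)
    rw [e0, e] at h1
    rcases le_total 0 t with h2 | h2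
    · rw [uIoo_of_le h2] at ht'
      rw [abs_of_nonneg h2, abs_of_neg (by linarith [ht'.2])] at h1
      linarith [ht'.1]
    · rw [uIoo_of_ge h2] at ht'
      rw [abs_of_nonpos h2, abs_of_pos (by linarith [ht'.1])] at h1
      linarith [ht'.2]

end Vale.Agent.P134E
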