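import Vale.Agent.P134E.Fin0
import Vale.Agent.P134F.Pkg0

/-! # P134E, row PKG -/

namespace Vale.Agent.P134E

theorem pkg : rPKG := fun tg gr ft _ sl m C => by
  obtain ⟨K, K0, β, β0, H⟩ := P134F.pkg0 tg gr ft sl m C
  exact ⟨K, K0, β, β0, fun u ε G R a A z h k GR a0 mA hA =>
    H u G R a A z h GR a0 mA fun y hy => ⟨⟨ε, (hA y hy).1, k⟩, (hA y hy).2⟩⟩

end Vale.Agent.P134E
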