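import Vale.Agent.P134E.Fin0

/-!
# P134E: the regularised distance (row RD)
-/

open MeasureTheory Metric Filter Topology Set
open scoped ContDiff RealInnerProductSpace Convolution
open Vale.Agent.P366.Stmt (E)

noncomputable section

namespace Vale.Agent.P134E

theorem rd : RD := by
  intro n B
  let φ : ContDiffBump (0 : E n) := ⟨1 / 2, 1, by norm_num, by norm_num⟩
  have L := lipschitz_infDist_pt B
  have c := L.continuous
  have i : ∀ x, Integrable fun t => φ.normed volume t * infDist (x - t) B := fun x =>
    (φ.continuous_normed.mul (c.comp (continuous_const.sub continuous_id))).integrable_of_hasCompactSupport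
      φ.hasCompactSupport_normed.mul_right
  refine ⟨φ.normed volume ⋆[ContinuousLinearMap.lsmul ℝ ℝ, volume] fun x => infDist x B,
    φ.hasCompactSupport_normed.contDiff_convolution_left _ (φ.contDiff_normed (n := 1))
      c.locallyIntegrable, fun x => ?_, fun x => ?_⟩
  · refine φ.dist_normed_convolution_le c.aestronglyMeasurable fun y hy => ?_
    exact (L.dist_le_mul y x).trans (by simpa using (mem_ball.1 hy).le)
  rw [P366W.norm_gradient]
  refine norm_fderiv_le_of_lipschitz ℝ (C := 1) (LipschitzWith.of_dist_le_mul fun x y => ?_)
  simp only [convolution_def, ContinuousLinearMap.lsmul_apply, smul_eq_mul]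
  rw [dist_eq_norm, ← integral_sub (i x) (i y)]
  refine (norm_integral_le_of_norm_le (g := fun t => φ.normed volume t * dist x y)
    (φ.integrable_normed.mul_const _) (Eventually.of_forall fun t => ?_)).trans ?_
  · rw [← mul_sub, norm_mul, Real.norm_of_nonneg (φ.nonneg_normed t), ← dist_eq_norm]
    exact mul_le_mul_of_nonneg_left ((L.dist_le_mul _ _).trans (by simp)) (φ.nonneg_normed t)
  · rw [integral_mul_const, φ.integral_normed]; simp

end Vale.Agent.P134E
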