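import Vale.Agent.P134E.Fin0
import Vale.Agent.P134E.Lib

/-! # P134E, row F.TE: the glue from `TE0` to `P134C.TE` -/

set_option linter.all false

open MeasureTheory Metric Filter Topology Set
open scoped ContDiff RealInnerProductSpace ENNReal
open Vale.Agent.P366.Stmt (E)

noncomputable section

namespace Vale.Agent.P134E

open Vale.Agent.P134B
open Vale.Agent.P134C (Wt Bad Xi Rt dd Pos Ft Bd CNT CNR SLO)

namespace Teg

variable {n : ℕ} {C δ : ℝ} {u : E n → ℝ}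

theorem bad_neg (sym : SYM) : Bad δ (-u) = Bad δ u := by
  simp only [Bad, (sym.1 n u).1.2.2.2.2.2]

theorem dd_neg (sym : SYM) : dd δ (-u) = dd δ u := by
  funext x; simp only [dd, bad_neg sym]

theorem rt_neg (sym : SYM) (h : Rt C δ u) : Rt C δ (-u) :=
  ⟨(sym.1 n u).2.1 C h.ok, (sym.1 n u).2.2.1 h.st, h.d0, by rw [bad_neg sym]; exact h.ne,
    fun x => by rw [(sym.1 n u).1.2.2.2.2.2, dd_neg sym]; exact h.rt x⟩

theorem gn_neg (sym : SYM) : gn (-u) = gn u := by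
  obtain ⟨-, h1, -, h2, h3, -⟩ := (sym.1 n u).1
  funext x
  simp [gn, PP, hs, h1, h2, h3]

theorem gn_nn (cvq : CVQ) (h : Ok C u) (x : E n) : 0 ≤ gn u x := by
  obtain ⟨-, a, -, b, -⟩ := (cvq n C u h).2.1 x
  exact mul_nonneg (sq_nonneg _) (add_nonneg a b)

theorem gn_cont (cvq : CVQ) (h : Ok C u) : Continuous (gn u) := by
  have cu := h.sm.continuous
  have cq := (cvq n C u h).1.continuous
  have cf : Continuous (ff u) := by unfold ff; fun_prop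
  have cS : Continuous (SS u) :=
    (P366W.smooth_gradient h.smp).continuous_fderiv (by simp)
  unfold gn PP hs
  fun_prop

theorem nu_le (y : E n) : ‖nu u y‖ ≤ 1 := by
  rw [nu, norm_smul, norm_inv, norm_norm]
  exact inv_mul_le_one_of_le₀ le_rfl (norm_nonneg _)

/-- the covered set -/
def SS' (δ : ℝ) (u e : E n → ℝ) (S a D R : ℝ) : Set (E n × ℝ) :=
  {w | ∃ y t, Cv u e (100 * S) S a w.1 y t ∧ ps u y = w.2 ∧ |ps u y| ≤ 1 / 2 ∧
    3 / 4 * D ≤ dd δ u y ∧ ‖y‖ ≤ R ∧ |t| ≤ S}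

theorem low {e ζ z₀ : E n → ℝ} {l S a K ι g₀ : ℝ} {F Θ : ℝ → ℝ} (cvq : CVQ) (h : Ok C u)
    (hζ : Wt l ζ) (hP : Pf K ι g₀ S (100 * S) F Θ) (S1 : 1 ≤ S) (a1 : 1 < a) (l0 : 0 ≤ l)
    (lS : l * S ≤ 1) {x y : E n} {t : ℝ} (c : Cv u e (100 * S) S a x y t) (hz : z₀ y = ζ y)
    (ht : |t| ≤ S) : a / S / Real.exp 2 * (gn u x * ζ x ^ 2 * JJ u (y, t)) ≤
      et u z₀ (100 * S) F y ^ 2 * gy u e (100 * S) (y, t) := by
  have S0 : 0 < S := by linarith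
  have J0 : 0 ≤ JJ u (y, t) := mul_nonneg (norm_nonneg _) (abs_nonneg _)
  have e1 : gy u e (100 * S) (y, t) = gn u x * JJ u (y, t) := by
    rw [gy, c.a1, st_one (by linarith [c.s1]), c.eq]; ring
  have f1 : a / S ≤ F (gp u (100 * S) y) ^ 2 := by
    refine le_trans ?_ (hP.lo _ (a1.trans_le c.lo) c.hi)
    calc a / S ≤ gp u (100 * S) y / S := by gcongr; exact c.lo
      _ = (gp u (100 * S) y / S) ^ (1 : ℝ) := (Real.rpow_one _).symm
      _ ≤ _ := Real.rpow_le_rpow_of_exponent_ge (div_pos (by linarith [c.lo]) S0)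
          ((div_le_one S0).2 c.hi) (by norm_num)
  have z1 : ζ x ≤ Real.exp 1 * ζ y := by
    refine (hζ.ex x y).trans (mul_le_mul_of_nonneg_right (Real.exp_le_exp.2 ?_) (hζ.pos y).le)
    have : ‖x - y‖ ≤ S := by
      rw [← c.eq, ray, add_sub_cancel_left, norm_smul, Real.norm_eq_abs]
      exact (mul_le_of_le_one_right (abs_nonneg _) (nu_le y)).trans ht
    exact (mul_le_mul_of_nonneg_left this l0).trans lS
  have z2 : ζ x ^ 2 / Real.exp 2 ≤ ζ y ^ 2 := by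
    rw [div_le_iff₀ (Real.exp_pos _)]
    calc ζ x ^ 2 ≤ (Real.exp 1 * ζ y) ^ 2 := pow_le_pow_left₀ (hζ.pos x).le z1 2
      _ = _ := by rw [mul_pow, ← Real.exp_nat_mul]; norm_num [mul_comm]
  have g0 := mul_nonneg (gn_nn cvq h x) J0
  rw [e1, et, hz, mul_pow]
  calc _ = a / S * (ζ x ^ 2 / Real.exp 2) * (gn u x * JJ u (y, t)) := by ring
    _ ≤ _ := by gcongr

theorem refl_le (φ : E n → ℝ≥0∞) (T : Set (E n × ℝ)) :
    ∫⁻ w in (fun w : E n × ℝ => (w.1, -w.2)) ⁻¹' T, φ w.1 = ∫⁻ w in T, φ w.1 := by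
  have m : MeasurePreserving (Prod.map id fun t : ℝ => -t) (volume : Measure (E n × ℝ)) volume :=
    (MeasurePreserving.id _).prod (Measure.measurePreserving_neg _)
  exact m.setLIntegral_comp_preimage_emb
    ((MeasurableEquiv.refl _).prodCongr (MeasurableEquiv.neg ℝ)).measurableEmbedding
    (fun w => φ w.1) T

theorem prod_eq {φ : E n → ℝ≥0∞} (hφ : Measurable φ) (A : Set (E n)) :
    ∫⁻ w in A ×ˢ Icc (-(1 / 2) : ℝ) (1 / 2), φ w.1 = ∫⁻ x in A, φ x := by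
  rw [Measure.volume_eq_prod, ← Measure.prod_restrict, lintegral_prod (fun w => φ w.1)
    (hφ.comp measurable_fst).aemeasurable]
  simp only [lintegral_const, Measure.restrict_apply_univ, Real.volume_Icc]
  norm_num

theorem iota {K S : ℝ} (K0 : 0 ≤ K) (S1 : 1 ≤ S) :
    K * (100 * S) * Real.exp (-(26 / 5 * (100 * S - 2 * S))) * Real.exp (500 * S) ≤ 100 * K := by
  have a : Real.exp (-(26 / 5 * (100 * S - 2 * S))) * Real.exp (500 * S) ≤ Real.exp (-S) := by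
    rw [← Real.exp_add]; exact Real.exp_le_exp.2 (by linarith)
  have b : S * Real.exp (-S) ≤ 1 := by
    rw [Real.exp_neg, mul_inv_le_iff₀ (Real.exp_pos _)]; linarith [Real.add_one_le_exp S]
  calc _ = 100 * K * (S * (Real.exp (-(26 / 5 * (100 * S - 2 * S))) * Real.exp (500 * S))) := by
        ring
    _ ≤ 100 * K * (S * Real.exp (-S)) := by gcongr
    _ ≤ 100 * K * 1 := by gcongr
    _ = _ := mul_one _

theorem pw {K M s : ℝ} (K0 : 0 ≤ K) (M1 : 1 ≤ M) (s1 : 1 ≤ s) :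
    (K * (M * s)) ^ 5 / (M * s) ^ (4 / 5 : ℝ) ≤ K ^ 5 * M ^ 5 * s ^ (21 / 5 : ℝ) := by
  have s0 : 0 < s := by linarith
  have a : s ^ (4 / 5 : ℝ) ≤ (M * s) ^ (4 / 5 : ℝ) :=
    Real.rpow_le_rpow s0.le (le_mul_of_one_le_left s0.le M1) (by norm_num)
  have b : s ^ 5 = s ^ (21 / 5 : ℝ) * s ^ (4 / 5 : ℝ) := by
    rw [← Real.rpow_add s0, ← Real.rpow_natCast]; norm_num
  rw [div_le_iff₀ (by positivity), mul_pow, mul_pow, b]
  calc _ = K ^ 5 * M ^ 5 * s ^ (21 / 5 : ℝ) * s ^ (4 / 5 : ℝ) := by ring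
    _ ≤ _ := by gcongr

theorem root {Z s : ℝ} {k : ℕ} (hk : k ≠ 0) (Z0 : 0 ≤ Z) (h : Z ^ k ≤ s) :
    Z ≤ s ^ ((k : ℝ)⁻¹) := by
  calc Z = (Z ^ k) ^ ((k : ℝ)⁻¹) := (Real.pow_rpow_inv_natCast Z0 hk).symm
    _ ≤ _ := Real.rpow_le_rpow (by positivity) h (by positivity)

theorem glue {φ : E n → ℝ} {A A₁ : Set (E n)} {c W W₁ : ℝ} (hφ : Continuous φ)
    (φ0 : ∀ x, 0 ≤ φ x) (c0 : 0 < c) (W0 : 0 ≤ W) (W10 : 0 ≤ W₁)
    (h1 : ∫⁻ x in A₁, ENNReal.ofReal (φ x) ≤ ENNReal.ofReal W₁)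
    (h2 : ∀ k : ℕ, ∃ T₁ T₂ : Set (E n × ℝ),
      ENNReal.ofReal c * ∫⁻ w in T₁, ENNReal.ofReal (φ w.1) ≤ ENNReal.ofReal W ∧
      ENNReal.ofReal c * ∫⁻ w in T₂, ENNReal.ofReal (φ w.1) ≤ ENNReal.ofReal W ∧
      ∀ x ∈ A, x ∉ A₁ → ‖x‖ < k → ∀ τ ∈ Icc (-(1 / 2) : ℝ) (1 / 2), (x, τ) ∈ T₁ ∨ (x, -τ) ∈ T₂) :
    ∫ x in A, φ x ≤ W₁ + 2 * (W / c) := by
  have m : Measurable fun x => ENNReal.ofReal (φ x) := hφ.measurable.ennreal_ofReal
  have dv : ∀ {L : ℝ≥0∞}, ENNReal.ofReal c * L ≤ ENNReal.ofReal W → L ≤ ENNReal.ofReal (W / c) :=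
    fun h => by
      rwa [ENNReal.ofReal_div_of_pos c0, ENNReal.le_div_iff_mul_le (Or.inl (by simpa using c0))
        (Or.inl ENNReal.ofReal_ne_top), mul_comm]
  have k1 : ∀ k : ℕ, ∫⁻ x in (A \ A₁) ∩ ball 0 k, ENNReal.ofReal (φ x) ≤
      ENNReal.ofReal (2 * (W / c)) := fun k => by
    obtain ⟨T₁, T₂, a1, a2, a3⟩ := h2 k
    rw [← prod_eq m, two_mul, ENNReal.ofReal_add (by positivity) (by positivity)]
    refine le_trans (lintegral_mono_set (t := T₁ ∪ (fun w : E n × ℝ => (w.1, -w.2)) ⁻¹' T₂) ?_)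
      ((lintegral_union_le _ _ _).trans (add_le_add (dv a1) ?_))
    · rintro ⟨x, τ⟩ ⟨⟨⟨b1, b2⟩, b3⟩, b4⟩
      exact a3 x b1 b2 (mem_ball_zero_iff.1 b3) τ b4
    · rw [refl_le fun x => ENNReal.ofReal (φ x)]; exact dv a2
  have k2 : ∫⁻ x in A \ A₁, ENNReal.ofReal (φ x) ≤ ENNReal.ofReal (2 * (W / c)) := by
    have : A \ A₁ = ⋃ k : ℕ, (A \ A₁) ∩ ball 0 k := by
      rw [← inter_iUnion, iUnion_ball_nat, inter_univ]
    rw [this, setLIntegral_iUnion_of_directed _ (Monotone.directed_le fun a b hab =>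
      inter_subset_inter_right _ (ball_subset_ball (by exact_mod_cast hab)))]
    exact iSup_le k1
  rw [integral_eq_lintegral_of_nonneg_ae (ae_of_all _ φ0) hφ.aestronglyMeasurable]
  refine ENNReal.toReal_le_of_le_ofReal (by positivity) ?_
  rw [ENNReal.ofReal_add W10 (by positivity)]
  exact le_trans (lintegral_mono_set (t := A₁ ∪ A \ A₁) (by rw [union_diff_self]; exact subset_union_right))
    ((lintegral_union_le _ _ _).trans (add_le_add h1 k2))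

theorem deep (cnt : CNT) (cvq : CVQ) : ∃ Cn > (0 : ℝ), ∀ (C δ K l : ℝ) (u ζ : E 7 → ℝ),
    Rt C δ u → Wt l ζ → 0 ≤ K → ∫⁻ x in {x | gn u x * (1 + dd δ u x) ^ 40 ≤ K},
      ENNReal.ofReal (gn u x * ζ x ^ 2) ≤ ENNReal.ofReal (Cn * K * Xi (Bad δ u) ζ) := by
  obtain ⟨Cn, Cn0, cnt⟩ := cnt 7
  refine ⟨Cn, Cn0, fun C δ K l u ζ h hζ K0 => ?_⟩
  have cg := gn_cont cvq h.ok
  have cd : Continuous (dd δ u) := continuous_infDist_pt _
  have mA : MeasurableSet {x | gn u x * (1 + dd δ u x) ^ 40 ≤ K} :=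
    (isClosed_le (by fun_prop) continuous_const).measurableSet
  obtain ⟨i1, i2⟩ := cnt (Bad δ u) l K ζ ({x | gn u x * (1 + dd δ u x) ^ 40 ≤ K}.indicator (gn u))
    h.ne hζ (fun x => indicator_nonneg (fun x _ => gn_nn cvq h.ok x) x)
    (cg.aestronglyMeasurable.indicator mA) (ae_of_all _ fun x => by
      by_cases k : x ∈ {x | gn u x * (1 + dd δ u x) ^ 40 ≤ K}
      · rw [indicator_of_mem k]; exact k
      · rw [indicator_of_notMem k, zero_mul]; exact K0)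
  refine le_trans (le_of_eq ?_) (ENNReal.ofReal_le_ofReal i2)
  rw [ofReal_integral_eq_lintegral_ofReal i1 (ae_of_all _ fun x => mul_nonneg
    (indicator_nonneg (fun x _ => gn_nn cvq h.ok x) x) (sq_nonneg _)), ← lintegral_indicator mA]
  refine lintegral_congr fun x => ?_
  by_cases k : x ∈ {x | gn u x * (1 + dd δ u x) ^ 40 ≤ K}
  · simp only [indicator_of_mem k]
  · simp [indicator_of_notMem k]

theorem fin {a b c z s X : ℝ} (a0 : 0 ≤ a) (b0 : 0 ≤ b) (c0 : 0 ≤ c) (X0 : 0 ≤ X) (s1 : 1 ≤ s)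
    (z0 : 0 ≤ z) (h : (a + z * (b + c)) ^ 5 ≤ s) :
    a * X + z * ((b * s ^ (21 / 5 : ℝ) + c) * X) ≤ s ^ (22 / 5 : ℝ) * X := by
  have r := root (k := 5) (by norm_num) (by positivity) h
  have p1 : 1 ≤ s ^ (21 / 5 : ℝ) := Real.one_le_rpow s1 (by norm_num)
  have e : s ^ (22 / 5 : ℝ) = s ^ (((5 : ℕ) : ℝ)⁻¹) * s ^ (21 / 5 : ℝ) := by
    rw [← Real.rpow_add (by linarith)]; norm_num
  calc _ = (a * 1 + z * (b * s ^ (21 / 5 : ℝ) + c * 1)) * X := by ring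
    _ ≤ (a * s ^ (21 / 5 : ℝ) + z * (b * s ^ (21 / 5 : ℝ) + c * s ^ (21 / 5 : ℝ))) * X := by
        gcongr
    _ = (a + z * (b + c)) * s ^ (21 / 5 : ℝ) * X := by ring
    _ ≤ _ := by rw [e]; gcongr

theorem small {l R S : ℝ} (l0 : 0 ≤ l) (h1 : l * Real.exp (250 * S) ≤ 1)
    (h2 : Real.exp (250 * S) ≤ R) :
    l ^ 2 * Real.exp (500 * S) ≤ 1 ∧ 1 / R ^ 2 * Real.exp (500 * S) ≤ 1 := by
  have e : Real.exp (500 * S) = Real.exp (250 * S) ^ 2 := by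
    rw [← Real.exp_nat_mul]; congr 1; push_cast; ring
  have p := Real.exp_pos (250 * S)
  rw [e]
  refine ⟨by rw [← mul_pow]; exact pow_le_one₀ (by positivity) h1, ?_⟩
  rw [one_div, inv_mul_le_iff₀ (pow_pos (p.trans_le h2) 2), mul_one]
  gcongr

end Teg

open Teg in
theorem te : rTE := by
  intro sym cvq prs te0 cnt rd cx cost feet cvp cova C δ u h
  refine ⟨30, by norm_num, fun M hM => ?_⟩
  obtain ⟨Kf, Kf1, g₀, -, prs⟩ := prs
  obtain ⟨K₀, K₀0, β, β0, te0⟩ := te0 6 C Kf g₀ Kf1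
  obtain ⟨Kc, Kc1, cost⟩ := cost C δ Kf Kf1
  obtain ⟨Ke, Ke0, d₀, feet⟩ := feet C δ
  obtain ⟨M₂, hM₂, s₁, cvp⟩ := cvp 6 C δ M hM
  obtain ⟨Kx, -, cx⟩ := cx
  obtain ⟨Cn, Cn0, deep⟩ := deep cnt cvq
  obtain ⟨ρ, hρ⟩ := rd 7 (Bad δ u)
  obtain ⟨K₁, k1, k2, k3⟩ : ∃ K₁ : ℝ, Kc ≤ K₁ ∧ 20 ≤ K₁ ∧ 32000 * √C / β ≤ K₁ :=
    ⟨max Kc (max 20 (32000 * √C / β)), le_max_left _ _, (le_max_left _ _).trans (le_max_right _ _),
      (le_max_right _ _).trans (le_max_right _ _)⟩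
  have M21 : 1 ≤ M₂ := hM.trans hM₂
  have M0 : 0 < M := by linarith
  have M20 : 0 < M₂ := by linarith
  have K10 : 0 < K₁ := by linarith
  refine ⟨max (max (max s₁ d₀) (2 * M)) (max ((K₁ * M₂) ^ 40)
    ((Cn * Ke + 2 * (K₀ * Kc * (M * M₂ * Real.exp 2)) * (K₁ ^ 5 * M₂ ^ 5 + (3 + 100 * Kf))) ^ 5)),
    fun s hs => ?_⟩
  simp only [ge_iff_le, max_le_iff] at hs
  obtain ⟨⟨⟨a1, a2⟩, a3⟩, a4, a5⟩ := hs
  have s1 : 1 ≤ s := by linarith
  have s0 : 0 < s := by linarith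
  have S1 : 1 ≤ M₂ * s := one_le_mul_of_one_le_of_one_le M21 s1
  have r1 : K₁ * (M₂ * s) ≤ s ^ (41 / 40 : ℝ) := by
    have := root (k := 40) (by norm_num) (by positivity) a4
    calc _ = K₁ * M₂ * s ^ (1 : ℝ) := by rw [Real.rpow_one]; ring
      _ ≤ s ^ (((40 : ℕ) : ℝ)⁻¹) * s ^ (1 : ℝ) := by gcongr
      _ = _ := by rw [← Real.rpow_add s0]; norm_num
  have r2 : s ≤ s ^ (41 / 40 : ℝ) := by
    simpa using Real.rpow_le_rpow_of_exponent_le s1 (show (1 : ℝ) ≤ 41 / 40 by norm_num)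
  have pw := pw K10.le M21 s1
  have aM : 1 < s / M := by rw [lt_div_iff₀ M0]; linarith
  have cE : s / M / (M₂ * s) / Real.exp 2 = (M * M₂ * Real.exp 2)⁻¹ := by field_simp
  generalize hS : M₂ * s = S at *
  have S0 : 0 < S := by linarith
  have SD : S ≤ K₁ * S := le_mul_of_one_le_left S0.le (by linarith)
  obtain ⟨F, Θ, hP⟩ := prs S (100 * S) S1 (by linarith)
  have x1 := Real.exp_pos (100 * S)
  have x2 := Real.exp_pos (250 * S)
  have x3 : 0 < Kc * Real.exp (100 * S) := by positivity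
  refine ⟨1 / (Kc * Real.exp (100 * S) + K₁ * S + 2 + Real.exp (250 * S)), by positivity,
    fun l ζ A l0 l1 hζ mA hA => ?_⟩
  rw [le_div_iff₀ (by positivity)] at l1
  have l2 : l * (Kc * Real.exp (100 * S) + K₁ * S + 2) ≤ 1 :=
    le_trans (mul_le_mul_of_nonneg_left (by linarith) l0.le) l1
  have l3 : l * Real.exp (250 * S) ≤ 1 :=
    le_trans (mul_le_mul_of_nonneg_left (by linarith) l0.le) l1
  have l4 : l * S ≤ 1 := le_trans (mul_le_mul_of_nonneg_left (by linarith) l0.le) l1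
  have X0 : 0 ≤ Xi (Bad δ u) ζ := integral_nonneg fun _ => sq_nonneg _
  have hβ : 100 * S * (320 * √C / (K₁ * S)) ≤ β := by
    rw [div_le_iff₀ β0] at k3
    rw [show 100 * S * (320 * √C / (K₁ * S)) = 32000 * √C / K₁ by field_simp; ring,
      div_le_iff₀ K10]
    linarith
  have D20 : 20 ≤ K₁ * S := k2.trans (le_mul_of_one_le_right K10.le S1)
  have cφ : Continuous fun x => gn u x * ζ x ^ 2 :=
    (gn_cont cvq h.ok).mul (hζ.sm.continuous.pow 2)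
  have side : ∀ v : E 7 → ℝ, Rt C δ v → Bad δ v = Bad δ u → gn v = gn u → ∀ R : ℝ,
      Real.exp (250 * S) ≤ R → ENNReal.ofReal (M * M₂ * Real.exp 2)⁻¹ *
      ∫⁻ w in SS' δ v (ee C ρ) S (s / M) (K₁ * S) R, ENNReal.ofReal (gn u w.1 * ζ w.1 ^ 2) ≤
      ENNReal.ofReal (K₀ * Kc * ((K₁ ^ 5 * M₂ ^ 5 * s ^ (21 / 5 : ℝ) + (3 + 100 * Kf)) *
        Xi (Bad δ u) ζ)) := by
    intro v hv e1 e2 R hR
    have R0 : 0 < R := x2.trans_le hR
    have hρ' : Rd (Bad δ v) ρ := e1 ▸ hρ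
    obtain ⟨c1, c2⟩ := cx 7 C δ l (K₁ * S) R (100 * S) β v ρ ζ hv hρ' hζ D20 R0 (by linarith) hβ
    have ι0 : 0 ≤ Kf * (100 * S) * Real.exp (-(26 / 5 * (100 * S - 2 * S))) := by positivity
    obtain ⟨t1, t2⟩ := te0 v _ _ _ _ S F Θ hv.ok hv.st (by linarith) ι0 hP c1
    have t3 := cost v ρ ζ l S (K₁ * S) R _ g₀ F Θ hv hρ' hζ hP S1
      (mul_le_mul_of_nonneg_right k1 S0.le) R0 ι0 l0.le l2
    refine (cova 7 C _ v (fun x => gn u x * ζ x ^ 2) _ _ hv.ok cφ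
      (fun x => mul_nonneg (gn_nn cvq h.ok x) (sq_nonneg _)) t1 (fun z => ?_) (by positivity)
      ?_).trans (ENNReal.ofReal_le_ofReal (t2.trans ?_))
    · exact mul_nonneg (sq_nonneg _) (mul_nonneg (mul_nonneg (mul_nonneg (sq_nonneg _) (st_nn _))
        (gn_nn cvq hv.ok _)) (mul_nonneg (norm_nonneg _) (abs_nonneg _)))
    · rintro w ⟨y, t, b1, b2, b3, b4, b5, b6⟩
      refine ⟨(y, t), b1.uu, b1.eq, b2, ?_⟩
      rw [← cE, ← e2]
      exact low cvq hv.ok hζ hP S1 aM l0.le l4 b1 ((c2 y).2.2.2.2.1 b3 b4 b5) b6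
    · rw [mul_assoc K₀]
      refine mul_le_mul_of_nonneg_left (t3.trans ?_) K₀0
      obtain ⟨q1, q2⟩ := small l0.le l3 hR
      have q3 := iota (K := Kf) (by linarith) S1
      rw [e1, mul_assoc Kc]
      refine mul_le_mul_of_nonneg_left (mul_le_mul_of_nonneg_right ?_ X0) (by linarith)
      linarith
  have main := glue (A := A) cφ (fun x => mul_nonneg (gn_nn cvq h.ok x) (sq_nonneg _))
    (c := (M * M₂ * Real.exp 2)⁻¹) (by positivity) (by positivity) (by positivity)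
    (deep C δ Ke l u ζ h hζ Ke0) fun k => ⟨_, _,
      side u h rfl rfl (k + S + Real.exp (250 * S)) (by linarith [Nat.cast_nonneg (α := ℝ) k]),
      side (-u) (rt_neg sym h) (bad_neg sym) (gn_neg sym) (k + S + Real.exp (250 * S))
        (by linarith [Nat.cast_nonneg (α := ℝ) k]), fun x xA x1 xk τ hτ => by
      obtain ⟨b1, b2⟩ := hA x xA
      obtain ⟨y, t, b3, b4⟩ := (feet u x h (a2.trans (r2.trans b1))).resolve_left x1 τ hτ
      have b5 := cvp u ρ x y s t h hρ a1 b1 b2 b3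
      rw [hS] at b5
      obtain ⟨b5, b6, b7⟩ := b5
      have b8 : ‖y‖ ≤ k + S + Real.exp (250 * S) := by
        have : y = x - t • nu u y := eq_sub_of_add_eq b3.eq.symm
        have k2 : ‖t • nu u y‖ ≤ S := by
          rw [norm_smul, Real.norm_eq_abs]
          exact (mul_le_of_le_one_right (abs_nonneg _) (nu_le y)).trans b5
        calc ‖y‖ = ‖x - t • nu u y‖ := congrArg _ this
          _ ≤ ‖x‖ + ‖t • nu u y‖ := norm_sub_le _ _
          _ ≤ _ := by linarith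
      have b9 : 3 / 4 * (K₁ * S) ≤ dd δ u y := by linarith
      rcases b7 with b7 | b7
      · exact .inl ⟨y, t, b7, b4, b3.lo, b9, b8, b5⟩
      · refine .inr ⟨y, -t, b7, ?_, ?_, ?_, b8, by rwa [abs_neg]⟩
        · rw [(sym.1 7 u).1.1, Pi.neg_apply, b4]
        · rw [(sym.1 7 u).1.1, Pi.neg_apply, abs_neg]; exact b3.lo
        · rwa [dd_neg sym]⟩
  refine main.trans (le_trans (le_of_eq ?_) (fin (by positivity) (by positivity) (by positivity) X0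
    s1 (by positivity) a5))
  rw [div_inv_eq_mul]; ring

end Vale.Agent.P134E
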