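import Vale.Agent.P134E.Defs
import Vale.Agent.P134T.Calc

/-!
# P134E, row E.JT: the stability inequality in the tube for a product
-/

open MeasureTheory Metric Filter Topology Set
open scoped ContDiff RealInnerProductSpace
open Vale.Agent.P366.Stmt (E)
open Vale.Agent.P366W (dvg trc)

noncomputable section

namespace Vale.Agent.P134E

open Vale.Agent.P134B Vale.Agent.P134T

namespace JTAux

variable {n : ℕ} {C : ℝ} {u M : E n → ℝ} {ξ g : E n × ℝ → ℝ} {z : E n × ℝ}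

theorem tg_zero {φ : E n × ℝ → ℝ} (h : φ =ᶠ[𝓝 z] fun _ => 0) : tg u φ z = 0 := by
  have h1 : (fun y => φ (y, z.2)) =ᶠ[𝓝 z.1] fun _ => 0 :=
    (Continuous.prodMk_left z.2).continuousAt.tendsto.eventually h
  rw [tg, h.fderiv_eq, h1.gradient_eq, grad_const]
  simp

theorem ev_mul (g : E n × ℝ → ℝ) (hz : z ∉ tsupport ξ) :
    (fun w => ξ w * g w) =ᶠ[𝓝 z] fun _ => 0 := by
  filter_upwards [notMem_tsupport_iff_eventuallyEq.1 hz] with w hw
  rw [hw, Pi.zero_apply, zero_mul]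

theorem tu_mul (hξ : Tu u ξ) (hg : ∀ z ∈ tsupport ξ, ContDiffAt ℝ 1 g z) :
    Tu u fun w => ξ w * g w where
  c1 := contDiff_iff_contDiffAt.2 fun z => by
    by_cases hz : z ∈ tsupport ξ
    · exact hξ.c1.contDiffAt.mul (hg z hz)
    · exact contDiffAt_const.congr_of_eventuallyEq (ev_mul g hz)
  cs := hξ.cs.mul_right
  su := (tsupport_mul_subset_left (f := ξ) (g := g)).trans hξ.su

/-- the weighted gradient field -/
def YY (u M : E n → ℝ) (x : E n) : E n := ff u x ^ 2 • gradient M x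

theorem cd_YY (h : Ok C u) (hM : ContDiff ℝ 2 M) : ContDiff ℝ 1 (YY u M) :=
  ((h.tcf.of_le (by norm_cast)).pow 2).smul (P366W.contDiff_gradient (k := 1) hM)

theorem dvg_YY (h : Ok C u) (hM : ContDiff ℝ 2 M) (x : E n) :
    dvg (YY u M) x = ff u x ^ 2 * Lf u M x := by
  have hf := d2 (c2 h.tcf) x
  have e : gradient (fun y => ff u y ^ 2) x = (2 * ff u x) • gradient (ff u) x := by
    simpa using grad_comp (φ := fun s => s ^ 2) (hasDerivAt_pow 2 (ff u x)) hf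
  have := P366W.dvg_smul (f := fun y => ff u y ^ 2) (hf.pow 2) (dg2 hM x)
  rw [← P366W.inner_grad, e, h.gf, real_inner_smul_left, real_inner_smul_left] at this
  refine this.trans ?_
  unfold Lf lap
  ring

theorem cont_PP (h : Ok C u) : Continuous (PP u) := by
  have h1 := h.tcf.continuous
  have h2 := h.tcp.continuous
  unfold PP qq
  fun_prop

theorem alg (a b m₀ m₁ : E n) (x t L f P l₀ l₁ M₀ M₁ J : ℝ) (hL : L = t * M₀ + (1 - t) * M₁)
    (hb : ⟪b, m₀⟫ = ⟪b, m₁⟫) :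
    x ^ 2 * (f ^ 2 * L * (t * (l₀ + P * M₀) + (1 - t) * (l₁ + P * M₁))) * J =
      (x * (x * L * t) * (f ^ 2 * l₀) + ⟪x • ((x * L) • b +
        t • (x • (t • m₀ + (1 - t) • m₁) + L • a)) + (x * L * t) • a, f ^ 2 • m₀⟫) * J +
      (x * (x * L * (1 - t)) * (f ^ 2 * l₁) + ⟪x • ((x * L) • (0 - b) +
        (1 - t) • (x • (t • m₀ + (1 - t) • m₁) + L • a)) + (x * L * (1 - t)) • a,
          f ^ 2 • m₁⟫) * J +
      f ^ 2 * P * (x * L) ^ 2 * J - f ^ 2 * ‖x • (t • m₀ + (1 - t) • m₁) + L • a‖ ^ 2 * J +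
      f ^ 2 * L ^ 2 * ‖a‖ ^ 2 * J := by
  rw [← real_inner_self_eq_norm_sq, ← real_inner_self_eq_norm_sq]
  simp only [zero_sub, inner_add_left, inner_add_right, real_inner_smul_left,
    real_inner_smul_right, inner_neg_left, real_inner_comm a m₀, real_inner_comm a m₁,
    real_inner_comm m₀ m₁, hb]
  rw [hL]
  ring

theorem comb {A B L R Q : E n × ℝ → ℝ} (hA : Integrable A) (hB : Integrable B)
    (hL : Integrable L) (hR : Integrable R) (hQ : Integrable Q) (a : ∫ z, A z = 0)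
    (b : ∫ z, B z = 0) (l : ∫ z, L z ≤ ∫ z, R z) :
    ∫ z, (A z + B z + L z - R z + Q z) ≤ ∫ z, Q z := by
  have h1 : Integrable fun z => A z + B z := hA.add hB
  have h2 : Integrable fun z => A z + B z + L z := h1.add hL
  have h3 : Integrable fun z => A z + B z + L z - R z := h2.sub hR
  rw [integral_add h3 hQ, integral_sub h2 hR, integral_add h1 hL, integral_add hA hB, a, b]
  linarith

end JTAux

open JTAux in
/-- Row E.JT. -/
theorem jt : rJT := by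
  intro tgc pb ps n C u M₀ M₁ ξ ϑ h hS h₀ h₁ hξ hϑ
  obtain ⟨hU, hJ, -, hy, hz, hI⟩ := tgc n C u h
  have cr : ∀ z ∈ tsupport ξ, ContDiffAt ℝ 1 (ray u) z := fun z k =>
    ((hy z.1 (hξ.su k).1).2.2.2.2.1 z.2).of_le (by norm_cast)
  have cM : ∀ {M : E n → ℝ}, ContDiff ℝ 2 M → ∀ z ∈ tsupport ξ,
      ContDiffAt ℝ 1 (fun w => M (ray u w)) z := fun hM z k =>
    (hM.of_le (by norm_num)).contDiffAt.comp z (cr z k)
  have cL : ∀ z ∈ tsupport ξ, ContDiffAt ℝ 1 (La u ϑ M₀ M₁) z := fun z k =>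
    ((hϑ z k).1.mul (cM h₀ z k)).add ((contDiffAt_const.sub (hϑ z k).1).mul (cM h₁ z k))
  have t₀ : Tu u fun w => ξ w * (ξ w * La u ϑ M₀ M₁ w * ϑ w) :=
    tu_mul hξ fun z k => (hξ.c1.contDiffAt.mul (cL z k)).mul (hϑ z k).1
  have t₁ : Tu u fun w => ξ w * (ξ w * La u ϑ M₀ M₁ w * (1 - ϑ w)) :=
    tu_mul hξ fun z k => (hξ.c1.contDiffAt.mul (cL z k)).mul (contDiffAt_const.sub (hϑ z k).1)
  have t₂ : Tu u fun w => ξ w * La u ϑ M₀ M₁ w := tu_mul hξ cL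
  have cJ : ∀ z ∈ tsupport ξ, ContinuousAt (JJ u) z := fun z k =>
    hJ.continuousAt (hU.mem_nhds (hξ.su k))
  have ct : ∀ {φ : E n × ℝ → ℝ}, Tu u φ → ∀ z ∈ tsupport ξ, ContinuousAt (tg u φ) z :=
    fun hφ z k => (hz z (hξ.su k)).2.2.2.2.2.2.2.2.2.2 _ hφ.c1.contDiffAt
  have cc : ∀ {X : Type} [TopologicalSpace X] {a : E n → X}, Continuous a → ∀ z ∈ tsupport ξ,
      ContinuousAt (fun w => a (ray u w)) z := fun ha z k =>
    ha.continuousAt.comp (cr z k).continuousAt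
  have x0 : ∀ z, z ∉ tsupport ξ → ξ z = 0 := fun z k => image_eq_zero_of_notMem_tsupport k
  have iD : ∀ {M : E n → ℝ} {g : E n × ℝ → ℝ}, ContDiff ℝ 2 M → Tu u (fun w => ξ w * g w) →
      Integrable fun z =>
      (ξ z * g z * dvg (YY u M) (ray u z) + ⟪tg u (fun w => ξ w * g w) z, YY u M (ray u z)⟫) *
        JJ u z := fun {M g} hM hg => hI _ _ hξ.cs (fun z k =>
    ((hg.c1.continuous.continuousAt.mul (cc (P366W.continuous_dvg (cd_YY h hM)) z k)).add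
      ((ct hg z k).inner (𝕜 := ℝ) (cc (cd_YY h hM).continuous z k))).mul (cJ z k))
    fun z k => by rw [tg_zero (ev_mul g k), x0 z k]; simp
  have cf := fun z k => (cc h.tcf.continuous z k).pow 2
  have iL : Integrable fun z => ff u (ray u z) ^ 2 * PP u (ray u z) *
      (ξ z * La u ϑ M₀ M₁ z) ^ 2 * JJ u z := hI _ _ hξ.cs (fun z k =>
    (((cf z k).mul (cc (cont_PP h) z k)).mul (t₂.c1.continuous.continuousAt.pow 2)).mul (cJ z k))
    fun z k => by rw [x0 z k]; simp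
  have iR : Integrable fun z => ff u (ray u z) ^ 2 *
      ‖tg u (fun w => ξ w * La u ϑ M₀ M₁ w) z‖ ^ 2 * JJ u z := hI _ _ hξ.cs (fun z k =>
    ((cf z k).mul ((ct t₂ z k).norm.pow 2)).mul (cJ z k))
    fun z k => by rw [tg_zero (ev_mul _ k)]; simp
  have iB : Integrable fun z => ff u (ray u z) ^ 2 * La u ϑ M₀ M₁ z ^ 2 * ‖tg u ξ z‖ ^ 2 *
      JJ u z := hI _ _ hξ.cs (fun z k =>
    (((cf z k).mul ((cL z k).continuousAt.pow 2)).mul ((ct hξ z k).norm.pow 2)).mul (cJ z k))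
    fun z k => by rw [tg_zero (notMem_tsupport_iff_eventuallyEq.1 k)]; simp
  have key : ∀ z, ξ z ^ 2 * Hg u ϑ M₀ M₁ z * JJ u z =
      (ξ z * (ξ z * La u ϑ M₀ M₁ z * ϑ z) * dvg (YY u M₀) (ray u z) +
        ⟪tg u (fun w => ξ w * (ξ w * La u ϑ M₀ M₁ w * ϑ w)) z, YY u M₀ (ray u z)⟫) * JJ u z +
      (ξ z * (ξ z * La u ϑ M₀ M₁ z * (1 - ϑ z)) * dvg (YY u M₁) (ray u z) +
        ⟪tg u (fun w => ξ w * (ξ w * La u ϑ M₀ M₁ w * (1 - ϑ w))) z, YY u M₁ (ray u z)⟫) *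
          JJ u z +
      ff u (ray u z) ^ 2 * PP u (ray u z) * (ξ z * La u ϑ M₀ M₁ z) ^ 2 * JJ u z -
      ff u (ray u z) ^ 2 * ‖tg u (fun w => ξ w * La u ϑ M₀ M₁ w) z‖ ^ 2 * JJ u z +
      ff u (ray u z) ^ 2 * La u ϑ M₀ M₁ z ^ 2 * ‖tg u ξ z‖ ^ 2 * JJ u z := by
    intro z
    by_cases k : z ∈ tsupport ξ
    swap
    · rw [tg_zero (ev_mul _ k), tg_zero (ev_mul _ k), tg_zero (ev_mul _ k),
        tg_zero (notMem_tsupport_iff_eventuallyEq.1 k), x0 z k]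
      simp
    obtain ⟨-, -, hm, -, ha, -, -, -, hc, hk, -⟩ := hz z (hξ.su k)
    have dξ := hξ.c1.differentiable one_ne_zero z
    have dϑ := (hϑ z k).1.differentiableAt one_ne_zero
    have dϑ' : DifferentiableAt ℝ (fun w => 1 - ϑ w) z := (differentiableAt_const _).sub dϑ
    have dL := (cL z k).differentiableAt one_ne_zero
    have d₀ := (cM h₀ z k).differentiableAt one_ne_zero
    have d₁ := (cM h₁ z k).differentiableAt one_ne_zero
    have dxL : DifferentiableAt ℝ (fun w => ξ w * La u ϑ M₀ M₁ w) z := dξ.mul dL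
    have e1 : tg u (fun w => 1 - ϑ w) z = 0 - tg u ϑ z := by
      rw [(hm _ _ (differentiableAt_const _) dϑ).2.2, hk]
    have hb : M₀ (ray u z) • tg u ϑ z = M₁ (ray u z) • tg u ϑ z ∧
        ⟪tg u ϑ z, gradient M₀ (ray u z)⟫ = ⟪tg u ϑ z, gradient M₁ (ray u z)⟫ := by
      rcases (hϑ z k).2 with ⟨c, e⟩ | e
      · rw [hc _ _ e, hk]; simp
      · rw [e.gradient_eq, e.self_of_nhds]; exact ⟨rfl, rfl⟩
    have e2 : tg u (La u ϑ M₀ M₁) z =
        ϑ z • gradient M₀ (ray u z) + (1 - ϑ z) • gradient M₁ (ray u z) := by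
      refine (hm _ _ (dϑ.mul d₀) (dϑ'.mul d₁)).2.1.trans ?_
      refine (congrArg₂ (· + ·) (hm _ _ dϑ d₀).1 (hm _ _ dϑ' d₁).1).trans ?_
      rw [ha _ (d2 h₀ _), ha _ (d2 h₁ _), e1, hb.1, zero_sub, smul_neg]
      abel
    rw [(hm _ _ dξ (dxL.fun_mul dϑ)).1, (hm _ _ dξ (dxL.fun_mul dϑ')).1, (hm _ _ dxL dϑ).1,
      (hm _ _ dxL dϑ').1, (hm _ _ dξ dL).1, e1, e2, dvg_YY h h₀, dvg_YY h h₁]
    exact alg _ _ _ _ _ _ _ _ _ _ _ _ _ _ rfl hb.2
  have p₀ := pb n C u _ _ h (cd_YY h h₀) t₀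
  have p₁ := pb n C u _ _ h (cd_YY h h₁) t₁
  have p₂ := ps n C u _ h hS t₂
  simp only [key]
  exact comb (iD h₀ t₀) (iD h₁ t₁) iL iR iB p₀ p₁ p₂

end Vale.Agent.P134E
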