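import Vale.Agent.P134E.Lib
import Vale.Agent.P134E.JT

/-!
# P134E: the inequality in the tube
-/

open MeasureTheory Metric Filter Topology Set
open scoped ContDiff RealInnerProductSpace
open Vale.Agent.P366.Stmt (E)
open Vale.Agent.P366W (dvg trc)

noncomputable section

namespace Vale.Agent.P134E

open Vale.Agent.P134B

namespace TE1Aux

variable {n : ℕ}

theorem fub {I₁ I₂ I₃ I₄ I₅ : E n × ℝ → ℝ} {R : E n → ℝ} {c K a b : ℝ} (h₁ : Integrable I₁)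
    (h₂ : Integrable I₂) (h₃ : Integrable I₃) (h₄ : Integrable I₄) (h₅ : Integrable I₅)
    (hR : Integrable R) (k₁ : ∫ z, I₁ z ≤ ∫ z, I₂ z) (k₃ : ∫ z, I₃ z = 0) (k₄ : ∫ z, I₄ z = 0)
    (h : ∀ y, c * ∫ t, I₅ (y, t) ≤ K * R y + (((∫ t, I₁ (y, t)) - ∫ t, I₂ (y, t)) +
      a * (∫ t, I₄ (y, t)) + b * ∫ t, I₃ (y, t))) : c * ∫ z, I₅ z ≤ K * ∫ y, R y := by
  rw [Measure.volume_eq_prod] at h₁ h₂ h₃ h₄ h₅ k₁ k₃ k₄ ⊢
  rw [integral_prod _ h₁, integral_prod _ h₂] at k₁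
  rw [integral_prod _ h₃] at k₃
  rw [integral_prod _ h₄] at k₄
  rw [integral_prod _ h₅]
  have j₁ := h₁.integral_prod_left
  have j₂ := h₂.integral_prod_left
  have j₃ := h₃.integral_prod_left
  have j₄ := h₄.integral_prod_left
  have j₅ := h₅.integral_prod_left
  have a1 : Integrable fun y => (∫ t, I₁ (y, t)) - ∫ t, I₂ (y, t) := j₁.sub j₂
  have a2 : Integrable fun y => ((∫ t, I₁ (y, t)) - ∫ t, I₂ (y, t)) + a * ∫ t, I₄ (y, t) :=
    a1.add (j₄.const_mul a)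
  have a3 : Integrable fun y => ((∫ t, I₁ (y, t)) - ∫ t, I₂ (y, t)) + a * (∫ t, I₄ (y, t)) +
      b * ∫ t, I₃ (y, t) := a2.add (j₃.const_mul b)
  have m := integral_mono (j₅.const_mul c) ((hR.const_mul K).add a3) h
  simp only [Pi.add_apply] at m
  rw [integral_add (hR.const_mul K) a3, integral_add a2 (j₃.const_mul b),
    integral_add a1 (j₄.const_mul a), integral_sub j₁ j₂, integral_const_mul, integral_const_mul,
    integral_const_mul, integral_const_mul, k₃, k₄] at m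
  linarith

variable {C : ℝ} {u M : E n → ℝ}

theorem cont_LP (h : Ok C u) (hM : ContDiff ℝ 2 M) : Continuous (LP u M) := by
  have h1 : Continuous (gradient M) := (P366W.contDiff_gradient (k := 1) hM).continuous
  have h2 : Continuous (lap M) := P366W.continuous_dvg (P366W.contDiff_gradient (k := 1) hM)
  have h3 := h.tcp.continuous
  have h4 := h.sm.continuous
  have h5 := JTAux.cont_PP h
  have h6 := hM.continuous
  unfold LP Lf
  fun_prop

theorem cont_qq (h : Ok C u) : Continuous (qq u) := by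
  have h3 := h.tcp.continuous
  unfold qq
  fun_prop

/-- the five integrands are integrable -/
theorem intS (tgc : TGC) (h : Ok C u) {φ : E n × ℝ → ℝ} (hφ : Tu u φ) :
    Integrable fun z => (⟪tg u φ z, Te u (nu u z.1) (ray u z)⟫ + φ z * Cu u z) * JJ u z := by
  obtain ⟨hU, hJ, hA, hy, hz, hI⟩ := tgc n C u h
  refine hI _ _ hφ.cs (fun z k => ?_) fun z k => by
    rw [JTAux.tg_zero (notMem_tsupport_iff_eventuallyEq.1 k), image_eq_zero_of_notMem_tsupport k]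
    simp
  have hU' := hφ.su k
  obtain ⟨-, cν, cB, -, cr, -⟩ := hy z.1 hU'.1
  have cr := (cr z.2).continuousAt
  have c1 : ContinuousAt (tg u φ) z := (hz z hU').2.2.2.2.2.2.2.2.2.2 _ hφ.c1.contDiffAt
  have c2 : ContinuousAt (fun w : E n × ℝ => nu u w.1) z := cν.continuousAt.comp continuousAt_fst
  have c3 : ContinuousAt (fun w : E n × ℝ => BB u w.1) z := cB.continuousAt.comp continuousAt_fst
  have c4 : ContinuousAt (Ai u) z := hA.continuousAt (hU.mem_nhds hU')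
  have c5 : ContinuousAt (JJ u) z := hJ.continuousAt (hU.mem_nhds hU')
  have c6 : ContinuousAt (fun w => ff u (ray u w)) z := h.tcf.continuous.continuousAt.comp cr
  have c7 : ContinuousAt (fun w => pp u (ray u w)) z := h.tcp.continuous.continuousAt.comp cr
  have c8 : ContinuousAt (fun w => qq u (ray u w)) z := (cont_qq h).continuousAt.comp cr
  have c9 : ContinuousAt φ z := hφ.c1.continuous.continuousAt
  have c10 : ContinuousAt (fun w => trc (Ai u w ∘L BB u w.1)) z :=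
    P366W.continuous_trc.continuousAt.comp (c4.clm_comp c3)
  have c11 : ContinuousAt (fun w => Ai u w (BB u w.1 (pp u (ray u w)))) z :=
    c4.clm_apply (c3.clm_apply c7)
  refine ContinuousAt.mul (ContinuousAt.add (c1.inner (𝕜 := ℝ) ?_) (c9.mul ?_)) c5
  · unfold Te pe
    exact (c6.pow 2).smul (((c7.inner (𝕜 := ℝ) c2).smul c7).sub
      ((continuousAt_const.sub (c8.div_const 2)).smul c2))
  · unfold Cu
    exact (c6.pow 2).mul ((c11.inner (𝕜 := ℝ) c7).sub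
      ((continuousAt_const.sub (c8.div_const 2)).mul c10))

theorem intY (tgc : TGC) (h : Ok C u) {φ : E n × ℝ → ℝ} (hφ : Tu u φ) {Y : E n → E n}
    (hY : ContDiff ℝ 1 Y) :
    Integrable fun z => (φ z * dvg Y (ray u z) + ⟪tg u φ z, Y (ray u z)⟫) * JJ u z := by
  obtain ⟨hU, hJ, -, hy, hz, hI⟩ := tgc n C u h
  refine hI _ _ hφ.cs (fun z k => ?_) fun z k => by
    rw [JTAux.tg_zero (notMem_tsupport_iff_eventuallyEq.1 k), image_eq_zero_of_notMem_tsupport k]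
    simp
  have hU' := hφ.su k
  have cr := ((hy z.1 hU'.1).2.2.2.2.1 z.2).continuousAt
  have c1 : ContinuousAt (tg u φ) z := (hz z hU').2.2.2.2.2.2.2.2.2.2 _ hφ.c1.contDiffAt
  exact ((hφ.c1.continuous.continuousAt.mul
    ((P366W.continuous_dvg hY).continuousAt.comp cr)).add
    (c1.inner (𝕜 := ℝ) (hY.continuous.continuousAt.comp cr))).mul
    (hJ.continuousAt (hU.mem_nhds hU'))

theorem intH (tgc : TGC) (h : Ok C u) {ξ ϑ : E n × ℝ → ℝ} (hξ : Tu u ξ) {M₀ M₁ : E n → ℝ}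
    (h₀ : ContDiff ℝ 2 M₀) (h₁ : ContDiff ℝ 2 M₁) (hϑ : ∀ z ∈ tsupport ξ, ContinuousAt ϑ z) :
    (Integrable fun z => ξ z ^ 2 * Hg u ϑ M₀ M₁ z * JJ u z) ∧
    Integrable fun z => ff u (ray u z) ^ 2 * La u ϑ M₀ M₁ z ^ 2 * ‖tg u ξ z‖ ^ 2 * JJ u z := by
  obtain ⟨hU, hJ, -, hy, hz, hI⟩ := tgc n C u h
  have cr : ∀ z ∈ tsupport ξ, ContinuousAt (ray u) z := fun z k =>
    ((hy z.1 (hξ.su k).1).2.2.2.2.1 z.2).continuousAt
  have cL : ∀ z ∈ tsupport ξ, ContinuousAt (La u ϑ M₀ M₁) z := fun z k =>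
    ((hϑ z k).mul (h₀.continuous.continuousAt.comp (cr z k))).add
      ((continuousAt_const.sub (hϑ z k)).mul (h₁.continuous.continuousAt.comp (cr z k)))
  have cf : ∀ z ∈ tsupport ξ, ContinuousAt (fun w => ff u (ray u w) ^ 2) z := fun z k =>
    (h.tcf.continuous.continuousAt.comp (cr z k)).pow 2
  have cJ : ∀ z ∈ tsupport ξ, ContinuousAt (JJ u) z := fun z k =>
    hJ.continuousAt (hU.mem_nhds (hξ.su k))
  refine ⟨hI _ _ hξ.cs (fun z k => ?_) fun z k => by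
      rw [image_eq_zero_of_notMem_tsupport k]; simp,
    hI _ _ hξ.cs (fun z k => ?_) fun z k => by
      rw [JTAux.tg_zero (notMem_tsupport_iff_eventuallyEq.1 k)]; simp⟩
  · refine ((hξ.c1.continuous.continuousAt.pow 2).mul ?_).mul (cJ z k)
    exact ((cf z k).mul (cL z k)).mul
      (((hϑ z k).mul ((cont_LP h h₀).continuousAt.comp (cr z k))).add
        ((continuousAt_const.sub (hϑ z k)).mul ((cont_LP h h₁).continuousAt.comp (cr z k))))
  · exact (((cf z k).mul ((cL z k).pow 2)).mul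
      ((((hz z (hξ.su k)).2.2.2.2.2.2.2.2.2.2 _ hξ.c1.contDiffAt).norm).pow 2)).mul (cJ z k)

theorem cont_of {X : Type} [TopologicalSpace X] {a ζ : X → ℝ}
    (h : ∀ y ∈ tsupport ζ, ContinuousAt a y) (h0 : ∀ y, y ∉ tsupport ζ → a y = 0) :
    Continuous a := continuous_iff_continuousAt.2 fun y => by
  by_cases k : y ∈ tsupport ζ
  · exact h y k
  · refine (continuousAt_const (y := (0 : ℝ))).congr ?_
    filter_upwards [(isClosed_tsupport ζ).isOpen_compl.mem_nhds k] with w hw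
    exact (h0 w hw).symm

theorem int_of {a ζ : E n → ℝ} (hc : HasCompactSupport ζ)
    (h : ∀ y ∈ tsupport ζ, ContinuousAt a y) (h0 : ∀ y, y ∉ tsupport ζ → a y = 0) :
    Integrable a :=
  (cont_of h h0).integrable_of_hasCompactSupport (HasCompactSupport.intro hc h0)

theorem supp_xi {e ζ : E n → ℝ} {G : ℝ} {F : ℝ → ℝ} {z : E n × ℝ}
    (hz : z ∈ tsupport (xi u e ζ G F)) : z.1 ∈ tsupport ζ := by
  by_contra k
  refine (notMem_tsupport_iff_eventuallyEq.2 ?_) hz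
  filter_upwards [continuousAt_fst.tendsto.eventually (notMem_tsupport_iff_eventuallyEq.1 k)]
    with w hw
  simp only [Pi.zero_apply] at hw
  simp [xi, et, hw]

end TE1Aux

open TE1Aux in
theorem te01 (tgc : TGC) (pb : PB) (jt : JT) (sti : STI) (greg : GREG) (prg : PRG) (prk : PRK)
    (cvq : CVQ) (gn0 : GN0) (gn1 : GN1) (ray_ : RAY) (regw : REGW) (rg1 : RG1) (rg2 : RG2)
    (rg3 : RG3) (sta : STA) (stb : STB) (sbc : SBC) (sba : SBA) (sbb : SBB) (sbd : SBD)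
    (alr : ALR) (m : ℕ) (C Kf g₀ : ℝ) (hKf : 1 ≤ Kf) : ∃ K ≥ (0 : ℝ), ∃ β > (0 : ℝ),
    ∀ (u e ζ : E (m + 1) → ℝ) (G ι S : ℝ) (F Θ : ℝ → ℝ), Ok C u → Stab u → 2 ≤ G → 0 ≤ ι →
    Pf Kf ι g₀ S G F Θ → Cx β u e ζ G →
    Continuous (fun z => xi u e ζ G F z ^ 2 * st (2 * sv u G z)) ∧
    Integrable (fun z => et u ζ G F z.1 ^ 2 * gy u e G z) ∧
    ∫ z, et u ζ G F z.1 ^ 2 * gy u e G z ≤
      K * ((∫ y, F (gp u G y) ^ 2 * ‖Pj u y (gradient ζ y)‖ ^ 2) +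
        ι * (∫ y in {y | gp u G y < G}, ζ y ^ 2) + ∫ y, et u ζ G F y ^ 2 * e y ^ 80) := by
  obtain ⟨B, -, prk⟩ := prk
  obtain ⟨l₀, hl₀, sbb⟩ := sbb (m + 1) C B
  obtain ⟨l, hl0, hl1, hl2⟩ : ∃ l : ℝ, 0 < l ∧ l ≤ l₀ ∧ l ≤ 1 / 200 :=
    ⟨min l₀ (1 / 200), lt_min hl₀ (by norm_num), min_le_left _ _, min_le_right _ _⟩
  obtain ⟨ℓ, γ, κ, Kp, ga⟩ := prg l hl0 hl2
  obtain ⟨k, hk⟩ := prk l l hl0 le_rfl hl2
  obtain ⟨η₅, hη₅, sbb⟩ := sbb l ℓ hl1
  obtain ⟨L₁, ray_⟩ := ray_ m C ℓ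
  obtain ⟨L₂, K₂, hK₂, sba⟩ := sba C
  obtain ⟨L, hL1, hL2, hL3⟩ : ∃ L : ℝ, L₁ ≤ L ∧ L₂ ≤ L ∧ g₀ ≤ L :=
    ⟨max (max L₁ L₂) g₀, by simp, by simp, by simp⟩
  obtain ⟨K, -, ray_⟩ := ray_ L hL1
  obtain ⟨K₃, hK₃, sta⟩ := sta (m + 1) C K L ℓ
  obtain ⟨K₄, -, stb⟩ := stb (m + 1) C K L ℓ
  obtain ⟨K₅, hK₅, sbc⟩ := sbc (m + 1) C K L ℓ
  obtain ⟨K₆, hK₆, sbd⟩ := sbd C
  obtain ⟨K', a2, a3, a5, a6⟩ : ∃ K' : ℝ, K₂ ≤ K' ∧ K₃ ≤ K' ∧ K₅ ≤ K' ∧ K₆ ≤ K' :=
    ⟨max (max K₂ K₃) (max K₅ K₆), by simp, by simp, by simp, by simp⟩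
  obtain ⟨η', hη', K₇, hK₇, alr⟩ := alr Kf K' l hKf (hK₂.trans a2) hl0 hl2
  obtain ⟨η₁, hη₁, sta⟩ := sta η' hη'
  obtain ⟨η₂, hη₂, stb⟩ := stb η' hη'
  obtain ⟨η₃, hη₃, sbc⟩ := sbc η' hη'
  obtain ⟨η, b0, b1, b2, b3, b5, b6⟩ :
      ∃ η : ℝ, 0 < η ∧ η ≤ η₁ ∧ η ≤ η₂ ∧ η ≤ η₃ ∧ η ≤ η₅ ∧ η ≤ 1 / 1000 :=
    ⟨min (min η₁ η₂) (min (min η₃ η₅) (1 / 1000)), by positivity, by simp, by simp, by simp,
      by simp, by simp⟩
  obtain ⟨δ, d0, d1, d2⟩ : ∃ δ : ℝ, 0 < δ ∧ δ ≤ l ∧ δ ≤ 1 / 1000 :=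
    ⟨min l (1 / 1000), by positivity, by simp, by simp⟩
  obtain ⟨β, hβ, ray_⟩ := ray_ η δ b0 b6 d0 d2
  obtain ⟨Bw, -, regw⟩ := regw
  obtain ⟨q₁, -, gn0⟩ := gn0 (m + 1) C l ℓ
  obtain ⟨K₈, -, gn1⟩ := gn1 (m + 1) C B
  refine ⟨16 / l * K₇, by positivity, β, hβ, fun u e ζ G ι S F Θ ok hs G2 ι0 pf cx => ?_⟩
  have cy : Cy C K η L ℓ δ u e ζ G := ⟨ok, G2, cx.ce, cx.cζ, cx.cs, fun y hy =>
    have h := cx.th y hy
    have r := ray_ u (e y) G y ok h.1 h.2.1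
    ⟨r.1, h.2.2, r.2⟩⟩
  obtain ⟨T1, h1, e1⟩ := rg1 _ C K η L ℓ δ G l l B Kf ι g₀ S u e ζ γ κ Kp k F Θ cy ga hk pf d1
    le_rfl
  obtain ⟨T2, e2⟩ := rg2 _ C K η L ℓ δ G l Kf ι g₀ S u e ζ γ κ Kp F Θ cy ga pf
  obtain ⟨T3, e3⟩ := rg3 _ C K η L ℓ δ G l Kf ι g₀ S u e ζ γ κ Kp F Θ cy ga pf
  obtain ⟨m0, cY, -⟩ := gn0 u γ κ Kp ok ga
  obtain ⟨m1, -⟩ := gn1 u l l k ok hl0 hl0 hk
  obtain ⟨mg, gr⟩ := greg _ C G u ok G2
  obtain ⟨hU, hJ, -, hy, hz, hI⟩ := tgc _ C u ok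
  obtain ⟨-, cq, -⟩ := cvq _ C u ok
  have k1 := jt _ C u _ _ _ _ ok hs m0 m1 T1 fun z hz => ⟨(h1 z hz).1, (h1 z hz).2.1⟩
  have k3 := sti _ C u _ ok T2
  have k4 := pb _ C u _ _ ok cY T3
  obtain ⟨i1, i2⟩ := intH tgc ok T1 m0 m1 fun z hz => (h1 z hz).1.continuousAt
  have i3 := intS tgc ok T2
  have i4 := intY tgc ok T3 cY
  have ev : ∀ y ∈ tsupport ζ, ¬gp u G y < G → ∀ᶠ w in 𝓝 y, F (gp u G w) = 0 := fun y hy h => by
    filter_upwards [((gr y).2.2.2.2.2.2 (cy.ry y hy).1).1 (G - 1) (by linarith)] with w hw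
    exact (pf.ze _ hw.le).1
  have cF : ∀ y ∈ tsupport ζ, ContinuousAt (fun w => F (gp u G w)) y := fun y hy => by
    by_cases h : gp u G y < G
    · exact (pf.c1 _ (by linarith [(gr y).1])).1.continuousAt.comp
        (regw _ C K η L ℓ δ G u e y ok ((cy.ry y hy).2.2 h)).1.continuousAt
    · exact (continuousAt_const (y := (0 : ℝ))).congr ((ev y hy h).mono fun w hw => hw.symm)
  have ac : ∀ z ∈ tsupport (xi u e ζ G F), Ac u ζ G z.1 := fun z hz => by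
    refine ⟨supp_xi hz, by_contra fun h => (notMem_tsupport_iff_eventuallyEq.2 ?_) hz⟩
    filter_upwards [continuousAt_fst.tendsto.eventually (ev _ (supp_xi hz) h)] with w hw
    simp [xi, et, hw]
  have x0 : ∀ z, z ∉ tsupport (xi u e ζ G F) → et u ζ G F z.1 * aa u e G z = 0 := fun z hz =>
    image_eq_zero_of_notMem_tsupport (f := xi u e ζ G F) hz
  have cζ := cx.cζ.continuous
  have i5 : Integrable fun z => et u ζ G F z.1 ^ 2 * gy u e G z := by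
    refine hI _ _ T1.cs (fun z hz => ?_) fun z hz => ?_
    · have c1 : ContinuousAt (fun w : E (m + 1) × ℝ => F (gp u G w.1)) z :=
        ContinuousAt.comp (f := Prod.fst) (cF _ (supp_xi hz)) continuousAt_fst
      exact ((c1.mul (cζ.continuousAt.comp continuousAt_fst)).pow 2).mul (h1 z hz).2.2
    · calc _ = (et u ζ G F z.1 * aa u e G z) ^ 2 *
          (st (2 * sv u G z) * gn u (ray u z) * JJ u z) := by unfold gy; ring
        _ = 0 := by rw [x0 z hz]; simp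
  have z0 : ∀ y, y ∉ tsupport ζ → ζ y = 0 := fun y h => image_eq_zero_of_notMem_tsupport h
  have r1 : Integrable fun y => F (gp u G y) ^ 2 * ‖Pj u y (gradient ζ y)‖ ^ 2 := by
    refine int_of cx.cs (fun y h => ((cF y h).pow 2).mul (ContinuousAt.pow ?_ 2)) fun y h => ?_
    · exact ((hy y (cy.ry y h).1).2.2.2.1.continuousAt.clm_apply
        (P366W.contDiff_gradient (k := 0) cx.cζ).continuous.continuousAt).norm
    · have : ζ =ᶠ[𝓝 y] fun _ => 0 := notMem_tsupport_iff_eventuallyEq.1 h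
      rw [this.gradient_eq]
      simp
  have ms : MeasurableSet {y | gp u G y < G} := measurableSet_lt mg measurable_const
  have r2 : Integrable fun y => ζ y ^ 2 :=
    int_of cx.cs (fun y _ => cζ.continuousAt.pow 2) fun y h => by simp [z0 y h]
  have r3 : Integrable fun y => et u ζ G F y ^ 2 * e y ^ 80 :=
    int_of cx.cs (fun y h => (((cF y h).mul cζ.continuousAt).pow 2).mul
      (cx.ce.continuous.continuousAt.pow 80)) fun y h => by simp [et, z0 y h]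
  have r2' := (r2.indicator ms).const_mul ι
  have r12 : Integrable fun y => F (gp u G y) ^ 2 * ‖Pj u y (gradient ζ y)‖ ^ 2 +
      ι * {y | gp u G y < G}.indicator (fun y => ζ y ^ 2) y := r1.add r2'
  have r123 : Integrable fun y => F (gp u G y) ^ 2 * ‖Pj u y (gradient ζ y)‖ ^ 2 +
      ι * {y | gp u G y < G}.indicator (fun y => ζ y ^ 2) y + et u ζ G F y ^ 2 * e y ^ 80 :=
    r12.add r3
  refine ⟨cont_of (ζ := xi u e ζ G F) (fun z hz => ?_) fun z hz => by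
    rw [image_eq_zero_of_notMem_tsupport hz]; simp, i5, ?_⟩
  · refine (T1.c1.continuous.continuousAt.pow 2).mul ?_
    exact ((regw _ C K η L ℓ δ G u e z.1 ok
      ((cy.ry _ (ac z hz).1).2.2 (ac z hz).2)).2.2.2.2.1 (fun s => st (2 * s))
      (st_cd.comp (contDiff_const.mul contDiff_id))
      (fun s hs => by rw [st_one (by linarith), st_one (by norm_num)]) z.2).continuousAt
  have main := fub (c := l / 16) (K := K₇) (a := 1 - 2 * l) (b := 52 / 25) i1 i2 i3 i4 i5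
    r123 k1 k3 k4 fun y => ?_
  · rw [integral_add r12 r3, integral_add r1 r2', integral_const_mul,
      integral_indicator ms] at main
    rw [mul_assoc, ← div_le_iff₀' (by positivity), div_div_eq_mul_div]
    linarith
  by_cases A : Ac u ζ G y
  swap
  · have t1 : ∀ t, xi u e ζ G F (y, t) = 0 := fun t => by simp [xi, ((e1 y t).2 A).1]
    have p2 : 0 ≤ ι * {y | gp u G y < G}.indicator (fun y => ζ y ^ 2) y :=
      mul_nonneg ι0 (indicator_nonneg (fun _ _ => sq_nonneg _) _)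
    simp only [t1, ((e1 y 0).2 A).1, fun t => ((e1 y t).2 A).2, fun t => ((e2 y t).2 A).1,
      fun t => ((e2 y t).2 A).2, fun t => ((e3 y t).2 A).1, fun t => ((e3 y t).2 A).2]
    simp only [ne_eq, OfNat.ofNat_ne_zero, not_false_eq_true, zero_pow, zero_mul, integral_zero,
      mul_zero, norm_zero, inner_zero_left, add_zero, sub_self]
    positivity
  have ry := (cy.ry y A.1).2.2 A.2
  have ce : ContDiffAt ℝ 1 e y := cx.ce.contDiffAt
  have ge := (cy.ry y A.1).2.1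
  obtain ⟨-, -, v1, v2, -⟩ := regw _ C K η L ℓ δ G u e y ok ry
  obtain ⟨σ, s1, s2, sta⟩ := sta η δ (e y) G l u y γ κ Kp b1 ok ry ga
  obtain ⟨j1, -, A0, stb⟩ := stb η δ (e y) G l u y γ κ Kp b2 ok ry ga
  obtain ⟨Q1, Q0, j2, sbc⟩ := sbc η δ (e y) G l u y γ κ Kp b3 ok ry ga
  have sba := sba _ K η L ℓ δ G l l B (et u ζ G F y) u e y (vb u ζ G F y) γ κ Kp k hL2 ok ry ce ge
    ga hk hl0
  have sbb := sbb K η L δ G l u e y γ κ Kp k b5 ok ry ce ge ga hk d1 le_rfl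
  have sbd := sbd _ K η L ℓ δ G u e y ok ry ce ge
  have pv : Pj u y (va u ζ G Θ y) = va u ζ G Θ y := by
    simp only [va, map_add, map_smul, v2, ((hy y (cy.ry y A.1).1).2.2.2.2.2.2.2.1 _).2.2.1]
  obtain ⟨j3, sta⟩ := sta _ pv
  obtain ⟨j4, sbc⟩ := sbc (vb u ζ G F y)
  have g8 := ry.rm.1
  have L2 := ry.L1
  obtain ⟨p1, p2, p3, p4, p5, p6, p7⟩ := pf.bd (gp u G y) (by linarith)
  have G0 : 0 ≤ ∫ t, gy u e G (y, t) := integral_nonneg fun t => by
    have := (cq (ray u (y, t))).2.1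
    have := (cq (ray u (y, t))).2.2.2.1
    have := st_nn (2 * sv u G (y, t))
    unfold gy gn JJ
    positivity
  have E1 : ∫ t, xi u e ζ G F (y, t) ^ 2 * Hg u (th u G l) (M0 l γ u) (M1 k u) (y, t) *
      JJ u (y, t) = et u ζ G F y ^ 2 * ∫ t, P134E.hy u e G l l γ k (y, t) := by
    rw [← integral_const_mul]
    exact integral_congr_ae (Eventually.of_forall fun t => by unfold xi P134E.hy; ring)
  simp only [fun t => (e1 y t).1 A, fun t => (e2 y t).1 A, fun t => (e3 y t).1 A]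
  rw [E1, integral_const_mul, integral_add j3 (j1.const_mul _), integral_const_mul,
    integral_add (j2.const_mul _) (j4.const_mul _), integral_const_mul, integral_const_mul,
    indicator_of_mem (show y ∈ {y | gp u G y < G} from A.2)]
  have va' : (-(-deriv Θ (gp u G y)) * ζ y ^ 2) • Vg u y (gp u G y) +
      (2 * Θ (gp u G y) * ζ y) • Pj u y (gradient ζ y) = va u ζ G Θ y := by rw [neg_neg, va]
  have n1 := norm_nonneg (va u ζ G Θ y)
  have n2 := norm_nonneg (vb u ζ G F y)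
  have e80 : 0 ≤ e y ^ 80 := by positivity
  refine alr _ (Vg u y (gp u G y)) (Pj u y (gradient ζ y)) (F (gp u G y)) (deriv F (gp u G y))
    (Θ (gp u G y)) (-deriv Θ (gp u G y)) (ζ y) ι (gp u G y) σ (QQ u G y)
    (∫ t, af u G L γ (y, t)) _ _ _ _ _ _ _ _ ι0 (by linarith) e80 (by linarith) p1 p2 p3 p4 p5 p6
    p7 s1 s2 Q0 Q1 (sbd.trans (mul_le_mul_of_nonneg_right a6 G0)) G0 A0 ?_ stb ?_ ?_ sbb
  · rw [va']
    refine sta.trans (mul_le_mul_of_nonneg_right ?_ n1)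
    linarith [mul_le_mul_of_nonneg_right a3 Q0]
  · exact sbc.trans (mul_le_mul_of_nonneg_right (mul_le_mul_of_nonneg_right a5 Q0) n2)
  · refine sba.trans ?_
    have := mul_le_mul_of_nonneg_right a2 (mul_nonneg (sq_nonneg (et u ζ G F y)) e80)
    exact add_le_add le_rfl this

theorem te0 : rTE0 := by
  intro a1 a2 a3 a4 a5 a6 a7 a8 a9 a10 a11 a12 a13 a14 a15 a16 a17 a18 a19 a20 a21 a22 m C Kf g₀ h
  obtain ⟨K, hK, β, hβ, H⟩ := te01 a1 a2 a3 a4 a5 a6 a7 a8 a9 a10 a11 a12 a13 a14 a15 a16 a17 a18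
    a19 a20 a21 a22 m C Kf g₀ h
  exact ⟨K, hK, β, hβ, fun u e ζ G ι S F Θ b1 b2 b3 b4 b5 b6 =>
    (H u e ζ G ι S F Θ b1 b2 b3 b4 b5 b6).2⟩

end Vale.Agent.P134E
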