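import Vale.Agent.P134E.Fin0

/-!
# P134E: a short gap lies close to the bad set
-/

open Metric

noncomputable section

namespace Vale.Agent.P134E

open Vale.Agent.P134B
open Vale.Agent.P134C (Rt dd Bad)

/-- **Row F.UPD** -/
theorem upd : rUPD := by
  intro low m C δ
  obtain ⟨K, β, hβ, h⟩ := low m C
  have s0 := Real.sqrt_nonneg C
  have a1 : 0 ≤ 16 * √C / β := by positivity
  have a2 : 0 ≤ 16 * √C * Real.exp (K / √2) := by positivity
  refine ⟨1 + 16 * √C / β + 16 * √C * Real.exp (K / √2), by linarith,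
    fun u y G hu h1 h2 h3 h4 => ?_⟩
  have s1 : 1 ≤ √C := Real.one_le_sqrt.2 hu.ok.C1
  have s2 : √C ^ 2 = C := Real.sq_sqrt (by linarith [hu.ok.C1])
  have D0 : 0 < dd δ u y := by nlinarith
  have e0 : 0 < 16 * √C / dd δ u y := by positivity
  have gd : Gd u (16 * √C / dd δ u y) y (4 / (16 * √C / dd δ u y)) := fun x hx => by
    have b1 : 4 / (16 * √C / dd δ u y) ≤ dd δ u y / 4 := by
      rw [div_div_eq_mul_div, div_le_div_iff₀ (by positivity) four_pos]; nlinarith
    have b2 : dd δ u y ≤ dd δ u x + dist y x := infDist_le_infDist_add_dist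
    have b3 : dd δ u y / 2 ≤ dd δ u x := by linarith [mem_ball'.1 hx]
    have b4 : 0 ≤ EE u x := mul_nonneg (sq_nonneg _) (hu.ok.q0 x)
    have b5 := (mul_le_mul_of_nonneg_left (pow_le_pow_left₀ (by positivity) b3 2) b4).trans
      (hu.rt x)
    rw [div_pow, le_div_iff₀ (by positivity), mul_pow, s2]
    nlinarith [hu.ok.C1]
  have b6 : G * (16 * √C / dd δ u y) ≤ β := by
    have : 16 * √C / β * G ≤ dd δ u y := le_trans (by nlinarith) h3
    rw [div_mul_eq_mul_div, div_le_iff₀ hβ] at this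
    rw [← mul_div_assoc, div_le_iff₀ D0]
    linarith
  have b7 := h u _ G y hu.ok ⟨e0, gd, h1, h2⟩ b6 h4
  have r2 : (0 : ℝ) < √2 := by positivity
  have b8 : -Real.log (16 * √C / dd δ u y) ≤ K / √2 + gp u G y / √2 := by
    rw [← add_div, le_div_iff₀ r2]
    unfold lg at b7
    linarith
  have b9 := Real.exp_le_exp.2 b8
  rw [Real.exp_neg, Real.exp_log e0, inv_div, div_le_iff₀ (by positivity), Real.exp_add] at b9
  have := Real.exp_pos (gp u G y / √2)
  nlinarith

end Vale.Agent.P134E
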