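import Vale.Agent.P134E.All0
import Vale.Agent.P134E.TE0
import Vale.Agent.P134E.TE
import Vale.Agent.P134E.COSTF
import Vale.Agent.P134E.COVA
import Vale.Agent.P134E.CVPF
import Vale.Agent.P134E.CX
import Vale.Agent.P134E.FEET
import Vale.Agent.P134E.PKG
import Vale.Agent.P134E.RD
import Vale.Agent.P134E.UPD
import Vale.Agent.P134C.Nob2

/-!
# P134E: the test on the tubes from the last rows, second route
-/

namespace Vale.Agent.P134E

open Vale.Agent.P134B All0

theorem te_ofF (pki : rPKI) : P134C.TE :=
  te sym cvq prs (feed te0) P134C.cnt rd cx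
    (costF greg' P134C.cnt P134C.cnr cx (pki greg' (pkg tgc greg' foot' par2' slab')) (upd low'))
    (feet seg cvq) (cvp sym greg' ray' regw' cx (upd low') (P134C.slo P134C.Nob2.tly'))
    (cova tgc ar')

end Vale.Agent.P134E
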