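import Vale.Agent.P134B.Spec2
import Vale.Agent.P134C.D0

/-!
# P134E: the test in the tube of normal rays, objects and tools

A point of the tube is `z = (y, t)`, its position is `ray u z = y + t ν(y)`.
-/

set_option linter.unusedVariables false

open MeasureTheory Metric Filter Topology Set
open scoped ContDiff RealInnerProductSpace
open Vale.Agent.P366.Stmt (E)
open Vale.Agent.P366W (dvg trc)

noncomputable section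

namespace Vale.Agent.P134E

open Vale.Agent.P134B

variable {n m : ℕ}

/-- the unit normal of the level sets -/
def nu (u : E n → ℝ) (y : E n) : E n := ‖pp u y‖⁻¹ • pp u y
/-- the tangential projection -/
def Pj (u : E n → ℝ) (y : E n) : E n →L[ℝ] E n := 1 - (innerSL ℝ (nu u y)).smulRight (nu u y)
/-- the second fundamental form of the level set -/
def BB (u : E n → ℝ) (y : E n) : E n →L[ℝ] E n := ‖pp u y‖⁻¹ • (Pj u y ∘L SS u y ∘L Pj u y)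
/-- the position of a point of the tube -/
def ray (u : E n → ℝ) (z : E n × ℝ) : E n := z.1 + z.2 • nu u z.1
/-- the inverse of `1 + t B` -/
def Ai (u : E n → ℝ) (z : E n × ℝ) : E n →L[ℝ] E n := (1 + z.2 • BB u z.1).inverse
/-- the Jacobian -/
def JJ (u : E n → ℝ) (z : E n × ℝ) : ℝ := ‖pp u z.1‖ * |(1 + z.2 • BB u z.1).det|
/-- the gradient in the tube -/
def tg (u : E n → ℝ) (φ : E n × ℝ → ℝ) (z : E n × ℝ) : E n :=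
  fderiv ℝ φ z (0, 1) • nu u z.1 + Ai u z (Pj u z.1 (gradient (fun y => φ (y, z.2)) z.1))
/-- the regular part of the tube -/
def UU (u : E n → ℝ) : Set (E n × ℝ) := {z | pp u z.1 ≠ 0 ∧ ‖z.2 • BB u z.1‖ < 1 / 2}
/-- the normal component of `p` along the ray -/
def sl (u : E n → ℝ) (z : E n × ℝ) : ℝ := ⟪pp u (ray u z), nu u z.1⟫
/-- the Jacobi operator -/
def LP (u M : E n → ℝ) (x : E n) : ℝ := Lf u M x + PP u x * M x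

/-- test functions in the tube -/
structure Tu (u : E n → ℝ) (φ : E n × ℝ → ℝ) : Prop where
  c1 : ContDiff ℝ 1 φ
  cs : HasCompactSupport φ
  su : tsupport φ ⊆ UU u

/-- **TGC**: the calculus in the tube -/
def TGC : Prop := ∀ (n : ℕ) (C : ℝ) (u : E n → ℝ), Ok C u →
  IsOpen (UU u) ∧ ContinuousOn (JJ u) (UU u) ∧ ContinuousOn (Ai u) (UU u) ∧
  (∀ y, pp u y ≠ 0 → ‖nu u y‖ = 1 ∧ ContDiffAt ℝ ∞ (nu u) y ∧ ContDiffAt ℝ ∞ (BB u) y ∧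
    ContDiffAt ℝ ∞ (Pj u) y ∧ (∀ t, ContDiffAt ℝ ∞ (ray u) (y, t)) ∧ BB u y (nu u y) = 0 ∧
    Pj u y (nu u y) = 0 ∧ (∀ v, ‖Pj u y v‖ ≤ ‖v‖ ∧ ⟪Pj u y v, nu u y⟫ = 0 ∧
      Pj u y (Pj u y v) = Pj u y v ∧ ‖v‖ ^ 2 = ‖Pj u y v‖ ^ 2 + ⟪v, nu u y⟫ ^ 2) ∧
    (∀ v w, ⟪Pj u y v, w⟫ = ⟪v, Pj u y w⟫ ∧ ⟪BB u y v, w⟫ = ⟪v, BB u y w⟫) ∧
    ‖BB u y‖ ≤ ‖pp u y‖⁻¹ * ‖SS u y‖ ∧ fderiv ℝ (nu u) y = ‖pp u y‖⁻¹ • (Pj u y ∘L SS u y)) ∧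
  (∀ z ∈ UU u, (∀ v, Ai u z (v + z.2 • BB u z.1 v) = v ∧
      Ai u z v + z.2 • BB u z.1 (Ai u z v) = v ∧ ⟪Ai u z (Pj u z.1 v), nu u z.1⟫ = 0) ∧
    (∀ v w, ⟪Ai u z v, w⟫ = ⟪v, Ai u z w⟫) ∧
    (∀ φ φ' : E n × ℝ → ℝ, DifferentiableAt ℝ φ z → DifferentiableAt ℝ φ' z →
      tg u (fun w => φ w * φ' w) z = φ z • tg u φ' z + φ' z • tg u φ z ∧
      tg u (fun w => φ w + φ' w) z = tg u φ z + tg u φ' z ∧
      tg u (fun w => φ w - φ' w) z = tg u φ z - tg u φ' z) ∧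
    (∀ (φ : E n × ℝ → ℝ) (k : ℝ → ℝ) (k' : ℝ), DifferentiableAt ℝ φ z → HasDerivAt k k' (φ z) →
      tg u (fun w => k (φ w)) z = k' • tg u φ z) ∧
    (∀ a : E n → ℝ, DifferentiableAt ℝ a (ray u z) →
      tg u (fun w => a (ray u w)) z = gradient a (ray u z)) ∧
    (∀ a : E n → ℝ, DifferentiableAt ℝ a z.1 →
      tg u (fun w => a w.1) z = Ai u z (Pj u z.1 (gradient a z.1))) ∧
    tg u (fun w => w.2) z = nu u z.1 ∧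
    (∀ e, tg u (fun w => ⟪nu u w.1, e⟫) z = Ai u z (BB u z.1 e)) ∧
    (∀ φ φ' : E n × ℝ → ℝ, φ =ᶠ[𝓝 z] φ' → tg u φ z = tg u φ' z) ∧
    (∀ c : ℝ, tg u (fun _ => c) z = 0) ∧
    (∀ φ : E n × ℝ → ℝ, ContDiffAt ℝ 1 φ z → ContinuousAt (tg u φ) z)) ∧
  ∀ (F : E n × ℝ → ℝ) (K : Set (E n × ℝ)), IsCompact K → (∀ z ∈ K, ContinuousAt F z) →
    (∀ z, z ∉ K → F z = 0) → Integrable F

/-- **ALG**: small perturbations of the identity -/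
def ALG : Prop := ∀ (n : ℕ) (η : ℝ), 0 < η → ∃ β > (0 : ℝ), β ≤ 1 / 4 ∧
  ∀ (C : ℝ) (u : E n → ℝ) (z : E n × ℝ), Ok C u → pp u z.1 ≠ 0 → ‖z.2 • BB u z.1‖ ≤ β →
    |JJ u z - ‖pp u z.1‖| ≤ η ∧ (∀ v, ‖Ai u z v - v‖ ≤ η * ‖v‖) ∧
    (∃ b, (1 - η) * hs (BB u z.1) ≤ b ∧ b ≤ (1 + η) * hs (BB u z.1) ∧
      trc (Ai u z ∘L BB u z.1) = trc (BB u z.1) - z.2 * b) ∧
    (1 / 2 ≤ ‖pp u z.1‖ → |trc (BB u z.1)| ≤ 10 * C * qq u z.1)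

/-- **PB**: the divergence theorem in the tube -/
def PB : Prop := ∀ (n : ℕ) (C : ℝ) (u : E n → ℝ) (Y : E n → E n) (φ : E n × ℝ → ℝ), Ok C u →
  ContDiff ℝ 1 Y → Tu u φ →
  ∫ z, (φ z * dvg Y (ray u z) + ⟪tg u φ z, Y (ray u z)⟫) * JJ u z = 0

/-- **PS**: the stability inequality in the tube -/
def PS : Prop := ∀ (n : ℕ) (C : ℝ) (u : E n → ℝ) (ξ : E n × ℝ → ℝ), Ok C u → Stab u → Tu u ξ →
  ∫ z, ff u (ray u z) ^ 2 * PP u (ray u z) * ξ z ^ 2 * JJ u z ≤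
    ∫ z, ff u (ray u z) ^ 2 * ‖tg u ξ z‖ ^ 2 * JJ u z

/-- **AR**: the area inequality -/
def AR : Prop := ∀ (n : ℕ) (C : ℝ) (u φ : E n → ℝ) (Z S : Set (E n × ℝ)), Ok C u →
  MeasurableSet Z → Z ⊆ UU u → (∀ w ∈ S, ∃ z ∈ Z, ray u z = w.1 ∧ ps u z.1 = w.2) →
  ∫⁻ w in S, ENNReal.ofReal (φ w.1) ≤ ∫⁻ z in Z, ENNReal.ofReal (φ (ray u z) * JJ u z)

/-- the profile in the tube -/
def La (u : E n → ℝ) (ϑ : E n × ℝ → ℝ) (M₀ M₁ : E n → ℝ) (z : E n × ℝ) : ℝ :=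
  ϑ z * M₀ (ray u z) + (1 - ϑ z) * M₁ (ray u z)

/-- the density of the gain -/
def Hg (u : E n → ℝ) (ϑ : E n × ℝ → ℝ) (M₀ M₁ : E n → ℝ) (z : E n × ℝ) : ℝ :=
  ff u (ray u z) ^ 2 * La u ϑ M₀ M₁ z *
    (ϑ z * LP u M₀ (ray u z) + (1 - ϑ z) * LP u M₁ (ray u z))

/-- **JT**: the stability inequality for a product -/
def JT : Prop := ∀ (n : ℕ) (C : ℝ) (u M₀ M₁ : E n → ℝ) (ξ ϑ : E n × ℝ → ℝ), Ok C u → Stab u →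
  ContDiff ℝ 2 M₀ → ContDiff ℝ 2 M₁ → Tu u ξ →
  (∀ z ∈ tsupport ξ, ContDiffAt ℝ 1 ϑ z ∧
    ((∃ c : ℝ, ϑ =ᶠ[𝓝 z] fun _ => c) ∨ M₀ =ᶠ[𝓝 (ray u z)] M₁)) →
  ∫ z, ξ z ^ 2 * Hg u ϑ M₀ M₁ z * JJ u z ≤
    ∫ z, ff u (ray u z) ^ 2 * La u ϑ M₀ M₁ z ^ 2 * ‖tg u ξ z‖ ^ 2 * JJ u z

/-- the curvature term of the stress tensor -/
def Cu (u : E n → ℝ) (z : E n × ℝ) : ℝ := ff u (ray u z) ^ 2 *
  (⟪Ai u z (BB u z.1 (pp u (ray u z))), pp u (ray u z)⟫ -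
    (1 - qq u (ray u z) / 2) * trc (Ai u z ∘L BB u z.1))

/-- **STI**: the identity for the stress tensor -/
def STI : Prop := ∀ (n : ℕ) (C : ℝ) (u : E n → ℝ) (φ : E n × ℝ → ℝ), Ok C u → Tu u φ →
  ∫ z, (⟪tg u φ z, Te u (nu u z.1) (ray u z)⟫ + φ z * Cu u z) * JJ u z = 0

def rJT : Prop := TGC → PB → PS → JT
def rSTI : Prop := TGC → DIVT → PB → STI

/-- the first zero of the ray behind the height `2`, cut at `G` -/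
def gp (u : E n → ℝ) (G : ℝ) (y : E n) : ℝ := sInf {t | 2 ≤ t ∧ (u (ray u (y, t)) ≤ 0 ∨ G ≤ t)}

/-- the tangential gradient of `gp` -/
def Vg (u : E n → ℝ) (y : E n) (g : ℝ) : E n := -(sl u (y, g))⁻¹ •
  (Pj u y (pp u (ray u (y, g))) + g • BB u y (pp u (ray u (y, g))))

/-- **GREG**: the regularity of the gap -/
def GREG : Prop := ∀ (n : ℕ) (C G : ℝ) (u : E n → ℝ), Ok C u → 2 ≤ G → Measurable (gp u G) ∧
  ∀ y, 2 ≤ gp u G y ∧ gp u G y ≤ G ∧ (∀ t, 2 ≤ t → t < gp u G y → 0 < u (ray u (y, t))) ∧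
    (∀ t, 2 ≤ t → u (ray u (y, t)) ≤ 0 → gp u G y ≤ t) ∧
    (∀ G', 2 ≤ G' → G' ≤ G → gp u G' y = min (gp u G y) G') ∧
    (gp u G y < G → 0 < u (ray u (y, 2)) → u (ray u (y, gp u G y)) = 0 ∧ sl u (y, gp u G y) ≤ 0) ∧
    (pp u y ≠ 0 → (∀ a, a < gp u G y → ∀ᶠ y' in 𝓝 y, a < gp u G y') ∧
      (gp u G y < G → 0 < u (ray u (y, 2)) → sl u (y, gp u G y) < 0 →
        ContDiffAt ℝ 1 (gp u G) y ∧ Pj u y (gradient (gp u G) y) = Vg u y (gp u G y)))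

def rGREG : Prop := TGC → GREG

/-- a base point in the thin region -/
structure Th (u : E n → ℝ) (ε G : ℝ) (y : E n) : Prop where
  e0 : 0 < ε
  gd : Gd u ε y (4 / ε)
  ps : |ps u y| ≤ 1
  G2 : 2 ≤ G

/-- **PAR2**: close sheets are parallel, at all small scales -/
def PAR2 : Prop := ∀ (m : ℕ) (C θ : ℝ), 0 < θ → ∃ β > (0 : ℝ), ∀ (u : E (m + 1) → ℝ) (ε : ℝ)
  (z z' τ : E (m + 1)), Ok C u → 0 < ε → ε ≤ β → Gd u ε z (2 / ε) → u z = 0 → u z' = 0 →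
  ‖z' - z‖ * ε ≤ β → ⟪τ, pp u z⟫ = 0 → |⟪τ, pp u z'⟫| ≤ θ * ‖τ‖

/-- **SLAB**: the zeros near a ray lie near its two ends -/
def SLAB : Prop := ∀ (m : ℕ) (C θ : ℝ), 0 < θ → ∃ β > (0 : ℝ), ∀ (u : E (m + 1) → ℝ) (ε G : ℝ)
  (y z : E (m + 1)), Ok C u → Th u ε G y → G * ε ≤ β → u z = 0 → ‖z - y‖ ≤ 10 * G →
  ⟪z - y, nu u y⟫ ≤ 2 + θ * ‖Pj u y (z - y)‖ ∨
    gp u G y - θ * ‖Pj u y (z - y)‖ ≤ ⟪z - y, nu u y⟫

def rPAR2 : Prop := GR → GD → PAR2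
def rSLAB : Prop := TGC → GREG → FOOT → GR → GD → PAR2 → SLAB

end Vale.Agent.P134E
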