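import Vale.Agent.P134E.Defs

/-!
# P134E: small perturbations of the identity
-/

set_option linter.unusedVariables false

open MeasureTheory Metric Filter Topology Set
open scoped ContDiff RealInnerProductSpace
open Vale.Agent.P366.Stmt (E)
open Vale.Agent.P366W (dvg trc)

noncomputable section

namespace Vale.Agent.P134E

open Vale.Agent.P134B

namespace AlgAux

variable {n : ℕ}

theorem co (v : E n) (i : Fin n) : ⟪v, EuclideanSpace.single i (1 : ℝ)⟫ = v i := by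
  simp [EuclideanSpace.inner_single_right]

theorem inn (v w : E n) : ⟪v, w⟫ = ∑ i, v i * w i := by
  simp [PiLp.inner_apply, mul_comm]

theorem det_near (n : ℕ) {η : ℝ} (hη : 0 < η) :
    ∃ β > (0 : ℝ), ∀ M : E n →L[ℝ] E n, ‖M‖ ≤ β → abs (|(1 + M).det| - 1) ≤ η := by
  have h : Continuous fun M : E n →L[ℝ] E n => |(1 + M).det| :=
    (ContinuousLinearMap.continuous_det.comp (continuous_const.add continuous_id)).abs
  obtain ⟨δ, hδ, h1⟩ := Metric.continuous_iff.1 h 0 η hη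
  refine ⟨δ / 2, by positivity, fun M hM => ?_⟩
  have h2 := h1 M (by rw [dist_zero_right]; linarith)
  have h3 : (1 + (0 : E n →L[ℝ] E n)).det = 1 := by
    rw [add_zero]
    exact LinearMap.det_id
  rw [Real.dist_eq, h3, abs_one] at h2
  exact h2.le

theorem near {A M : E n →L[ℝ] E n} {β : ℝ} (hM : ‖M‖ ≤ β) (hβ : β ≤ 1 / 4) (v : E n)
    (h : A v + M (A v) = v) : ‖A v - v‖ ≤ 2 * β * ‖v‖ := by
  have h0 : 0 ≤ β := (norm_nonneg _).trans hM
  have h1 : ‖M (A v)‖ ≤ β * ‖A v‖ := (M.le_opNorm _).trans (mul_le_mul_of_nonneg_right hM (norm_nonneg _))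
  have h2 : A v - v = -M (A v) := by rw [eq_neg_iff_add_eq_zero, sub_add_eq_add_sub, h, sub_self]
  have h3 : ‖A v‖ ≤ ‖v‖ + ‖M (A v)‖ := by
    have := norm_sub_le v (M (A v))
    rwa [← eq_sub_of_add_eq h] at this
  have h4 : ‖A v‖ ≤ 2 * ‖v‖ := by nlinarith [norm_nonneg (A v)]
  rw [h2, norm_neg]
  nlinarith [mul_le_mul_of_nonneg_left h4 h0]

theorem trc_proj (P S : E n →L[ℝ] E n) (ν : E n) (hν : ‖ν‖ = 1) (hS : ∀ v w, ⟪S v, w⟫ = ⟪v, S w⟫)
    (hP : ∀ v, P v = v - ⟪ν, v⟫ • ν) : trc (P ∘L S ∘L P) = trc S - ⟪ν, S ν⟫ := by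
  have h1 : ∑ i, ν i * ν i = 1 := by rw [← inn, real_inner_self_eq_norm_sq, hν, one_pow]
  have h2 : ∀ i, (P ∘L S ∘L P) (EuclideanSpace.single i (1 : ℝ)) i =
      S (EuclideanSpace.single i 1) i - 2 * (ν i * S ν i) + ⟪ν, S ν⟫ * (ν i * ν i) := fun i => by
    simp only [ContinuousLinearMap.comp_apply, hP, map_sub, map_smul, PiLp.sub_apply, PiLp.smul_apply,
      smul_eq_mul, inner_sub_right, inner_smul_right, ← hS ν (EuclideanSpace.single i 1), co]
    ring
  unfold trc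
  rw [Finset.sum_congr rfl fun i _ => h2 i, Finset.sum_add_distrib, Finset.sum_sub_distrib, ← Finset.mul_sum,
    ← Finset.mul_sum, h1, ← inn]
  ring

end AlgAux

theorem alg (hT : TGC) : ALG := fun n η hη => by
  obtain ⟨β₁, hβ₁, hdet⟩ := AlgAux.det_near n hη
  refine ⟨min β₁ (min (η / 2) (1 / 4)), by positivity, (min_le_right _ _).trans (min_le_right _ _),
    fun C u z hu hp hb => ?_⟩
  obtain ⟨hb1, hb2, hb3⟩ : ‖z.2 • BB u z.1‖ ≤ β₁ ∧ ‖z.2 • BB u z.1‖ ≤ η / 2 ∧ ‖z.2 • BB u z.1‖ ≤ 1 / 4 := by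
    simpa only [le_min_iff] using hb
  obtain ⟨-, -, -, h1, h2, -⟩ := hT n C u hu
  obtain ⟨hν, -, -, -, -, -, -, -, hsy, -⟩ := h1 z.1 hp
  obtain ⟨hA, -⟩ := h2 z ⟨hp, by linarith⟩
  have hq := hu.q0 z.1
  have hp1 : ‖pp u z.1‖ ≤ 1 := by
    unfold qq at hq
    nlinarith [norm_nonneg (pp u z.1)]
  have hn : ∀ v, ‖Ai u z v - v‖ ≤ η * ‖v‖ := fun v =>
    (AlgAux.near le_rfl hb3 v (hA v).2.1).trans
      (mul_le_mul_of_nonneg_right (by linarith) (norm_nonneg _))
  refine ⟨?_, hn, ⟨∑ i, ⟪Ai u z (BB u z.1 (EuclideanSpace.single i 1)), BB u z.1 (EuclideanSpace.single i 1)⟫,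
    ?_, ?_, ?_⟩, fun hp2 => ?_⟩
  · unfold JJ
    rw [← mul_sub_one, abs_mul, abs_norm]
    exact (mul_le_of_le_one_left (abs_nonneg _) hp1).trans (hdet _ hb1)
  · unfold hs
    rw [Finset.mul_sum]
    refine Finset.sum_le_sum fun i _ => ?_
    set w := BB u z.1 (EuclideanSpace.single i 1)
    have h3 := (abs_real_inner_le_norm (Ai u z w - w) w).trans (mul_le_mul_of_nonneg_right (hn w) (norm_nonneg _))
    rw [inner_sub_left, real_inner_self_eq_norm_sq] at h3
    linarith [(abs_le.1 h3).1]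
  · unfold hs
    rw [Finset.mul_sum]
    refine Finset.sum_le_sum fun i _ => ?_
    set w := BB u z.1 (EuclideanSpace.single i 1)
    have h3 := (abs_real_inner_le_norm (Ai u z w - w) w).trans (mul_le_mul_of_nonneg_right (hn w) (norm_nonneg _))
    rw [inner_sub_left, real_inner_self_eq_norm_sq] at h3
    linarith [(abs_le.1 h3).2]
  · unfold trc
    rw [Finset.mul_sum, ← Finset.sum_sub_distrib]
    refine Finset.sum_congr rfl fun i _ => ?_
    rw [ContinuousLinearMap.comp_apply, ← (hsy _ _).2, AlgAux.co, eq_sub_iff_add_eq, ← smul_eq_mul,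
      ← PiLp.smul_apply, ← PiLp.add_apply, (hA _).2.1]
  · have h3 : trc (BB u z.1) = ‖pp u z.1‖⁻¹ * (trc (SS u z.1) - ⟪nu u z.1, SS u z.1 (nu u z.1)⟫) := by
      rw [← AlgAux.trc_proj (Pj u z.1) _ _ hν (hu.sy z.1) fun _ => rfl]
      exact P366W.trc_smul _ _
    have hi : ‖pp u z.1‖⁻¹ ≤ 2 := by
      rw [inv_le_comm₀ (by linarith) (by norm_num)]
      linarith
    have hi0 : 0 ≤ ‖pp u z.1‖⁻¹ := by positivity
    have hC := hu.C1
    have hCq : qq u z.1 ≤ C * qq u z.1 := le_mul_of_one_le_left hq hC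
    have h4 : |trc (SS u z.1)| ≤ 2 * (C * qq u z.1) := by
      rw [hu.tr, abs_neg, abs_mul, abs_mul, abs_of_nonneg hq, abs_of_nonneg (Real.sqrt_nonneg 2)]
      have h5 : √2 ≤ 2 := Real.sqrt_le_iff.2 ⟨by norm_num, by norm_num⟩
      have h6 : √2 * |u z.1| ≤ 2 := (mul_le_of_le_one_right (Real.sqrt_nonneg 2) (hu.lt z.1).le).trans h5
      exact mul_le_mul h6 hCq hq (by norm_num)
    have h5 : |⟪nu u z.1, SS u z.1 (nu u z.1)⟫| ≤ C * qq u z.1 := by
      refine (abs_real_inner_le_norm _ _).trans ?_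
      have h6 := hu.q1 z.1
      rw [hu.gq, norm_smul, norm_neg, Real.norm_ofNat] at h6
      rw [hν, one_mul]
      unfold nu
      rw [map_smul, norm_smul, Real.norm_of_nonneg hi0]
      exact (mul_le_mul_of_nonneg_right hi (norm_nonneg _)).trans h6
    rw [h3, abs_mul, abs_of_nonneg hi0]
    have h6 := (abs_sub _ _).trans (add_le_add h4 h5)
    have h7 := mul_le_mul hi h6 (abs_nonneg _) (by norm_num)
    linarith

end Vale.Agent.P134E
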