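import Vale.Agent.P134E.Spec

/-!
# P134E: the row ALR
-/

set_option linter.unusedVariables false

open scoped RealInnerProductSpace
open Vale.Agent.P366.Stmt (E)

noncomputable section

namespace Vale.Agent.P134E

open Vale.Agent.P134B

namespace Alr

theorem sg_bd : 9 / 10 ≤ sg ∧ sg ≤ 1 := by
  have h1 : (7 / 5 : ℝ) ≤ √2 := Real.le_sqrt_of_sq_le (by norm_num)
  have h2 : √2 ≤ (3 / 2 : ℝ) := Real.sqrt_le_iff.2 ⟨by norm_num, by norm_num⟩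
  unfold sg
  constructor <;> linarith

/-- `2 x y ≤ κ X + Y / κ` -/
theorem two_le {x X Y : ℝ} (hX : 0 ≤ X) (hY : 0 ≤ Y) (h : x ^ 2 ≤ X * Y) :
    2 * x ≤ X / 1000 + 1000 * Y := by
  by_contra hc
  push Not at hc
  have h0 : 0 ≤ X / 1000 + 1000 * Y := by positivity
  have := mul_self_lt_mul_self h0 hc
  nlinarith [sq_nonneg (X / 1000 - 1000 * Y)]

/-- the final linear combination -/
theorem fin {s σ η Kf K' X B Z PA S Pe a2 N R T1 Ia T3 c PH PD : ℝ} (hs : 9 / 10 ≤ s) (hs1 : s ≤ 1)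
    (hσ : (1 - 1 / 500) * s ≤ σ) (hσ1 : σ ≤ s) (hη : 0 ≤ η) (hKf : 1 ≤ Kf) (hηK : η * Kf ≤ 1 / 10000)
    (hX : 0 ≤ X) (hB : 0 ≤ B) (hZ : 0 ≤ Z) (hA : 0 ≤ PA) (hS : 0 ≤ S) (hPe : 0 ≤ Pe) (hK' : 0 ≤ K')
    (h1 : a2 ≤ (1 + 1 / 500) * X + Z) (h2 : N ≤ (1 + 1 / 1000) * a2 + 1001 * B)
    (h3 : R ≤ (2 + 1 / 50) * s * N + K' * Pe) (h4 : -(a2 / 200 + 201 * S + B) ≤ T1)
    (h5 : c ≤ X / 1000 + 1000 * (Kf * B))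
    (h6 : σ * (X - c) - η * (X + c) - (X / 200 + 52 * S + 50 * Z + 2 * B) ≤ Ia)
    (h7 : -(131 / 200 * PA) - 2 * S - η * Kf * X ≤ T3) (h8 : 69 / 50 * PA + 2000 * S - PD ≤ PH) :
    1000 * S ≤ (10000 * Kf + K') * (B + Z + Pe) + ((PH - R) + (PD + T1) + 52 / 25 * (Ia + T3)) := by
  have hη1 : η ≤ 1 / 10000 := by nlinarith
  have hσ0 : 0 ≤ σ := by linarith
  have b1 : B ≤ Kf * B := le_mul_of_one_le_left hB hKf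
  have b2 : Z ≤ Kf * Z := le_mul_of_one_le_left hZ hKf
  have b3 : 0 ≤ Kf * Pe := by positivity
  have b4 : 0 ≤ K' * B := by positivity
  have b5 : 0 ≤ K' * Z := by positivity
  have n1 : N ≤ (1 + 1 / 1000) * ((1 + 1 / 500) * X + Z) + 1001 * B := by linarith
  have c1 : s * N ≤ (1 + 1 / 1000) * (1 + 1 / 500) * (s * X) + (1 + 1 / 1000) * Z + 1001 * B := by
    have e1 : s * N ≤ s * ((1 + 1 / 1000) * ((1 + 1 / 500) * X + Z) + 1001 * B) := by gcongr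
    have e2 : s * Z ≤ Z := mul_le_of_le_one_left hZ hs1
    have e3 : s * B ≤ B := mul_le_of_le_one_left hB hs1
    nlinarith
  have c2 : (1 - 1 / 500) * (1 - 1 / 1000) * (s * X) - 1000 * (Kf * B) ≤ σ * (X - c) := by
    have e1 : σ * (X - (X / 1000 + 1000 * (Kf * B))) ≤ σ * (X - c) := by gcongr
    have e2 : σ * (Kf * B) ≤ Kf * B := mul_le_of_le_one_left (by linarith) (by linarith)
    have e3 : (1 - 1 / 500) * s * X ≤ σ * X := by gcongr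
    nlinarith
  have c3 : η * (X + c) ≤ X / 5000 + Kf * B := by
    have e1 : η * (X + c) ≤ η * (X + (X / 1000 + 1000 * (Kf * B))) := by gcongr
    have e2 : η * (X + (X / 1000 + 1000 * (Kf * B))) ≤ 1 / 10000 * (X + (X / 1000 + 1000 * (Kf * B))) := by
      gcongr
    linarith
  have c4 : η * Kf * X ≤ 1 / 10000 * X := by gcongr
  have c5 : 9 / 10 * X ≤ s * X := by gcongr
  have e : (10000 * Kf + K') * (B + Z + Pe) =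
      10000 * (Kf * B) + 10000 * (Kf * Z) + 10000 * (Kf * Pe) + K' * B + K' * Z + K' * Pe := by ring
  rw [e]
  linarith

theorem p1 {F' ϑ ι ζ v : ℝ} (hF' : F' ^ 2 ≤ (1 + 1 / 500) * ϑ + ι) (hι : 0 ≤ ι) (v2 : v ^ 2 ≤ 1) :
    (|F' * ζ| * v) ^ 2 ≤ (1 + 1 / 500) * (ϑ * ζ ^ 2 * v ^ 2) + ι * ζ ^ 2 := by
  rw [mul_pow, sq_abs, mul_pow]
  have e1 : F' ^ 2 * ζ ^ 2 * v ^ 2 ≤ ((1 + 1 / 500) * ϑ + ι) * ζ ^ 2 * v ^ 2 := by gcongr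
  have e2 : ι * ζ ^ 2 * v ^ 2 ≤ ι * ζ ^ 2 := mul_le_of_le_one_right (by positivity) v2
  linarith

theorem p2 {N a F w : ℝ} (N0 : 0 ≤ N) (hN : N ≤ a + |F| * w) :
    N ^ 2 ≤ (1 + 1 / 1000) * a ^ 2 + 1001 * (F ^ 2 * w ^ 2) := by
  have e1 : N ^ 2 ≤ (a + |F| * w) ^ 2 := by gcongr
  have e2 : F ^ 2 * w ^ 2 = (|F| * w) ^ 2 := by rw [mul_pow, sq_abs]
  rw [e2]
  nlinarith [sq_nonneg (a - 1000 * (|F| * w))]

theorem p3 {l F F' ζ v w y N Iy S : ℝ} (hl1 : l ≤ 1 / 200) (hl : 0 ≤ l) (v0 : 0 ≤ v) (w0 : 0 ≤ w) (y0 : 0 ≤ y)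
    (hN : N ≤ |F' * ζ| * v + |F| * w) (hIy : |Iy| ≤ y * N) (s2 : y ^ 2 * (F * ζ) ^ 2 ≤ S) :
    -((|F' * ζ| * v) ^ 2 / 200 + 201 * S + F ^ 2 * w ^ 2) ≤ (1 - 2 * l) * (2 * (F * ζ) * Iy) := by
  have e2 : F ^ 2 * w ^ 2 = (|F| * w) ^ 2 := by rw [mul_pow, sq_abs]
  have e3 : y ^ 2 * (F * ζ) ^ 2 = (y * |F * ζ|) ^ 2 := by rw [mul_pow y, sq_abs]
  have e4 : |(1 - 2 * l) * (2 * (F * ζ) * Iy)| ≤ 2 * (y * |F * ζ|) * (|F' * ζ| * v + |F| * w) := by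
    rw [abs_mul, abs_mul, abs_mul, abs_two, abs_of_nonneg (show 0 ≤ 1 - 2 * l by linarith)]
    calc (1 - 2 * l) * (2 * |F * ζ| * |Iy|) ≤ 1 * (2 * |F * ζ| * (y * (|F' * ζ| * v + |F| * w))) := by
          gcongr
          · linarith
          · exact hIy.trans (by gcongr)
      _ = _ := by ring
  have e5 := (abs_le.1 e4).1
  rw [e3] at s2
  rw [e2]
  generalize |F' * ζ| * v = a at *
  generalize y * |F * ζ| = b at *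
  generalize |F| * w = c at *
  nlinarith [sq_nonneg (a - 200 * b), sq_nonneg (b - c)]

theorem p4 {Kf F Θ ϑ ζ v w : ℝ} (hKf : 1 ≤ Kf) (hϑ : 0 ≤ ϑ) (hΘ2 : Θ ^ 2 ≤ Kf * F ^ 2 * ϑ) :
    2 * (Θ * |ζ| * w * v) ≤ ϑ * ζ ^ 2 * v ^ 2 / 1000 + 1000 * (Kf * (F ^ 2 * w ^ 2)) := by
  refine two_le (by positivity) (by positivity) ?_
  calc (Θ * |ζ| * w * v) ^ 2 = Θ ^ 2 * (ζ ^ 2 * w ^ 2 * v ^ 2) := by rw [← sq_abs ζ]; ring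
    _ ≤ Kf * F ^ 2 * ϑ * (ζ ^ 2 * w ^ 2 * v ^ 2) := by gcongr
    _ = _ := by ring

theorem p5 {Ia σ ϑ ζ v w x y η u Θ F Kf ι S : ℝ}
    (hIa : |Ia + σ * (-(ϑ * ζ ^ 2 * v ^ 2) + 2 * Θ * ζ * x)| ≤ (η * v + y) * u)
    (hU : u ≤ ϑ * ζ ^ 2 * v + 2 * (Θ * |ζ| * w)) (hin : |x| ≤ v * w) (hη : 0 ≤ η) (v0 : 0 ≤ v) (w0 : 0 ≤ w)
    (y0 : 0 ≤ y) (hΘ : 0 ≤ Θ) (hσ : 0 ≤ σ) (hϑ : 0 ≤ ϑ) (hι : 0 ≤ ι) (hΘ1 : Θ ≤ 131 / 100 * F ^ 2)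
    (hϑ1 : ϑ ≤ Kf * (F ^ 2 + ι)) (s1 : Kf * y ^ 2 * (F * ζ) ^ 2 ≤ S) (s2 : y ^ 2 * (F * ζ) ^ 2 ≤ S)
    (s4 : Kf * y ^ 2 ≤ 1) :
    σ * (ϑ * ζ ^ 2 * v ^ 2 - 2 * (Θ * |ζ| * w * v)) - η * (ϑ * ζ ^ 2 * v ^ 2 + 2 * (Θ * |ζ| * w * v)) -
      (ϑ * ζ ^ 2 * v ^ 2 / 200 + 52 * S + 50 * (ι * ζ ^ 2) + 2 * (F ^ 2 * w ^ 2)) ≤ Ia := by
  have e1 := (abs_le.1 hIa).1
  have e2 : (η * v + y) * u ≤ (η * v + y) * (ϑ * ζ ^ 2 * v + 2 * (Θ * |ζ| * w)) := by gcongr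
  have e3 : Θ * ζ * x ≤ Θ * |ζ| * w * v := by
    calc Θ * ζ * x ≤ |Θ * ζ * x| := le_abs_self _
      _ = Θ * |ζ| * |x| := by rw [abs_mul, abs_mul, abs_of_nonneg hΘ]
      _ ≤ Θ * |ζ| * (v * w) := by gcongr
      _ = _ := by ring
  have e4 : σ * (Θ * ζ * x) ≤ σ * (Θ * |ζ| * w * v) := by gcongr
  have e5 : y * (ϑ * ζ ^ 2 * v) ≤ ϑ * ζ ^ 2 * v ^ 2 / 200 + 50 * S + 50 * (ι * ζ ^ 2) := by
    have f1 : y ^ 2 * (ϑ * ζ ^ 2) ≤ y ^ 2 * (Kf * (F ^ 2 + ι) * ζ ^ 2) := by gcongr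
    have f2 : Kf * y ^ 2 * (ι * ζ ^ 2) ≤ ι * ζ ^ 2 := mul_le_of_le_one_left (by positivity) s4
    have f3 : 0 ≤ ϑ * ζ ^ 2 * (v - 100 * y) ^ 2 := by positivity
    linarith
  have e6 : y * (2 * (Θ * |ζ| * w)) ≤ 2 * S + 2 * (F ^ 2 * w ^ 2) := by
    have f1 : y * (2 * (Θ * |ζ| * w)) ≤ y * (2 * (2 * F ^ 2 * |ζ| * w)) := by
      gcongr
      nlinarith [sq_nonneg F]
    have f2 : 0 ≤ F ^ 2 * (y * |ζ| - w) ^ 2 := by positivity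
    rw [mul_pow, ← sq_abs ζ] at s2
    linarith
  linarith

theorem p6 {Ib Θ ζ A η Q g v P Kf ϑ S : ℝ} (hIb : -(A / 2) - η * Q - η / g * v ^ 2 ≤ Ib) (hΘ : 0 ≤ Θ) (hA : 0 ≤ A)
    (hη : 0 ≤ η) (hQ : 0 ≤ Q) (hg : 0 < g) (hΘP : Θ * ζ ^ 2 ≤ 131 / 100 * P) (hΘ3 : Θ ≤ Kf * g * ϑ)
    (s3 : η * Q * P ≤ S) (S0 : 0 ≤ S) :
    -(131 / 200 * (P * A)) - 2 * S - η * Kf * (ϑ * ζ ^ 2 * v ^ 2) ≤ Θ * ζ ^ 2 * Ib := by
  have e1 : Θ * ζ ^ 2 * (-(A / 2) - η * Q - η / g * v ^ 2) ≤ Θ * ζ ^ 2 * Ib := by gcongr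
  have e2 : Θ * ζ ^ 2 * A ≤ 131 / 100 * P * A := by gcongr
  have e3 : Θ * ζ ^ 2 * (η * Q) ≤ 131 / 100 * P * (η * Q) := by gcongr
  have e4 : Θ * ζ ^ 2 * (η / g * v ^ 2) ≤ η * Kf * (ϑ * ζ ^ 2 * v ^ 2) := by
    calc Θ * ζ ^ 2 * (η / g * v ^ 2) ≤ Kf * g * ϑ * ζ ^ 2 * (η / g * v ^ 2) := by gcongr
      _ = _ := by field_simp
  linarith

end Alr

open Alr in
theorem alr : ALR := by
  intro Kf K' l hKf hK' hl hl1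
  obtain ⟨hs, hs1⟩ := sg_bd
  obtain ⟨η, hη⟩ : ∃ η : ℝ, η = l / (16000 * Kf * (K' + 1) ^ 3) := ⟨_, rfl⟩
  have hη0 : 0 < η := by rw [hη]; positivity
  have hη1 : η * Kf * (K' + 1) ^ 3 = l / 16000 := by rw [hη]; field_simp
  have k1 : 1 ≤ (K' + 1) ^ 3 := by nlinarith [sq_nonneg K', pow_nonneg hK' 3]
  have k2 : K' ≤ (K' + 1) ^ 3 := by nlinarith [sq_nonneg K', pow_nonneg hK' 3]
  have k3 : K' ^ 2 ≤ (K' + 1) ^ 3 := by nlinarith [sq_nonneg K', pow_nonneg hK' 3]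
  have k4 : K' ^ 3 ≤ (K' + 1) ^ 3 := by nlinarith [sq_nonneg K', pow_nonneg hK' 3]
  have hK0 : 0 ≤ η * Kf := by positivity
  have m : ∀ x : ℝ, x ≤ (K' + 1) ^ 3 → η * Kf * x ≤ l / 16000 := fun x hx => by rw [← hη1]; gcongr
  have m1 : η * Kf ≤ 1 / 10000 := by have := m 1 k1; linarith
  have m0 : η ≤ η * Kf := le_mul_of_one_le_right hη0.le hKf
  refine ⟨η, hη0, 10000 * Kf + K', by positivity, ?_⟩
  intro n V W F F' Θ ϑ ζ ι g σ Q A Gy D Hy R Ia Ib Iy e hι hg he hV hΘ hΘ1 hϑ hF' hΘ2 hΘ3 hϑ1 hσ hσ1 hQ hQ1 hQ2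
    hGy hA hIa hIb hIy hR hH
  obtain ⟨v, hv⟩ : ∃ v, v = ‖V‖ := ⟨_, rfl⟩
  obtain ⟨w, hw⟩ : ∃ w, w = ‖W‖ := ⟨_, rfl⟩
  have v0 : 0 ≤ v := hv ▸ norm_nonneg _
  have w0 : 0 ≤ w := hw ▸ norm_nonneg _
  have hin : |⟪V, W⟫| ≤ v * w := by rw [hv, hw]; exact abs_real_inner_le_norm _ _
  have hU : ‖(-ϑ * ζ ^ 2) • V + (2 * Θ * ζ) • W‖ ≤ ϑ * ζ ^ 2 * v + 2 * (Θ * |ζ| * w) := by
    refine (norm_add_le _ _).trans (le_of_eq ?_)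
    rw [norm_smul, norm_smul, Real.norm_eq_abs, Real.norm_eq_abs, neg_mul, abs_neg, abs_of_nonneg (by positivity),
      abs_mul, abs_of_nonneg (show 0 ≤ 2 * Θ by positivity), ← hv, ← hw]
    ring
  have hN : ‖(F' * ζ) • V + F • W‖ ≤ |F' * ζ| * v + |F| * w := by
    refine (norm_add_le _ _).trans (le_of_eq ?_)
    rw [norm_smul, norm_smul, Real.norm_eq_abs, Real.norm_eq_abs, ← hv, ← hw]
  have hI : ⟪V, (-ϑ * ζ ^ 2) • V + (2 * Θ * ζ) • W⟫ = -(ϑ * ζ ^ 2 * v ^ 2) + 2 * Θ * ζ * ⟪V, W⟫ := by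
    rw [inner_add_right, real_inner_smul_right, real_inner_smul_right, real_inner_self_eq_norm_sq, ← hv]
    ring
  rw [hI] at hIa
  rw [← hv] at hV hIa hIb
  rw [← hw]
  generalize ‖(-ϑ * ζ ^ 2) • V + (2 * Θ * ζ) • W‖ = u at hU hIa
  have N0 := norm_nonneg ((F' * ζ) • V + F • W)
  generalize ‖(F' * ζ) • V + F • W‖ = N at hN hIy hR N0
  generalize ⟪V, W⟫ = x at hin hIa
  obtain ⟨P, hP⟩ : ∃ P, P = (F * ζ) ^ 2 := ⟨_, rfl⟩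
  have P0 : 0 ≤ P := by rw [hP]; positivity
  obtain ⟨y, hy⟩ : ∃ y, y = K' * Q := ⟨_, rfl⟩
  have y0 : 0 ≤ y := by rw [hy]; positivity
  obtain ⟨S, hS⟩ : ∃ S, S = l / 16000 * (P * Gy) := ⟨_, rfl⟩
  have S0 : 0 ≤ S := by rw [hS]; positivity
  have s1 : Kf * y ^ 2 * P ≤ S := by
    calc Kf * y ^ 2 * P = Kf * K' ^ 2 * Q * Q * P := by rw [hy]; ring
      _ ≤ Kf * K' ^ 2 * η * (K' * Gy) * P := by gcongr
      _ = η * Kf * K' ^ 3 * (P * Gy) := by ring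
      _ ≤ S := by rw [hS]; gcongr; exact m _ k4
  have s2 : y ^ 2 * P ≤ S := by
    refine le_trans ?_ s1
    rw [mul_assoc]
    exact le_mul_of_one_le_left (by positivity) hKf
  have s3 : η * Q * P ≤ S := by
    calc η * Q * P ≤ η * Kf * (K' * Gy) * P := by gcongr
      _ = η * Kf * K' * (P * Gy) := by ring
      _ ≤ S := by rw [hS]; gcongr; exact m _ k2
  have s4 : Kf * y ^ 2 ≤ 1 := by
    calc Kf * y ^ 2 = Kf * K' ^ 2 * Q * Q := by rw [hy]; ring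
      _ ≤ Kf * K' ^ 2 * η * 1 := by gcongr; linarith
      _ = η * Kf * K' ^ 2 := by ring
      _ ≤ 1 := by have := m _ k3; linarith
  have v2 : v ^ 2 ≤ 1 := pow_le_one₀ v0 hV
  have hΘP : Θ * ζ ^ 2 ≤ 131 / 100 * P := by
    rw [hP, mul_pow, ← mul_assoc]; gcongr
  have key := fin (s := sg) (σ := σ) (η := η) (Kf := Kf) (K' := K') (X := ϑ * ζ ^ 2 * v ^ 2) (B := F ^ 2 * w ^ 2)
    (Z := ι * ζ ^ 2) (PA := P * A) (S := S) (Pe := P * e) (a2 := (|F' * ζ| * v) ^ 2) (N := N ^ 2) (R := R)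
    (T1 := (1 - 2 * l) * (2 * (F * ζ) * Iy)) (Ia := Ia) (T3 := Θ * ζ ^ 2 * Ib) (c := 2 * (Θ * |ζ| * w * v))
    (PH := P * Hy) (PD := (1 - 2 * l) * (P * D)) hs hs1 hσ hσ1 hη0.le hKf m1 (by positivity) (by positivity)
    (by positivity) (by positivity) S0 (by positivity) hK' ?_ ?_ (by rw [hP]; exact hR) ?_ ?_ ?_ ?_ ?_
  · rw [← hP]
    rw [hS] at key
    linarith
  · exact p1 hF' hι v2
  · exact p2 N0 hN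
  · rw [← hy] at hIy
    rw [hP] at s2
    exact p3 hl1 hl.le v0 w0 y0 hN hIy s2
  · exact p4 hKf hϑ hΘ2
  · rw [← hy] at hIa
    rw [hP] at s1 s2
    exact p5 hIa hU hin hη0.le v0 w0 y0 hΘ (by linarith) hϑ hι hΘ1 hϑ1 s1 s2 s4
  · exact p6 hIb hΘ hA hη0.le hQ hg hΘP hΘ3 s3 S0
  · have e1 := mul_le_mul_of_nonneg_left hH P0
    rw [hS]
    linarith

end Vale.Agent.P134E
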