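import Vale.Agent.P134E.PB

/-!
# P134E: the area inequality in the tube
-/

set_option linter.unusedVariables false

open MeasureTheory Metric Filter Topology Set
open scoped ContDiff RealInnerProductSpace ENNReal
open Vale.Agent.P366.Stmt (E)

noncomputable section

namespace Vale.Agent.P134E

open Vale.Agent.P134B

theorem area {V : Type} [NormedAddCommGroup V] [NormedSpace ℝ V] [FiniteDimensional ℝ V]
    [MeasurableSpace V] [BorelSpace V] (μ : Measure V) [μ.IsAddHaarMeasure] {Ψ : V → V}
    {Z : Set V} (hΨ : Measurable Ψ) (hZ : MeasurableSet Z) (hd : ∀ z ∈ Z, DifferentiableAt ℝ Ψ z)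
    (g : V → ℝ≥0∞) :
    ∫⁻ w in Ψ '' Z, g w ∂μ ≤ ∫⁻ z in Z, ENNReal.ofReal (Jc Ψ z) * g (Ψ z) ∂μ := by
  have m : Measurable fun z => ENNReal.ofReal (Jc Ψ z) :=
    (ContinuousLinearMap.continuous_det.abs.measurable.comp (measurable_fderiv ℝ Ψ)).ennreal_ofReal
  have k : μ.restrict (Ψ '' Z) ≤
      ((μ.restrict Z).withDensity fun z => ENNReal.ofReal (Jc Ψ z)).map Ψ := by
    refine Measure.le_iff.2 fun A hA => ?_
    rw [Measure.restrict_apply hA, Measure.map_apply hΨ hA, withDensity_apply _ (hΨ hA),
      Measure.restrict_restrict (hΨ hA), inter_comm, ← image_inter_preimage, inter_comm]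
    exact addHaar_image_le_lintegral_abs_det_fderiv μ ((hΨ hA).inter hZ) fun z hz =>
      (hd z hz.2).hasFDerivAt.hasFDerivWithinAt
  exact (lintegral_mono' k le_rfl).trans ((lintegral_map_le _ _).trans
    (lintegral_withDensity_le_lintegral_mul _ m _))

theorem psi_meas {n : ℕ} {C : ℝ} {u : E n → ℝ} (ok : Ok C u) : Measurable (Psi u) := by
  have c : Continuous (pp u) := (P366W.smooth_gradient ok.smp).continuous
  have m : Measurable (nu u) := c.norm.measurable.inv.smul c.measurable
  exact (measurable_fst.add (measurable_snd.smul (m.comp measurable_fst))).prodMk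
    (ok.smp.continuous.measurable.comp measurable_fst)

theorem ar (h : TGC) : AR := fun n C u φ Z S ok hZ hU hS => by
  have := haar (n := n)
  refine (lintegral_mono_set (t := Psi u '' Z) fun w hw => ?_).trans
    ((area volume (psi_meas ok) hZ (fun z hz => (psi_cd h ok (hU hz).1).differentiableAt
      one_ne_zero) fun w => ENNReal.ofReal (φ w.1)).trans_eq (setLIntegral_congr_fun hZ
        fun z hz => ?_))
  · obtain ⟨z, hz, e1, e2⟩ := hS w hw
    exact ⟨z, hz, Prod.ext e1 e2⟩
  · rw [← psi_jc h ok (hU hz).1, mul_comm (φ _),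
      ENNReal.ofReal_mul (show 0 ≤ Jc (Psi u) z from abs_nonneg _)]
    rfl

end Vale.Agent.P134E
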