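import Vale.Agent.P134E.Spec
import Vale.Agent.P134T.Calc

/-!
# P134E: functions of `q` (row CVQ)
-/

open MeasureTheory Metric Filter Topology Set
open scoped ContDiff RealInnerProductSpace
open Vale.Agent.P366.Stmt (E)
open Vale.Agent.P366W (dvg trc inner_grad dvg_smul)

noncomputable section

namespace Vale.Agent.P134E

open Vale.Agent.P134B Vale.Agent.P134T

namespace Cvq

variable {n : ℕ} {C μ : ℝ} {u f : E n → ℝ} {x : E n} {k : ℝ → ℝ}

theorem cq (h : Ok C u) : ContDiff ℝ ∞ (qq u) := contDiff_const.sub (h.tcp.norm_sq ℝ)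

theorem hs_le (A : E n →L[ℝ] E n) : hs A ≤ n * ‖A‖ ^ 2 := by
  simpa [hs] using Finset.sum_le_card_nsmul Finset.univ
    (fun i => ‖A (EuclideanSpace.single i 1)‖ ^ 2) (‖A‖ ^ 2) fun i _ =>
      pow_le_pow_left₀ (norm_nonneg _) (by simpa using A.le_opNorm (EuclideanSpace.single i 1)) 2

theorem hs_ge (A : E n →L[ℝ] E n) (hA : ∀ v w, ⟪A v, w⟫ = ⟪v, A w⟫) (v : E n) :
    ‖A v‖ ^ 2 ≤ hs A * ‖v‖ ^ 2 := by
  rw [EuclideanSpace.real_norm_sq_eq (A v), hs, Finset.sum_mul]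
  refine Finset.sum_le_sum fun i _ => ?_
  have e : A v i = ⟪A (EuclideanSpace.single i 1), v⟫ := by
    rw [hA, EuclideanSpace.inner_single_left]; simp
  rw [e, ← mul_pow, ← sq_abs]
  exact pow_le_pow_left₀ (abs_nonneg _) (abs_real_inner_le_norm _ _) 2

/-- the equation for `qq` -/
theorem Lf_q (h : Ok C u) (x : E n) :
    Lf u (qq u) x = -2 * hs (SS u x) + 2 * PP u x * ‖pp u x‖ ^ 2 := by
  have s2 : (√2 : ℝ) * √2 = 2 := Real.mul_self_sqrt (by norm_num)
  have f0 := h.tff_pos x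
  have cf := c2 h.tcf
  have cq := c2 (cq h)
  have e : EE u = fun y => ff u y * ff u y * qq u y := funext fun y => by rw [EE]; ring
  have k := h.lE x
  have k3 : √2 * ff u x = 1 - u x ^ 2 := by unfold ff; field_simp
  have e2 : EE u x = ff u x ^ 2 * qq u x := rfl
  have e3 : ‖pp u x‖ ^ 2 = 1 - qq u x := by rw [qq]; ring
  rw [e, lap_mul (cf.mul cf) cq, lap_mul cf cf, grad_mul (d2 (cf.mul cf) x) (d2 cq x),
    grad_mul (d2 cf x) (d2 cf x), h.tlf, h.gf, h.tr, e2] at k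
  simp only [inner_add_left, inner_add_right, real_inner_smul_left, real_inner_smul_right,
    real_inner_self_eq_norm_sq, norm_smul, mul_pow, Real.norm_eq_abs, sq_abs, e3] at k
  rw [Lf, PP, e3]
  refine mul_left_cancel₀ (pow_pos f0 2).ne' ?_
  linear_combination k - 2 * qq u x * ff u x ^ 2 * k3 + 2 * u x ^ 2 * ff u x ^ 2 * qq u x * s2

/-- the chain rule for the Laplacian, local form -/
theorem lap_loc (hf : ContDiff ℝ 2 f) (hk : ContDiffAt ℝ 2 k (f x)) :
    lap (fun y => k (f y)) x =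
      deriv (deriv k) (f x) * ‖gradient f x‖ ^ 2 + deriv k (f x) * lap f x := by
  have h1 : ∀ᶠ s in 𝓝 (f x), ContDiffAt ℝ 2 k s := hk.eventually (by simp)
  have h2 : HasDerivAt (deriv k) (deriv (deriv k) (f x)) (f x) :=
    ((hk.derivWithin (m := 1) (by norm_num)).differentiableAt (by norm_num)).hasDerivAt
  have h3 : DifferentiableAt ℝ (fun y => deriv k (f y)) x := h2.differentiableAt.comp x (d2 hf x)
  have e : gradient (fun y => k (f y)) =ᶠ[𝓝 x] fun y => deriv k (f y) • gradient f y := by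
    filter_upwards [hf.continuous.continuousAt.eventually h1] with y hy
    exact grad_comp (hy.differentiableAt (by norm_num)).hasDerivAt (d2 hf y)
  have e2 : dvg (gradient fun y => k (f y)) x = dvg (fun y => deriv k (f y) • gradient f y) x := by
    unfold dvg; rw [e.fderiv_eq]
  rw [lap, e2, dvg_smul h3 (dg2 hf x), ← inner_grad, grad_comp h2 (d2 hf x), real_inner_smul_left,
    real_inner_self_eq_norm_sq, lap]
  ring

theorem comp (h : Ok C u) (hk : ContDiffAt ℝ 2 k (qq u x)) :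
    ContDiffAt ℝ 2 (fun y => k (qq u y)) x ∧
    gradient (fun y => k (qq u y)) x = deriv k (qq u x) • gradient (qq u) x ∧
    Lf u (fun y => k (qq u y)) x =
      deriv k (qq u x) * (-2 * hs (SS u x) + 2 * PP u x * ‖pp u x‖ ^ 2) +
        4 * deriv (deriv k) (qq u x) * ‖SS u x (pp u x)‖ ^ 2 := by
  have c := c2 (cq h)
  have g := grad_comp (hk.differentiableAt (by norm_num)).hasDerivAt (d2 c x)
  refine ⟨hk.comp x c.contDiffAt, g, ?_⟩
  rw [← Lf_q h, Lf, Lf, lap_loc c hk, g, real_inner_smul_right]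
  conv_lhs => enter [1, 1, 2]; rw [h.gq, norm_smul]
  simp only [norm_neg, Real.norm_ofNat]
  ring

theorem tq_d1 {s : ℝ} (hs : 0 < 1 - (1 - μ) * s) :
    HasDerivAt (Tq μ) (-(1 - μ) / (2 * Tq μ s)) s := by
  unfold Tq
  simpa using (((hasDerivAt_id s).const_mul (1 - μ)).const_sub 1).sqrt hs.ne'

theorem tq_d2 {s : ℝ} (hs : 0 < 1 - (1 - μ) * s) :
    deriv (deriv (Tq μ)) s = -(1 - μ) ^ 2 / (4 * Tq μ s ^ 3) := by
  have t0 : 0 < Tq μ s := Real.sqrt_pos.2 hs
  have e : deriv (Tq μ) =ᶠ[𝓝 s] fun s => -(1 - μ) / (2 * Tq μ s) := by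
    filter_upwards [ContinuousAt.eventually_lt (f := fun _ => (0 : ℝ))
      (g := fun s => 1 - (1 - μ) * s) continuousAt_const (by fun_prop) hs] with t ht
    exact (tq_d1 ht).deriv
  rw [e.deriv_eq, ((hasDerivAt_const s (-(1 - μ))).fun_div ((tq_d1 hs).const_mul 2)
    (by positivity)).deriv]
  field_simp
  ring

end Cvq

open Cvq in
theorem cvq : CVQ := by
  intro n C u h
  have k3 : ∀ x, √2 * ff u x = 1 - u x ^ 2 := fun x => by unfold ff; field_simp
  have P0 : ∀ x, 0 ≤ PP u x := fun x =>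
    mul_nonneg (mul_nonneg (Real.sqrt_nonneg _) (h.tff_pos x).le) (h.q0 x)
  have H0 : ∀ x, 0 ≤ hs (SS u x) := fun x => Finset.sum_nonneg fun _ _ => sq_nonneg _
  refine ⟨cq h, fun x => ⟨qq_le u x, P0 x, ?_, H0 x, ?_, hs_ge _ (h.sy x)⟩,
    fun k x hk => comp h hk, fun μ μ0 μ1 => ?_⟩
  · rw [PP, k3]
    nlinarith [h.q0 x, qq_le u x, sq_nonneg (u x), mul_nonneg (sq_nonneg (u x)) (h.q0 x)]
  · have a := pow_le_pow_left₀ (norm_nonneg _) (h.S0 x) 2
    rw [mul_pow, Real.sq_sqrt (h.q0 x)] at a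
    refine (hs_le _).trans ?_
    rw [mul_assoc]
    exact mul_le_mul_of_nonneg_left a n.cast_nonneg
  have a0 : ∀ x, 0 < 1 - (1 - μ) * qq u x := fun x => by nlinarith [qq_le u x]
  have c0 : ∀ x, ContDiffAt ℝ 2 (Tq μ) (qq u x) := fun x =>
    (contDiffAt_const.sub (contDiffAt_const.mul contDiffAt_id)).sqrt (a0 x).ne'
  refine ⟨contDiff_iff_contDiffAt.2 fun x => (comp h (c0 x)).1, fun x => ?_⟩
  have t0 : 0 < Tq μ (qq u x) := Real.sqrt_pos.2 (a0 x)
  have t2 : Tq μ (qq u x) ^ 2 = μ + (1 - μ) * ‖pp u x‖ ^ 2 := by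
    rw [Tq, Real.sq_sqrt (a0 x).le, qq]; ring
  refine ⟨t0, Real.sqrt_le_one.2 (by nlinarith [h.q0 x]), t2, ?_⟩
  rw [LP, (comp h (c0 x)).2.2, (tq_d1 (a0 x)).deriv, tq_d2 (a0 x)]
  have b := hs_ge _ (h.sy x) (pp u x)
  generalize Tq μ (qq u x) = T at *
  generalize ‖SS u x (pp u x)‖ ^ 2 = s at *
  generalize ‖pp u x‖ ^ 2 = p at *
  generalize hs (SS u x) = H at *
  generalize PP u x = P at *
  have e : T * (-(1 - μ) / (2 * T) * (-2 * H + 2 * P * p) + 4 * (-(1 - μ) ^ 2 / (4 * T ^ 3)) * s +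
      P * T) = μ * P + μ * (1 - μ) * H / T ^ 2 + (1 - μ) ^ 2 * (H * p - s) / T ^ 2 := by
    field_simp
    linear_combination ((1 - μ) * H + P * T ^ 2) * t2
  rw [e]
  have : 0 ≤ (1 - μ) ^ 2 * (H * p - s) / T ^ 2 := by
    have := sub_nonneg.2 b
    positivity
  linarith

end Vale.Agent.P134E
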