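import Vale.Agent.P134E.Spec

/-!
# P134E: the row FARC
-/

open MeasureTheory Metric Filter Topology Set

noncomputable section

namespace Vale.Agent.P134E

open Vale.Agent.P134B

namespace Farc

theorem key {I : Set ℝ} (hI : MeasurableSet I) {D : ℝ → ℝ} (hD : IntegrableOn D I)
    {p w x y c₁ c₂ c₃ : ℝ} (hG : Icc (p - w) p ⊆ I) (hw : 0 ≤ w) (hx : 0 ≤ x) (hy : 0 ≤ y)
    (h2 : 0 ≤ c₂) (h3 : 0 ≤ c₃) (h : ∀ t ∈ I, (Icc (p - w) p).indicator (fun _ => c₁) t -
      (Icc p (p + x)).indicator (fun _ => c₂) t - (Icc p (p + y)).indicator (fun _ => c₃) t ≤ D t)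
    (hc : x * c₂ + y * c₃ ≤ w * c₁) : 0 ≤ ∫ t in I, D t := by
  have i : ∀ a b c : ℝ, Integrable ((Icc a b).indicator fun _ => c) := fun a b c =>
    (integrable_indicator_iff measurableSet_Icc).2 (integrableOn_const (by simp))
  have := integral_mono (((i (p - w) p c₁).sub (i p (p + x) c₂)).sub (i p (p + y) c₃))
    ((integrable_indicator_iff hI).2 hD) fun t => by
      by_cases ht : t ∈ I
      · rw [indicator_of_mem ht]; exact h t ht
      · have a2 := indicator_nonneg (s := Icc p (p + x)) (f := fun _ => c₂) (fun _ _ => h2) t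
        have a3 := indicator_nonneg (s := Icc p (p + y)) (f := fun _ => c₃) (fun _ _ => h3) t
        simp only [Pi.sub_apply, indicator_of_notMem ht, indicator_of_notMem (mt (@hG t) ht)]
        linarith
  rw [integral_indicator hI, integral_sub' ((i _ _ _).sub (i _ _ _)) (i _ _ _),
    integral_sub' (i _ _ _) (i _ _ _)] at this
  simp only [integral_indicator_const _ measurableSet_Icc, smul_eq_mul] at this
  rw [Real.volume_real_Icc_of_le (by linarith), Real.volume_real_Icc_of_le (by linarith),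
    Real.volume_real_Icc_of_le (by linarith)] at this
  refine le_trans ?_ this
  linarith

theorem lip {s d : ℝ → ℝ} {K : ℝ} (h : ∀ t, HasDerivAt s (d t) t) (hK : ∀ t, |d t| ≤ K) (x y : ℝ) :
    |s y - s x| ≤ K * |y - x| :=
  convex_univ.norm_image_sub_le_of_norm_hasDerivWithin_le (fun x _ => (h x).hasDerivWithinAt)
    (fun x _ => hK x) trivial trivial

theorem fcmp {ε δ T : ℝ} {ψ s d q u f : ℝ → ℝ} (h : Ln ε δ T ψ s d q u f) {x y : ℝ}
    (hxy : |y - x| ≤ 15) : 0 ≤ f x ∧ f x ≤ 4 * Real.exp 30 * f y := by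
  have h1 := lip h.dψ (K := 1) (fun t => abs_le_one_iff_mul_self_le_one.2 (by
    nlinarith [h.sq t, h.q0 t])) x y
  have s0 : 0 < √2 := by positivity
  have s1 : √2 * √2 = 2 := Real.mul_self_sqrt zero_le_two
  have s2 : √2 ≤ 2 := by nlinarith
  have h2 : Real.exp (-(√2 * |ψ x|)) ≤ Real.exp 30 * Real.exp (-(√2 * |ψ y|)) := by
    rw [← Real.exp_add, Real.exp_le_exp]
    nlinarith [abs_sub_abs_le_abs_sub (ψ y) (ψ x), abs_nonneg (ψ y - ψ x)]
  have h3 := h.flo y
  rw [div_le_iff₀ s0] at h3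
  refine ⟨le_trans (by positivity) (h.flo x), (h.fhi x).trans ?_⟩
  calc _ ≤ 2 * √2 * (Real.exp 30 * (f y * √2)) := by gcongr; exact h2.trans (by gcongr)
    _ = 2 * (√2 * √2) * Real.exp 30 * f y := by ring
    _ = _ := by rw [s1]; ring

end Farc

open Farc in
theorem farc : rFARC := fun col K hK => by
  obtain ⟨A, hA⟩ : ∃ A, A = 4 * Real.exp 30 := ⟨_, rfl⟩
  have A1 : 1 ≤ A := by linarith [Real.one_le_exp (show (0 : ℝ) ≤ 30 by norm_num)]
  have AK : 1 ≤ A ^ 4 * K ^ 2 := one_le_mul_of_one_le_of_one_le (one_le_pow₀ A1) (one_le_pow₀ hK)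
  refine ⟨((2000000 * (A ^ 4 * K ^ 2))⁻¹) ^ 2, by positivity,
    fun l δ₀ ε δ T ψ s d q u f a J H g d0 dl l1 h dK an a0 ca cJ cH cg hJ hp => ?_⟩
  have l0 : 0 < l := d0.trans_le dl
  have r0 : 0 < √l := Real.sqrt_pos.2 l0
  have r1 : 2000000 * (A ^ 4 * K ^ 2) * √l ≤ 1 := by
    rw [← le_div_iff₀' (by positivity), one_div]
    exact Real.sqrt_le_iff.2 ⟨by positivity, l1⟩
  have r2 : √l ≤ 9 / 10 := by nlinarith
  obtain ⟨⟨b, cl⟩, c2, -⟩ := col ε δ T (-(3 / 4)) ψ s d q u f h (by norm_num) (by norm_num)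
  set I := Iv s T (-(3 / 4)) ∩ Ici 0
  have dn : ∀ t ∈ I, ∀ x, 0 ≤ x → x ≤ t → x ∈ I := fun t ht x x0 xt =>
    ⟨⟨by rw [abs_of_nonneg x0]; exact xt.trans_lt (abs_lt.1 ht.1.1).2, fun t' h' =>
      ht.1.2 t' (uIcc_subset_uIcc_left (mem_uIcc_of_le x0 xt) h')⟩, x0⟩
  have mI : MeasurableSet I :=
    OrdConnected.measurableSet ⟨fun x hx y hy z hz => dn y hy z (hx.2.trans hz.1) hz.2⟩
  have sI : I ⊆ Icc 0 T := fun t ht => ⟨ht.2, (abs_lt.1 ht.1.1).2.le⟩
  have cs : Continuous s := continuous_iff_continuousAt.2 fun t => (h.ds t).continuousAt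
  have i1 : IntegrableOn (fun t => a t ^ 2 * st (2 * s t) * g t * J t) I :=
    (((((ca.pow 2).mul (Real.smoothTransition.continuous.comp
      (continuous_const.mul cs)).continuousOn).mul cg).mul cJ).integrableOn_Icc).mono_set sI
  have i2 : IntegrableOn (fun t => a t ^ 2 * H t * J t) I :=
    ((((ca.pow 2).mul cH).mul cJ).integrableOn_Icc).mono_set sI
  rw [← integral_div, ← sub_nonneg, ← integral_sub i2 (i1.div_const 2)]
  set D : ℝ → ℝ := fun t => a t ^ 2 * H t * J t - a t ^ 2 * st (2 * s t) * g t * J t / 2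
  have g0 : ∀ t ∈ I, 0 ≤ a t ^ 2 * J t * (g t / 2) := fun t ht => by
    have := (hp t ht.1 ht.2).1
    have := (hJ t (sI ht)).1
    positivity
  have g1 : ∀ t ∈ I, -(δ₀ / 2) ≤ s t → a t ^ 2 * J t * (g t / 2) ≤ D t := fun t ht hs => by
    have := (hp t ht.1 ht.2).2.1 hs
    have := mul_le_mul_of_nonneg_right (Real.smoothTransition.le_one (2 * s t)) (hp t ht.1 ht.2).1
    have := (hJ t (sI ht)).1
    calc _ ≤ a t ^ 2 * J t * (H t - st (2 * s t) * g t / 2) := by
          gcongr; unfold st; linarith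
      _ = _ := by ring
  by_cases hc : ∀ t ∈ I, -(δ₀ / 2) ≤ s t
  · exact setIntegral_nonneg mI fun t ht => (g0 t ht).trans (g1 t ht (hc t ht))
  push Not at hc
  obtain ⟨t₁, h1, h2⟩ := hc
  have b1 : b ≤ t₁ := by
    by_contra c
    linarith [(cl.lo t₁ ⟨h1.2, not_le.1 c⟩).2]
  have sb : 9 / 10 ≤ s b := ge_of_tendsto (cs.continuousWithinAt (s := Iio b) (x := b))
    (mem_of_superset (Ico_mem_nhdsLT cl.b0) fun t ht => (cl.lo t ht).2.le)
  obtain ⟨p, ⟨p1, p2⟩, p0⟩ : (0 : ℝ) ∈ s '' Icc b t₁ :=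
    intermediate_value_Icc' b1 cs.continuousOn ⟨by linarith, by linarith⟩
  have pI := dn t₁ h1 p (cl.b0.le.trans p1) p2
  have dd : ∀ t ∈ I, b ≤ t → d t ≤ -(1 / 20) := fun t ht bt => by
    obtain ⟨q1, -, -, q2⟩ := c2 t (abs_lt.2 (abs_lt.1 ht.1.1)).le (abs_le.2
      ⟨by linarith [ht.1.2 t right_mem_uIcc], by linarith [(cl.hi t ht.1 bt).1]⟩)
    have := q2 (cl.ps t ht.1 (cl.b0.trans_le bt))
    have s1 : 11 / 10 ≤ √2 := Real.le_sqrt_of_sq_le (by norm_num)
    nlinarith [h.d1]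
  have dec : ∀ t ∈ I, ∀ x, b ≤ x → x ≤ t → s t - s x ≤ -(1 / 20) * (t - x) := fun t ht x bx xt =>
    (convex_Icc x t).image_sub_le_mul_sub_of_deriv_le cs.continuousOn
      (fun z _ => (h.ds z).differentiableAt.differentiableWithinAt) (fun z hz => by
        have := interior_subset hz
        rw [(h.ds z).deriv]
        exact dd z (dn t ht z (cl.b0.le.trans (bx.trans this.1)) this.2) (bx.trans this.1))
      x (left_mem_Icc.2 xt) t (right_mem_Icc.2 xt) xt
  have K0 : 0 < K := by linarith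
  have up : ∀ x ≤ p, s x ≤ K * (p - x) := fun x hx => by
    have := lip h.ds dK x p
    rw [p0, zero_sub, abs_neg, abs_of_nonneg (sub_nonneg.2 hx)] at this
    exact (le_abs_self _).trans this
  have w0 : 0 < √l / K := by positivity
  have w1 : K * (√l / K) = √l := by field_simp
  have bw : b ≤ p - √l / K := by nlinarith [up b p1]
  refine key mI (i2.sub (i1.div_const 2)) (p := p) (w := √l / K) (x := 80 * δ₀) (y := 15)
    (c₁ := a p ^ 2 * (1 / 2) * ((f p / A) ^ 2 * (1 / 20) ^ 2 / 4 / 2))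
    (c₂ := a p ^ 2 * 2 * (K * (A * f p) ^ 2)) (c₃ := a p ^ 2 * 2 * (K * l * (A * f p) ^ 2))
    (fun t ht => dn p pI t (cl.b0.le.trans (bw.trans ht.1)) ht.2) w0.le (by positivity)
    (by norm_num) (by positivity) (by positivity) (fun t ht => ?_) ?_
  · change _ ≤ D t
    have a2 := indicator_nonneg (s := Icc p (p + 80 * δ₀))
      (f := fun _ => a p ^ 2 * 2 * (K * (A * f p) ^ 2)) (fun _ _ => by positivity) t
    have a3 := indicator_nonneg (s := Icc p (p + 15))
      (f := fun _ => a p ^ 2 * 2 * (K * l * (A * f p) ^ 2)) (fun _ _ => by positivity) t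
    have J1 := hJ t (sI ht)
    rcases le_or_gt t p with tp | tp
    · have s0 : 0 ≤ s t := by
        rcases lt_or_ge t b with c | c
        · linarith [(cl.lo t ⟨ht.2, c⟩).2]
        · linarith [dec p pI t c tp]
      refine le_trans ?_ (g1 t ht (by linarith))
      by_cases c : t ∈ Icc (p - √l / K) p
      · rw [indicator_of_mem c]
        refine le_trans (by linarith) (?_ : a p ^ 2 * (1 / 2) *
          ((f p / A) ^ 2 * (1 / 20) ^ 2 / 4 / 2) ≤ _)
        obtain ⟨f0, f1⟩ := fcmp h (x := p) (y := t) (abs_le.2 ⟨by nlinarith [c.1], by linarith⟩)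
        have := a0 p
        have : 0 ≤ a t ^ 2 * J t := by have := J1.1; positivity
        gcongr
        · exact an ht.2 pI.2 tp
        · exact J1.1
        · refine le_trans ?_ ((hp t ht.1 ht.2).2.2.1 s0 (by nlinarith [up t tp, c.1]))
          rw [← sq_abs (d t)]
          gcongr
          · rw [div_le_iff₀' (by linarith), hA]; exact f1
          · linarith [dd t ht (bw.trans c.1), neg_le_abs (d t)]
      · rw [indicator_of_notMem c]
        linarith [g0 t ht]
    rw [indicator_of_notMem fun c => c.2.not_gt tp]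
    have e1 := dec t ht p p1 tp.le
    have e2 := ht.1.2 t right_mem_uIcc
    by_cases c : -(δ₀ / 2) ≤ s t
    · linarith [g0 t ht, g1 t ht c]
    have e3 : D t = a t ^ 2 * J t * H t := by
      simp only [D, st, Real.smoothTransition.zero_of_nonpos (show 2 * s t ≤ 0 by linarith)]; ring
    obtain ⟨f0, f1⟩ := fcmp h (x := t) (y := p) (abs_le.2 ⟨by linarith, by linarith⟩)
    have ls : ∀ B, 0 ≤ B → -(B * f t ^ 2) ≤ H t → -(a p ^ 2 * 2 * (B * (A * f p) ^ 2)) ≤ D t :=
      fun B B0 hB => by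
        have := a0 t
        have : 0 ≤ J t := by linarith [J1.1]
        have x1 : a t ^ 2 * J t * (B * f t ^ 2) ≤ a p ^ 2 * 2 * (B * (A * f p) ^ 2) := by
          gcongr
          exacts [an pI.2 ht.2 tp.le, J1.2, hA ▸ f1]
        have := mul_le_mul_of_nonneg_left hB (show 0 ≤ a t ^ 2 * J t by
          have := J1.1; positivity)
        linarith
    by_cases c' : s t ≤ -(4 * δ₀)
    · rw [indicator_of_mem (s := Icc p (p + 15)) ⟨tp.le, by linarith⟩]
      linarith [ls (K * l) (by positivity) ((hp t ht.1 ht.2).2.2.2.2 c')]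
    · rw [indicator_of_mem (s := Icc p (p + 80 * δ₀)) ⟨tp.le, by linarith⟩]
      linarith [ls K K0.le (hp t ht.1 ht.2).2.2.2.1]
  · have e : l = √l * √l := (Real.mul_self_sqrt l0.le).symm
    calc _ ≤ 80 * l * (a p ^ 2 * 2 * (K * (A * f p) ^ 2)) +
          15 * (a p ^ 2 * 2 * (K * l * (A * f p) ^ 2)) := by gcongr
      _ = a p ^ 2 * f p ^ 2 * √l / (K * A ^ 2) * (190 * (A ^ 4 * K ^ 2) * √l) := by
          have : √l ^ 2 = l := Real.sq_sqrt l0.le
          field_simp
          rw [this]; ring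
      _ ≤ a p ^ 2 * f p ^ 2 * √l / (K * A ^ 2) * (1 / 6400) := by gcongr; nlinarith
      _ = _ := by field_simp; ring

end Vale.Agent.P134E
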