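import Vale.Agent.P134E.Spec
import Vale.Agent.P134T.Calc

/-!
# P134E: the gain of the main profile
-/

set_option linter.unusedVariables false

open MeasureTheory Metric Filter Topology Set
open scoped ContDiff RealInnerProductSpace
open Vale.Agent.P366.Stmt (E)
open Vale.Agent.P366W (dvg trc dvg_smul inner_grad)

noncomputable section

namespace Vale.Agent.P134E

open Vale.Agent.P134B Vale.Agent.P134T

namespace G0

theorem mb {x y a b : ℝ} (hx : |x| ≤ a) (hy : |y| ≤ b) : |x * y| ≤ a * b := by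
  rw [abs_mul]; exact mul_le_mul hx hy (abs_nonneg _) ((abs_nonneg _).trans hx)

theorem extra {q c C v w g1 g2 β β' M : ℝ} (q0 : 0 ≤ q) (q1 : q ≤ 1 / 100) (hc : |c| ≤ 1)
    (hC : 1 ≤ C) (hv : |v| ≤ 2) (hw : |w| ≤ C * q) (h1 : |g1| ≤ 1) (h2 : |g2| ≤ 1)
    (hb : |β - c * q / 2| ≤ q ^ 2) (hb' : |β' - c / 2| ≤ q) (hM : |M - 1| ≤ q) :
    c * q * (g2 / 2 - v * g1) -
      c * (g1 * w - 2 * v * q * g1 * (1 - q) + q * g2 * (1 - q) - v * q ^ 2 * g1) - 18 * C * q ^ 2 ≤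
      M * (-β * (g2 * (1 - q) - v * q * g1 - 2 * v * g1 * (1 - q)) - 2 * g1 * β' * w) := by
  have ha := abs_le.1 (mb hv h1)
  have k2 := abs_le.1 h2
  have kc := abs_le.1 hc
  have kb := abs_le.1 hb
  have kb' := abs_le.1 hb'
  have hG : |g2 * (1 - q) - v * q * g1 - 2 * v * g1 * (1 - q)| ≤ 6 := by
    rw [abs_le]; constructor <;> nlinarith
  have b1 : |β| ≤ q := by rw [abs_le]; constructor <;> nlinarith
  have b2 : |β'| ≤ 1 := by rw [abs_le]; constructor <;> linarith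
  have x1 := abs_le.1 (mb b1 hG)
  have x2 := abs_le.1 (mb (mb h1 b2) hw)
  have hX : |-β * (g2 * (1 - q) - v * q * g1 - 2 * v * g1 * (1 - q)) - 2 * g1 * β' * w| ≤
      8 * C * q := by
    rw [abs_le]; constructor <;> nlinarith
  have y1 := abs_le.1 (mb hM hX)
  have y2 := abs_le.1 (mb hb hG)
  have y3 := abs_le.1 (mb (mb h1 hb') hw)
  have y4 := abs_le.1 (mb (mb hc (show |g2 - v * g1| ≤ 3 by rw [abs_le]; constructor <;> linarith))
    (show |q ^ 2| ≤ q ^ 2 from (abs_sq q).le))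
  have y5 : q ^ 2 ≤ C * q ^ 2 := le_mul_of_one_le_left (sq_nonneg q) hC
  linarith

theorem tq {μ q : ℝ} (m0 : 0 < μ) (m1 : μ < 1) (q0 : 0 ≤ q) (q1 : q ≤ 1) :
    0 < Tq μ q ∧ Tq μ q ≤ 1 ∧ 1 - q ≤ Tq μ q ∧ Tq μ q ^ 2 = 1 - (1 - μ) * q ∧
      HasDerivAt (Tq μ) (-(1 - μ) / (2 * Tq μ q)) q := by
  have h : 0 < 1 - (1 - μ) * q := by nlinarith
  refine ⟨Real.sqrt_pos.2 h, Real.sqrt_le_one.2 (by nlinarith), Real.le_sqrt_of_sq_le (by nlinarith),
    Real.sq_sqrt h.le, ?_⟩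
  exact ((((hasDerivAt_id q).const_mul (1 - μ)).const_sub 1).sqrt h.ne').congr_deriv
    (by simp [Tq])

theorem bet {l q : ℝ} (l0 : 0 < l) (l1 : l ≤ 1 / 200) (q0 : 0 ≤ q) (q1 : q ≤ 1 / 100) :
    |Tq (1 - l) q - Tq l q - (1 - 2 * l) * q / 2| ≤ q ^ 2 ∧
    |-(1 - (1 - l)) / (2 * Tq (1 - l) q) - -(1 - l) / (2 * Tq l q) - (1 - 2 * l) / 2| ≤ q := by
  obtain ⟨a0, a1, a2, a3, -⟩ := tq l0 (by linarith) q0 (by linarith)
  obtain ⟨b0, b1, b2, b3, -⟩ := tq (μ := 1 - l) (by linarith) (by linarith) q0 (by linarith)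
  generalize Tq l q = A at *
  generalize Tq (1 - l) q = B at *
  have k : ∀ T : ℝ, 0 < T → T ≤ 1 → 1 - q ≤ T → 1 ≤ T⁻¹ ∧ T⁻¹ ≤ 1 + 2 * q := fun T t0 t1 t2 =>
    ⟨(one_le_inv₀ t0).2 t1, by rw [inv_le_iff_one_le_mul₀ t0]; nlinarith⟩
  constructor
  · have := mb (x := B - A) (y := 1 - (A + B) / 2) (a := q) (b := q)
      (by rw [abs_le]; constructor <;> linarith) (by rw [abs_le]; constructor <;> linarith)
    rw [show B - A - (1 - 2 * l) * q / 2 = (B - A) * (1 - (A + B) / 2) by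
      linear_combination (b3 - a3) / 2, sq]
    exact this
  · have ka := k A a0 a1 a2
    have kb := k B b0 b1 b2
    rw [show -(1 - (1 - l)) / (2 * B) = -(l / 2) * B⁻¹ by field_simp; ring,
      show -(1 - l) / (2 * A) = -((1 - l) / 2) * A⁻¹ by field_simp, abs_le]
    constructor <;> nlinarith

theorem low {μ l P H T L : ℝ} (l0 : 0 < l) (l1 : l ≤ 1 / 200) (hμ : μ = l ∨ μ = 1 - l)
    (P0 : 0 ≤ P) (H0 : 0 ≤ H) (T0 : 0 < T) (T1 : T ≤ 1)
    (h : μ * P + μ * (1 - μ) * H / T ^ 2 ≤ T * L) :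
    99 / 100 * (l * (P + H)) ≤ T * L ∧ 99 / 100 * (l * (P + H)) ≤ L := by
  have e : μ * (1 - μ) = l * (1 - l) := by
    rcases hμ with k | k
    · rw [k]
    · rw [k]; ring
  have k1 : l ≤ μ := by rcases hμ with k | k <;> linarith
  have k2 : l * (1 - l) * H ≤ μ * (1 - μ) * H / T ^ 2 := by
    rw [e]
    exact le_div_self (mul_nonneg (mul_nonneg l0.le (by linarith)) H0) (by positivity)
      (pow_le_one₀ T0.le T1)
  have k3 := mul_nonneg l0.le P0
  have k4 := mul_nonneg l0.le H0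
  have k5 : 99 / 100 * (l * (P + H)) ≤ T * L := by nlinarith
  have k6 : 0 ≤ L := by
    by_contra k
    nlinarith [mul_pos T0 (neg_pos.2 (not_le.1 k))]
  exact ⟨k5, by nlinarith⟩

theorem scale {F a G b q g c d m r : ℝ} (hF : 0 ≤ F) (h : a * G + b * (q * g) - c * d ≤ m * r) :
    a * (F * G) + b * (F * q * g) - c * (F * d) ≤ F * m * r := by
  linarith [mul_le_mul_of_nonneg_left h hF]

theorem small {l e φ C q : ℝ} (l0 : 0 < l) (hC : 1 ≤ C) (q0 : 0 ≤ q) (h1 : e ≤ φ)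
    (h2 : q ≤ l * e / (100 * (|C| + 1))) : 100 * (C * q ^ 2) ≤ l * (φ * q) := by
  rw [le_div_iff₀ (by positivity), abs_of_pos (by linarith)] at h2
  have k3 := mul_le_mul_of_nonneg_left h1 l0.le
  have k4 : 100 * (C * q) ≤ l * φ := by linarith
  linarith [mul_le_mul_of_nonneg_right k4 q0]

theorem cvx {g a b m M : ℝ} (g0 : 0 ≤ g) (g1 : g ≤ 1) (ha : m ≤ a) (hb : m ≤ b) (ha' : a ≤ M)
    (hb' : b ≤ M) : m ≤ g * a + (1 - g) * b ∧ g * a + (1 - g) * b ≤ M := by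
  constructor <;> nlinarith

theorem mix {g a b m M : ℝ} (g0 : 0 ≤ g) (g1 : g ≤ 1) (ha : m ≤ a) (hb : m ≤ b) (m0 : 0 ≤ m)
    (hM : 99 / 100 ≤ M) : 99 / 100 * m ≤ M * (g * a + (1 - g) * b) :=
  mul_le_mul hM (cvx g0 g1 ha hb (le_max_left a b) (le_max_right a b)).1 m0 (by linarith)

variable {n : ℕ} {C l ℓ : ℝ} {u : E n → ℝ} {γ κ Kp : ℝ → ℝ}

theorem dγ (hγ : ContDiff ℝ 2 γ) : ContDiff ℝ 1 (deriv γ) :=
  (contDiff_succ_iff_deriv (n := 1)).1 hγ |>.2.2

theorem dvY (h : Ok C u) (hq : ContDiff ℝ ∞ (qq u)) (hγ : ContDiff ℝ 2 γ) (x : E n) :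
    dvg (YY γ u) x = ff u x ^ 2 * (deriv γ (ps u x) * ⟪gradient (qq u) x, pp u x⟫ -
      2 * (√2 * u x) * qq u x * deriv γ (ps u x) * (1 - qq u x) +
      qq u x * deriv (deriv γ) (ps u x) * (1 - qq u x) -
      √2 * u x * qq u x ^ 2 * deriv γ (ps u x)) := by
  have df := d2 (c2 h.tcf) x
  have dq := d2 (c2 hq) x
  have dp := d2 (c2 h.smp) x
  have d1 := ((dγ hγ).differentiable one_ne_zero (ps u x)).hasDerivAt
  have dΓ : DifferentiableAt ℝ (fun y => deriv γ (ps u y)) x := d1.differentiableAt.comp x dp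
  have e : YY γ u = fun y => (ff u y * ff u y * qq u y * deriv γ (ps u y)) • pp u y := by
    funext y; rw [YY, EE, sq]
  have e1 : dvg (pp u) x = -(√2 * u x * qq u x) := h.tr x
  have e2 : ⟪pp u x, pp u x⟫ = 1 - qq u x := by rw [real_inner_self_eq_norm_sq, qq]; ring
  rw [e, dvg_smul (((df.fun_mul df).fun_mul dq).fun_mul dΓ) (Y := pp u) (dg2 (c2 h.smp) x), ← inner_grad,
    grad_mul ((df.fun_mul df).fun_mul dq) dΓ, grad_mul (df.fun_mul df) dq, grad_mul df df,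
    grad_comp d1 dp, h.gf]
  change _ * dvg (pp u) x + ⟪_ • _ • pp u x + _, _⟫ = _
  simp only [inner_add_left, real_inner_smul_left, e1, e2]
  ring

theorem lpM (h : Ok C u) {a b : E n → ℝ} (ha : ContDiff ℝ 2 a) (hb : ContDiff ℝ 2 b)
    (hγ : ContDiff ℝ 2 γ) (x : E n) :
    LP u (fun y => γ (ps u y) * a y + (1 - γ (ps u y)) * b y) x =
      γ (ps u x) * LP u a x + (1 - γ (ps u x)) * LP u b x +
      (-(b x - a x) * (deriv (deriv γ) (ps u x) * (1 - qq u x) -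
        √2 * u x * qq u x * deriv γ (ps u x) - 2 * (√2 * u x) * deriv γ (ps u x) * (1 - qq u x)) -
        2 * deriv γ (ps u x) * ⟪gradient b x - gradient a x, pp u x⟫) := by
  have hp := c2 h.smp
  have hΓ : ContDiff ℝ 2 fun y => γ (ps u y) := hγ.comp hp
  have d0 : ∀ s, HasDerivAt γ (deriv γ s) s := fun s =>
    (hγ.differentiable two_ne_zero s).hasDerivAt
  have d1 := ((dγ hγ).differentiable one_ne_zero (ps u x)).hasDerivAt
  have e : (fun y => γ (ps u y) * a y + (1 - γ (ps u y)) * b y) =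
      fun y => b y + γ (ps u y) * (a y - b y) := by funext y; ring
  have e1 : lap (ps u) x = -(√2 * u x * qq u x) := h.tr x
  have e2 : ⟪pp u x, pp u x⟫ = 1 - qq u x := by rw [real_inner_self_eq_norm_sq, qq]; ring
  have e3 : ‖gradient (ps u) x‖ ^ 2 = 1 - qq u x := by rw [qq, pp]; ring
  have e4 : gradient (fun y => γ (ps u y)) x = deriv γ (ps u x) • pp u x :=
    grad_comp (d0 _) (d2 hp x)
  rw [e]
  unfold LP Lf
  rw [lap_add hb (hΓ.mul (ha.sub hb)), lap_mul hΓ (ha.sub hb), lap_sub ha hb,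
    lap_comp hp (fun y => d0 _) d1, grad_add (d2 hb x) (d2 (hΓ.mul (ha.sub hb)) x),
    grad_mul (d2 hΓ x) (d2 (ha.sub hb) x), grad_sub (d2 ha x) (d2 hb x), e4, e1, e3]
  simp only [inner_add_right, inner_sub_right, inner_sub_left, real_inner_smul_left,
    real_inner_smul_right, e2, real_inner_comm (pp u x) (gradient a x),
    real_inner_comm (pp u x) (gradient b x)]
  ring

end G0

open G0

theorem gn0 : rGN0 := by
  intro cv n C l ℓ
  by_cases l0 : 0 < l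
  swap
  · exact ⟨1, one_pos, fun u γ κ Kp _ g => absurd g.l0 l0⟩
  refine ⟨min (1 / 100) (l * Real.exp (-(√2 * ℓ)) / (100 * (|C| + 1))), by positivity,
    fun u γ κ Kp h g => ?_⟩
  obtain ⟨hq, h1, -, h2⟩ := cv n C u h
  have l1 := g.l1
  obtain ⟨ha, ka⟩ := h2 l l0 (by linarith)
  obtain ⟨hb, kb⟩ := h2 (1 - l) (by linarith) (by linarith)
  have hΓ : ContDiff ℝ 2 fun y => γ (ps u y) := g.cγ.comp (c2 h.smp)
  refine ⟨(hΓ.mul ha).add ((contDiff_const.sub hΓ).mul hb), ?_, fun x => ?_⟩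
  · exact ((((h.tcf.pow 2).mul hq).of_le (by simp)).mul
      ((dγ g.cγ).comp (h.smp.of_le (by simp)))).smul (h.tcp.of_le (by simp))
  obtain ⟨q1, P0, -, H0, -⟩ := h1 x
  have q0 := h.q0 x
  obtain ⟨a0, a1, a2, -, da⟩ := tq l0 (by linarith) q0 q1
  obtain ⟨b0, b1, b2, -, db⟩ := tq (μ := 1 - l) (by linarith) (by linarith) q0 q1
  obtain ⟨g0, g1, -, g2, g3⟩ := g.γ0 (ps u x)
  have m1 : M0 l γ u x ≤ 1 := (cvx g0 g1 a2 b2 a1 b1).2
  have m2 : 1 - qq u x ≤ M0 l γ u x := (cvx g0 g1 a2 b2 a1 b1).1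
  have dY := dvY h hq g.cγ x
  refine ⟨by linarith, m1, fun k => ?_, fun k => ?_, fun k => ?_⟩
  · filter_upwards [h.smp.continuous.continuousAt.eventually_lt continuousAt_const k] with y hy
    simp [M0, g.lo _ hy.le]
  · rw [dY, (g.dz _ k).1, (g.dz _ k).2]; ring
  have la := low l0 l1 (.inl rfl) P0 H0 a0 a1 (ka x).2.2.2
  have lb := low l0 l1 (.inr rfl) P0 H0 b0 b1 (kb x).2.2.2
  have lp := lpM h ha hb g.cγ x
  rw [grad_comp da (d2 (c2 hq) x), grad_comp db (d2 (c2 hq) x), ← sub_smul,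
    real_inner_smul_left] at lp
  change LP u (M0 l γ u) x = _ at lp
  have p1 := mul_nonneg l0.le P0
  have p2 := mul_nonneg l0.le H0
  rw [dY, lp, gn, EE]
  refine scale (sq_nonneg _) ?_
  by_cases k' : ps u x ≤ 1 ∨ ℓ ≤ ps u x
  · rw [(g.dz _ k').1, (g.dz _ k').2, M0]
    rcases k' with k' | k'
    · rw [g.lo _ k']; linarith [la.1]
    · rw [g.hi _ k']; linarith [lb.1]
  have k1 := le_min_iff.1 (k.resolve_right k')
  push Not at k'
  have hC := h.C1
  have v1 : |√2 * u x| ≤ 2 := by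
    have := mb (x := √2) (a := 2) (by
      rw [abs_of_nonneg (Real.sqrt_nonneg 2)]; exact Real.sqrt_le_iff.2 ⟨by norm_num, by norm_num⟩)
      (h.lt x).le
    linarith
  have w1 : |⟪gradient (qq u) x, pp u x⟫| ≤ C * qq u x := by
    exact (abs_real_inner_le_norm _ _).trans
      ((mul_le_of_le_one_right (norm_nonneg _) (h.tpp_le x)).trans (h.q1 x))
  have be := bet l0 l1 q0 k1.1
  have ex := extra q0 k1.1 (c := 1 - 2 * l) (by rw [abs_le]; constructor <;> linarith) hC v1 w1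
    g2 g3 be.1 be.2 (M := M0 l γ u x) (by rw [abs_le]; constructor <;> linarith)
  have ky := g.key (ps u x)
  rw [f0, ← h.th] at ky
  have ky' := mul_le_mul_of_nonneg_left ky q0
  have f1 : Real.exp (-(√2 * ℓ)) ≤ √2 * ff u x := by
    have := h.flo x
    rw [div_le_iff₀' (by positivity), abs_of_pos (one_pos.trans k'.1)] at this
    exact le_trans (Real.exp_le_exp.2 (neg_le_neg
      (mul_le_mul_of_nonneg_left k'.2.le (Real.sqrt_nonneg 2)))) this
  have f2 : 100 * (C * qq u x ^ 2) ≤ l * PP u x := small l0 hC q0 f1 k1.2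
  have mn := mix g0 g1 la.2 lb.2 (by linarith) (show 99 / 100 ≤ M0 l γ u x by linarith)
  have e : l * (qq u x * (√2 * ((1 - u x ^ 2) / √2))) = l * PP u x := by unfold PP ff; ring
  linarith

end Vale.Agent.P134E
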