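import Vale.Agent.P134E.Spec

/-!
# P134E, row GN1: the loss behind the ridges
-/

open Filter Topology Set

namespace Vale.Agent.P134E

open Vale.Agent.P134B

theorem gn1_alg {a b c h P r s N β : ℝ} (a0 : 0 ≤ a) (h0 : 0 ≤ h) (h1 : h ≤ N) (P0 : 0 ≤ P)
    (P1 : P ≤ 1) (r0 : 0 ≤ r) (r1 : r ≤ 1) (s0 : 0 ≤ s) (s1 : s ≤ h * r) (b1 : a * |b| ≤ β)
    (b2 : a * |c| * r ≤ β) :
    -(β * (6 * N + 2)) ≤ a * (b * (-2 * h + 2 * P * r) + 4 * c * s + P * a) := by
  have β0 : 0 ≤ β := (mul_nonneg a0 (abs_nonneg b)).trans b1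
  have e1 : |(-2 * h + 2 * P * r)| ≤ 2 * N + 2 := by
    have := mul_le_one₀ P1 r0 r1
    have := mul_nonneg P0 r0
    rw [abs_le]
    constructor <;> nlinarith
  have e2 : -(β * (2 * N + 2)) ≤ a * (b * (-2 * h + 2 * P * r)) := by
    have h2 : |a * (b * (-2 * h + 2 * P * r))| ≤ β * (2 * N + 2) := by
      rw [abs_mul, abs_mul, abs_of_nonneg a0, ← mul_assoc]
      exact mul_le_mul b1 e1 (abs_nonneg _) β0
    exact (abs_le.1 h2).1
  have e3 : -(β * N) ≤ a * (c * s) := by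
    have h2 : |a * (c * s)| ≤ β * N := by
      rw [abs_mul, abs_mul, abs_of_nonneg a0, abs_of_nonneg s0, ← mul_assoc]
      calc a * |c| * s ≤ a * |c| * (h * r) :=
            mul_le_mul_of_nonneg_left s1 (mul_nonneg a0 (abs_nonneg c))
        _ = a * |c| * r * h := by ring
        _ ≤ β * N := mul_le_mul b2 h1 h0 β0
    exact (abs_le.1 h2).1
  have e4 : 0 ≤ a * (P * a) := by positivity
  nlinarith

theorem gn1 : rGN1 := by
  intro H n C B
  refine ⟨|B| * (6 * (n * C ^ 2) + 2), by positivity, fun u l δ k hu l0 d0 hk => ?_⟩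
  obtain ⟨h1, h2, h3, -⟩ := H n C u hu
  have hq : ∀ x, qq u x ∈ Icc (0 : ℝ) 1 := fun x => ⟨hu.q0 x, (h2 x).1⟩
  have hp : ∀ x, ‖pp u x‖ ^ 2 = 1 - qq u x := fun x => by simp [qq]
  refine ⟨contDiff_iff_contDiffAt.2 fun x => (h3 k x (hk.c2 _ (hq x))).1, fun x => ?_⟩
  obtain ⟨a1, a2, a3, a4, a5, a6⟩ := h2 x
  have key : ∀ β, k (qq u x) * |deriv k (qq u x)| ≤ β →
      k (qq u x) * |deriv (deriv k) (qq u x)| * ‖pp u x‖ ^ 2 ≤ β →
      -(β * (6 * (n * C ^ 2) + 2)) ≤ M1 k u x * LP u (M1 k u) x := fun β b1 b2 => by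
    have e := (h3 k x (hk.c2 _ (hq x))).2.2
    show _ ≤ k (qq u x) * (Lf u (fun y => k (qq u y)) x + PP u x * k (qq u x))
    rw [e]
    exact gn1_alg (hk.nn _ (hq x)).1 a4 (a5.trans (mul_le_of_le_one_right (by positivity) a1)) a2 a3
      (sq_nonneg _) (by rw [hp]; linarith [hu.q0 x]) (sq_nonneg _) (a6 _) b1 b2
  refine ⟨(hk.nn _ (hq x)).1, (hk.nn _ (hq x)).2, fun h => ?_, fun h => hk.ze _ ?_,
    key _ ((hk.b1 _ (hq x)).1.trans (le_abs_self B)) ?_, fun h => ?_⟩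
  · have e : 1 - 4 * δ ^ 2 < qq u x := by nlinarith [hp x, norm_nonneg (pp u x)]
    filter_upwards [h1.continuous.continuousAt.eventually (lt_mem_nhds e)] with y hy
    exact hk.eq _ (hq y) hy.le
  · nlinarith [hp x]
  · rw [hp]
    exact (hk.b1 _ (hq x)).2.trans (le_abs_self B)
  · obtain ⟨b1, b2⟩ := hk.b2 _ (hq x) (by nlinarith [hp x])
    have e : B * l ≤ |B| * l := mul_le_mul_of_nonneg_right (le_abs_self B) l0.le
    have := key (|B| * l) (b1.trans e) ((mul_le_of_le_one_right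
      (mul_nonneg (hk.nn _ (hq x)).1 (abs_nonneg _)) (by rw [hp]; linarith [hu.q0 x])).trans
        (b2.trans e))
    linarith

end Vale.Agent.P134E
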