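import Mathlib

/-!
# P134E: the first zero on a segment
-/

open Metric Set Filter Topology
open scoped ContDiff

noncomputable section

namespace Vale.Agent.P134E

variable {V : Type} [NormedAddCommGroup V] [NormedSpace ℝ V]

/-- the first time in `[a, b]` at which `Φ (y, ·)` is not positive, or `b` -/
def fz (Φ : V × ℝ → ℝ) (a b : ℝ) (y : V) : ℝ := sInf ({t | t ∈ Icc a b ∧ Φ (y, t) ≤ 0} ∪ {b})

variable {Φ : V × ℝ → ℝ} {a b t : ℝ} {y : V}

omit [NormedAddCommGroup V] [NormedSpace ℝ V] in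
theorem fz_bdd (hab : a ≤ b) : a ∈ lowerBounds ({t | t ∈ Icc a b ∧ Φ (y, t) ≤ 0} ∪ {b}) := by
  rintro t (h | rfl)
  exacts [h.1.1, hab]

omit [NormedAddCommGroup V] [NormedSpace ℝ V] in
theorem fz_mem (hab : a ≤ b) : fz Φ a b y ∈ Icc a b :=
  ⟨le_csInf ⟨b, Or.inr rfl⟩ (fz_bdd hab), csInf_le ⟨a, fz_bdd hab⟩ (Or.inr rfl)⟩

omit [NormedAddCommGroup V] [NormedSpace ℝ V] in
theorem fz_le (ht : t ∈ Icc a b) (h : Φ (y, t) ≤ 0) : fz Φ a b y ≤ t :=
  csInf_le ⟨a, fz_bdd (ht.1.trans ht.2)⟩ (Or.inl ⟨ht, h⟩)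

omit [NormedAddCommGroup V] [NormedSpace ℝ V] in
theorem fz_pos (hab : a ≤ b) (h1 : a ≤ t) (h2 : t < fz Φ a b y) : 0 < Φ (y, t) :=
  not_le.1 fun k => h2.not_ge (fz_le ⟨h1, h2.le.trans (fz_mem hab).2⟩ k)

omit [NormedAddCommGroup V] [NormedSpace ℝ V] in
theorem le_fz (ht : t ∈ Icc a b) (h : ∀ s ∈ Ico a t, 0 < Φ (y, s)) : t ≤ fz Φ a b y := by
  refine le_csInf ⟨b, Or.inr rfl⟩ ?_
  rintro s (k | rfl)
  · exact not_lt.1 fun l => (h s ⟨k.1.1, l⟩).not_ge k.2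
  · exact ht.2

omit [NormedAddCommGroup V] [NormedSpace ℝ V] in
theorem fz_zero (hab : a ≤ b) (hc : ContinuousOn (fun t => Φ (y, t)) (Icc a b))
    (ha : 0 < Φ (y, a)) (hb : fz Φ a b y < b) : a < fz Φ a b y ∧ Φ (y, fz Φ a b y) = 0 := by
  have c : IsClosed ({t | t ∈ Icc a b ∧ Φ (y, t) ≤ 0} ∪ {b}) :=
    (hc.preimage_isClosed_of_isClosed isClosed_Icc isClosed_Iic).union isClosed_singleton
  have h1 : Φ (y, fz Φ a b y) ≤ 0 :=
    ((c.csInf_mem ⟨b, Or.inr rfl⟩ ⟨a, fz_bdd hab⟩).resolve_right hb.ne).2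
  have h2 : a < fz Φ a b y := (fz_mem hab).1.lt_of_ne fun k => by
    rw [← k] at h1
    exact ha.not_ge h1
  refine ⟨h2, h1.antisymm ?_⟩
  have h3 : ContinuousWithinAt (fun t => Φ (y, t)) (Ico a (fz Φ a b y)) (fz Φ a b y) :=
    (hc _ (fz_mem hab)).mono fun s hs => ⟨hs.1, hs.2.le.trans hb.le⟩
  have := right_nhdsWithin_Ico_neBot h2
  exact ge_of_tendsto h3 (eventually_nhdsWithin_of_forall fun s hs => (fz_pos hab hs.1 hs.2).le)

omit [NormedSpace ℝ V] in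
theorem fz_lower (hab : a ≤ b) (hc : ∀ t ∈ Icc a b, ContinuousAt Φ (y, t)) (ht : t < fz Φ a b y) :
    ∀ᶠ w in 𝓝 y, t < fz Φ a b w := by
  obtain ⟨s, s1, s2⟩ := exists_between ht
  rcases lt_or_ge s a with k | k
  · exact Eventually.of_forall fun w => (s1.trans k).trans_le (fz_mem hab).1
  have s3 := s2.le.trans (fz_mem hab).2
  have : ∀ᶠ w in 𝓝 y, ∀ r ∈ Icc a s, 0 < Φ (w, r) :=
    isCompact_Icc.eventually_forall_of_forall_eventually fun r hr =>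
      (hc r ⟨hr.1, hr.2.trans s3⟩).eventually (lt_mem_nhds (fz_pos hab hr.1 (hr.2.trans_lt s2)))
  filter_upwards [this] with w hw
  exact s1.trans_le (le_fz ⟨k, s3⟩ fun r hr => hw r ⟨hr.1, hr.2.le⟩)

omit [NormedSpace ℝ V] in
/-- continuity of the first zero -/
theorem fz_cont (hab : a ≤ b) (hc : ∀ t ∈ Icc a b, ContinuousAt Φ (y, t)) (ha : 0 < Φ (y, a))
    (hd : fz Φ a b y < b → deriv (fun t => Φ (y, t)) (fz Φ a b y) < 0) :
    ContinuousAt (fz Φ a b) y := by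
  refine tendsto_order.2 ⟨fun t => fz_lower hab hc, fun t ht => ?_⟩
  rcases (fz_mem (Φ := Φ) (y := y) hab).2.eq_or_lt with k | k
  · exact Eventually.of_forall fun w => (fz_mem hab).2.trans_lt (k ▸ ht)
  have c : ContinuousOn (fun t => Φ (y, t)) (Icc a b) := fun r hr =>
    ((hc r hr).comp (f := fun t => (y, t)) (by fun_prop)).continuousWithinAt
  obtain ⟨z1, z2⟩ := fz_zero hab c ha k
  have h1 := ((hasDerivAt_iff_tendsto_slope.1 (differentiableAt_of_deriv_ne_zero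
    (hd k).ne).hasDerivAt).mono_left (nhdsGT_le_nhdsNE _)).eventually (gt_mem_nhds (hd k))
  obtain ⟨s, s1, s2⟩ := (h1.and (Ioo_mem_nhdsGT (lt_min ht k))).exists
  rw [slope_def_field, z2, sub_zero, div_lt_iff₀ (sub_pos.2 s2.1), zero_mul] at s1
  have s3 : s ∈ Icc a b := ⟨(z1.trans s2.1).le, (s2.2.trans_le (min_le_right _ _)).le⟩
  filter_upwards [((hc s s3).comp (f := fun w => (w, s)) (by fun_prop)).eventually
    (gt_mem_nhds s1)] with w hw
  exact (fz_le s3 hw.le).trans_lt (s2.2.trans_le (min_le_left _ _))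

theorem d_t (h : DifferentiableAt ℝ Φ (y, t)) :
    HasDerivAt (fun t => Φ (y, t)) (fderiv ℝ Φ (y, t) (0, 1)) t :=
  h.hasFDerivAt.comp_hasDerivAt t ((hasDerivAt_const t y).prodMk (hasDerivAt_id t))

/-- smoothness of the first zero, with its derivative -/
theorem fz_smooth [CompleteSpace V] {n : WithTop ℕ∞} (hn : n ≠ 0) (hab : a ≤ b)
    (hc : ∀ t ∈ Icc a b, ContDiffAt ℝ n Φ (y, t)) (ha : 0 < Φ (y, a)) (hb : fz Φ a b y < b)
    (hd : fderiv ℝ Φ (y, fz Φ a b y) (0, 1) < 0) : ContDiffAt ℝ n (fz Φ a b) y ∧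
      (∀ᶠ w in 𝓝 y, fz Φ a b w < b ∧ Φ (w, fz Φ a b w) = 0) ∧ ∀ v, fderiv ℝ (fz Φ a b) y v =
        -fderiv ℝ Φ (y, fz Φ a b y) (v, 0) / fderiv ℝ Φ (y, fz Φ a b y) (0, 1) := by
  have m := fz_mem (Φ := Φ) (y := y) hab
  have d := (hc _ m).differentiableAt hn
  have c := fz_cont hab (fun t ht => (hc t ht).continuousAt) ha fun _ => (d_t d).deriv ▸ hd
  have c1 : ∀ᶠ w in 𝓝 y, ∀ r ∈ Icc a b, ContinuousAt Φ (w, r) :=
    isCompact_Icc.eventually_forall_of_forall_eventually fun r hr =>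
      (((hc r hr).of_le (ENat.one_le_iff_ne_zero_withTop.2 hn)).eventually (by simp)).mono
        fun _ k => k.continuousAt
  have c2 : ∀ᶠ w in 𝓝 y, 0 < Φ (w, a) :=
    ((hc a ⟨le_rfl, hab⟩).continuousAt.comp (f := fun w => (w, a)) (by fun_prop)).eventually
      (lt_mem_nhds ha)
  have z : ∀ᶠ w in 𝓝 y, fz Φ a b w < b ∧ Φ (w, fz Φ a b w) = 0 := by
    filter_upwards [c1, c2, c.eventually (gt_mem_nhds hb)] with w k1 k2 k3
    exact ⟨k3, (fz_zero hab (fun r hr => ((k1 r hr).comp (f := fun t => (w, t))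
      (by fun_prop)).continuousWithinAt) k2 k3).2⟩
  have i : (fderiv ℝ Φ (y, fz Φ a b y) ∘L .inr ℝ V ℝ).IsInvertible :=
    ⟨ContinuousLinearEquiv.unitsEquivAut ℝ (Units.mk0 _ hd.ne), by ext; simp⟩
  have t : Tendsto (fun w => (w, fz Φ a b w)) (𝓝 y) (𝓝 (y, fz Φ a b y)) :=
    continuousAt_id.prodMk c
  have s : ContDiffAt ℝ n (fz Φ a b) y := by
    refine ((hc _ m).contDiffAt_implicitFunction hn i).congr_of_eventuallyEq ?_
    filter_upwards [z, t.eventually ((hc _ m).eventually_apply_eq_iff_implicitFunction hn i)]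
      with w k1 k2
    exact (k2.1 (k1.2.trans z.self_of_nhds.2.symm)).symm
  refine ⟨s, z, fun v => ?_⟩
  have e := d.hasFDerivAt.comp y ((hasFDerivAt_id y).prodMk (s.differentiableAt hn).hasFDerivAt)
  have e0 : HasFDerivAt (Φ ∘ fun w => (id w, fz Φ a b w)) (0 : V →L[ℝ] ℝ) y :=
    (hasFDerivAt_const (0 : ℝ) y).congr_of_eventuallyEq (z.mono fun w k => k.2)
  have e1 : fderiv ℝ Φ (y, fz Φ a b y) (v, fderiv ℝ (fz Φ a b) y v) = 0 :=
    congrArg (fun T : V →L[ℝ] ℝ => T v) (e.unique e0)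
  rw [show (v, fderiv ℝ (fz Φ a b) y v) = (v, 0) + fderiv ℝ (fz Φ a b) y v • ((0 : V), (1 : ℝ)) by
    simp, map_add, map_smul, smul_eq_mul] at e1
  rw [eq_div_iff hd.ne]
  linarith

/-- a smooth function of the first zero which vanishes near `b` is smooth -/
theorem fz_comp [CompleteSpace V] {n : WithTop ℕ∞} (hn : n ≠ 0) (hab : a ≤ b)
    (hc : ∀ t ∈ Icc a b, ContDiffAt ℝ n Φ (y, t)) (ha : 0 < Φ (y, a))
    (hd : fz Φ a b y < b → fderiv ℝ Φ (y, fz Φ a b y) (0, 1) < 0) {F : ℝ → ℝ} {c : ℝ}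
    (hF : ContDiff ℝ n F) (hcb : c < b) (h0 : ∀ t, c ≤ t → F t = 0) :
    ContDiffAt ℝ n (fun w => F (fz Φ a b w)) y := by
  rcases (fz_mem (Φ := Φ) (y := y) hab).2.eq_or_lt with k | k
  · refine (contDiffAt_const (c := (0 : ℝ))).congr_of_eventuallyEq ?_
    filter_upwards [fz_lower hab (fun t ht => (hc t ht).continuousAt) (k ▸ hcb)] with w hw
    exact h0 _ hw.le
  · exact hF.contDiffAt.comp y (fz_smooth hn hab hc ha k (hd k)).1

end Vale.Agent.P134E
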