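import Vale.Agent.P134E.Defs
import Vale.Agent.P134E.RegZ

/-!
# P134E: the regularity of the gap
-/

open MeasureTheory Metric Filter Topology Set
open scoped ContDiff RealInnerProductSpace
open Vale.Agent.P366.Stmt (E)

noncomputable section

namespace Vale.Agent.P134E

open Vale.Agent.P134B

variable {n : ℕ} {C G : ℝ} {u : E n → ℝ}

theorem gp_eq (hG : 2 ≤ G) : gp u G = fz (fun z => u (ray u z)) 2 G := by
  funext y
  refine le_antisymm (le_csInf ⟨G, Or.inr rfl⟩ ?_) (le_csInf ⟨G, hG, Or.inr le_rfl⟩ ?_)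
  · rintro t (h | rfl)
    · exact csInf_le ⟨2, fun _ k => k.1⟩ ⟨h.1.1, Or.inl h.2⟩
    · exact csInf_le ⟨2, fun _ k => k.1⟩ ⟨hG, Or.inr le_rfl⟩
  · intro t h
    rcases le_total G t with k | k
    · exact (fz_mem hG).2.trans k
    · rcases h.2 with l | l
      · exact fz_le ⟨h.1, k⟩ l
      · exact (fz_mem hG).2.trans l

theorem d_ray {y : E n} {t : ℝ} (hu : DifferentiableAt ℝ u (ray u (y, t))) :
    HasDerivAt (fun t => u (ray u (y, t))) ⟪gradient u (ray u (y, t)), nu u y⟫ t := by
  have h1 : HasDerivAt (fun t : ℝ => ray u (y, t)) (nu u y) t := by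
    simpa [ray] using ((hasDerivAt_id t).smul_const (nu u y)).const_add y
  rw [gradient, InnerProductSpace.toDual_symm_apply]
  exact hu.hasFDerivAt.comp_hasDerivAt t h1

theorem greg : rGREG := by
  intro tgc n C G u ok hG
  obtain ⟨-, -, -, T, -⟩ := tgc n C u ok
  have cu := ok.sm.continuous
  have du : ∀ x, DifferentiableAt ℝ u x := ok.sm.differentiable (by simp)
  have f0 : ∀ x, 0 < ff u x := fun x => lt_of_lt_of_le (by positivity) (ok.flo x)
  have ds : ∀ y t, HasDerivAt (fun t => u (ray u (y, t))) (ff u (ray u (y, t)) * sl u (y, t)) t :=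
    fun y t => by
      have := d_ray (du (ray u (y, t)))
      rwa [ok.gu, real_inner_smul_left] at this
  have sm : ∀ y, pp u y ≠ 0 → ∀ t, ContDiffAt ℝ ∞ (fun z => u (ray u z)) (y, t) := fun y hy t =>
    ok.sm.contDiffAt.comp (y, t) ((T y hy).2.2.2.2.1 t)
  have low : ∀ y, pp u y ≠ 0 → ∀ a, a < gp u G y → ∀ᶠ y' in 𝓝 y, a < gp u G y' := fun y hy a => by
    rw [gp_eq hG]
    exact fz_lower hG fun t _ => (sm y hy t).continuousAt
  refine ⟨?_, fun y => ?_⟩
  · have cp : Continuous (pp u) := (P366W.smooth_gradient ok.smp).continuous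
    refine measurable_of_Ioi fun a => ?_
    have h1 : IsOpen {y | pp u y ≠ 0 ∧ a < gp u G y} := isOpen_iff_mem_nhds.2 fun y hy =>
      (cp.continuousAt.eventually_ne hy.1).and (low y hy.1 a hy.2)
    have h2 : gp u G ⁻¹' Ioi a = {y | pp u y ≠ 0 ∧ a < gp u G y} ∪
        {y | pp u y = 0 ∧ a < if u y ≤ 0 then 2 else G} := by
      ext y
      by_cases k : pp u y = 0
      · have r : ∀ t, ray u (y, t) = y := fun t => by simp [ray, nu, k]
        have : gp u G y = if u y ≤ 0 then 2 else G := by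
          rw [gp_eq hG]
          split_ifs with l
          · exact le_antisymm (fz_le ⟨le_rfl, hG⟩ (by rwa [r])) (fz_mem hG).1
          · exact le_antisymm (fz_mem hG).2 (le_fz ⟨hG, le_rfl⟩ fun s _ => by
              rw [r]
              exact not_le.1 l)
        simp [k, this]
      · simp [k]
    rw [h2]
    have h3 : MeasurableSet {y | a < if u y ≤ 0 then 2 else G} :=
      measurableSet_lt measurable_const (Measurable.ite
        (isClosed_le cu continuous_const).measurableSet measurable_const measurable_const)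
    exact h1.measurableSet.union ((isClosed_eq cp continuous_const).measurableSet.inter h3)
  have c : ContinuousOn (fun t => u (ray u (y, t))) (Icc 2 G) := fun t _ =>
    (ds y t).continuousAt.continuousWithinAt
  have e := congrFun (gp_eq (u := u) hG) y
  have m : gp u G y ∈ Icc 2 G := e ▸ fz_mem hG
  have pos : ∀ t, 2 ≤ t → t < gp u G y → 0 < u (ray u (y, t)) := fun t h1 h2 =>
    fz_pos (Φ := fun z => u (ray u z)) hG h1 (e ▸ h2)
  have le : ∀ t, 2 ≤ t → u (ray u (y, t)) ≤ 0 → gp u G y ≤ t := fun t h1 h2 =>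
    csInf_le ⟨2, fun _ k => k.1⟩ ⟨h1, Or.inl h2⟩
  refine ⟨m.1, m.2, pos, le, fun G' h1 h2 => ?_, fun h1 h2 => ?_, fun hy => ⟨low y hy, ?_⟩⟩
  · rw [gp_eq h1]
    refine le_antisymm (le_min (le_csInf ⟨G, hG, Or.inr le_rfl⟩ fun t h => ?_) (fz_mem h1).2)
      (le_fz ⟨le_min m.1 h1, min_le_right _ _⟩ fun s hs =>
        pos s hs.1 (hs.2.trans_le (min_le_left _ _)))
    rcases le_total G' t with k | k
    · exact (fz_mem h1).2.trans k
    · rcases h.2 with l | l
      · exact fz_le ⟨h.1, k⟩ l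
      · exact (fz_mem h1).2.trans (h2.trans l)
  · obtain ⟨z1, z2⟩ := fz_zero (Φ := fun z => u (ray u z)) hG c h2 (e ▸ h1)
    rw [← e] at z1 z2
    refine ⟨z2, nonpos_of_mul_nonpos_right ?_ (f0 (ray u (y, gp u G y)))⟩
    have k := (hasDerivAt_iff_tendsto_slope.1 (ds y (gp u G y))).mono_left (nhdsLT_le_nhdsNE _)
    refine le_of_tendsto k (mem_of_superset (Ioo_mem_nhdsLT z1) fun s hs => ?_)
    rw [mem_ofPred_eq, slope_def_field, z2, sub_zero]
    exact div_nonpos_of_nonneg_of_nonpos (pos s hs.1.le hs.2).le (sub_nonpos.2 hs.2.le)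
  · intro h1 h2 h3
    obtain ⟨-, s1, -, -, s2, -, -, -, s3, -, s4⟩ := T y hy
    have d := (sm y hy (gp u G y)).differentiableAt (by simp)
    have d1 : fderiv ℝ (fun z => u (ray u z)) (y, gp u G y) (0, 1) =
        ff u (ray u (y, gp u G y)) * sl u (y, gp u G y) := (d_t d).unique (ds y _)
    obtain ⟨k1, -, k2⟩ := fz_smooth (Φ := fun z => u (ray u z)) (n := ∞) (by simp) hG
      (fun t _ => sm y hy t) h2 (e ▸ h1) (by
        rw [← e, d1]
        exact mul_neg_of_pos_of_neg (f0 _) h3)
    rw [← gp_eq hG] at k1 k2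
    refine ⟨k1.of_le (by simp), ext_inner_right ℝ fun v => ?_⟩
    have d2 : ∀ w, fderiv ℝ (fun z => u (ray u z)) (y, gp u G y) (w, 0) =
        ff u (ray u (y, gp u G y)) * ⟪pp u (ray u (y, gp u G y)),
          w + gp u G y • fderiv ℝ (nu u) y w⟫ := fun w => by
      have a1 : HasFDerivAt (fun x => ray u (x, gp u G y))
          (ContinuousLinearMap.id ℝ _ + gp u G y • fderiv ℝ (nu u) y) y :=
        (hasFDerivAt_id y).add ((s1.differentiableAt (by simp)).hasFDerivAt.const_smul (gp u G y))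
      have a3 := d.hasFDerivAt.comp y (f := fun x => (x, gp u G y))
        ((hasFDerivAt_id y).prodMk (hasFDerivAt_const (gp u G y) y))
      have a2 := ((du _).hasFDerivAt.comp y a1).unique a3
      refine (congrArg (fun A : E n →L[ℝ] ℝ => A w) a2).symm.trans ?_
      rw [← real_inner_smul_left, ← ok.gu, gradient, InnerProductSpace.toDual_symm_apply]
      rfl
    rw [(s3 _ _).1, gradient, InnerProductSpace.toDual_symm_apply, k2, d1, d2, Vg,
      real_inner_smul_left, inner_add_left, real_inner_smul_left, (s3 _ _).1, (s3 _ _).2,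
      inner_add_right, inner_smul_right, s4]
    have := (f0 (ray u (y, gp u G y))).ne'
    have := h3.ne
    rw [show (‖pp u y‖⁻¹ • (Pj u y ∘L SS u y)) (Pj u y v) = BB u y v from rfl]
    field_simp

end Vale.Agent.P134E
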