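import Vale.Agent.P134E.Spec
import Vale.Agent.P134T.Calc

/-!
# P134E: the gap is at least logarithmic
-/

open MeasureTheory Metric Filter Topology Set
open scoped ContDiff RealInnerProductSpace
open Vale.Agent.P366.Stmt (E)

noncomputable section

namespace Vale.Agent.P134E

open Vale.Agent.P134B

namespace Low

theorem vec {n : ℕ} {p a b : E n} (h0 : ⟪p, a⟫ = 0) (h1 : ‖p‖ ≤ 1) (h2 : ‖a - b‖ ≤ 1 / 8)
    (h3 : 1 / 2 ≤ ‖b‖) (h4 : ‖p - ⟪p, ‖b‖⁻¹ • b⟫ • ‖b‖⁻¹ • b‖ ≤ 1 / 4) : 3 / 4 ≤ 1 - ‖p‖ ^ 2 := by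
  have a1 : |⟪p, b⟫| ≤ 1 / 8 := by
    rw [show ⟪p, b⟫ = -⟪p, a - b⟫ by simp [inner_sub_right, h0], abs_neg]
    exact (abs_real_inner_le_norm _ _).trans ((mul_le_of_le_one_left (norm_nonneg _) h1).trans h2)
  have a2 : ‖⟪p, ‖b‖⁻¹ • b⟫ • ‖b‖⁻¹ • b‖ ≤ 1 / 4 := by
    rw [norm_smul, norm_smul, norm_inv, norm_norm, inv_mul_cancel₀ (by linarith), mul_one,
      real_inner_smul_right, Real.norm_eq_abs, abs_mul, abs_of_nonneg (by positivity),
      inv_mul_le_iff₀ (by linarith)]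
    linarith
  nlinarith [norm_nonneg p, norm_sub_norm_le p (⟪p, ‖b‖⁻¹ • b⟫ • ‖b‖⁻¹ • b)]

theorem ex2 : Real.exp (-2) ≤ 1 / 3 := by
  rw [Real.exp_neg, one_div]
  exact inv_anti₀ (by norm_num) (by linarith [Real.add_one_le_exp 2])

theorem num {ε g : ℝ} (e0 : 0 < ε) (h : 3 / 4 ≤ (√2 * Real.exp (√2 * ((1 + g) / 2)) * ε) ^ 2) :
    √2 * lg ε - 3 ≤ g := by
  have a6 : (√2 * Real.exp (√2 * ((1 + g) / 2)) * ε) ^ 2 =
      2 * Real.exp (√2 * (1 + g) - 2 * lg ε) := by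
    rw [mul_pow, mul_pow, Real.sq_sqrt (by norm_num), ← Real.exp_log e0, lg, Real.log_exp,
      ← Real.exp_nat_mul, ← Real.exp_nat_mul, mul_assoc, ← Real.exp_add]
    congr 2
    push_cast
    ring
  have a7 : -2 ≤ √2 * (1 + g) - 2 * lg ε := Real.exp_le_exp.1 (by linarith [ex2])
  have a8 := Real.mul_self_sqrt (zero_le_two (α := ℝ))
  have r2 : √2 ≤ 2 := Real.sqrt_le_iff.2 ⟨by norm_num, by norm_num⟩
  have := mul_le_mul_of_nonneg_left a7 (Real.sqrt_nonneg 2)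
  rw [mul_sub, ← mul_assoc, a8] at this
  linarith

/-- a point of the ray where the slope vanishes -/
theorem mid {n : ℕ} {C g : ℝ} {u : E n → ℝ} {y : E n} (ok : Ok C u) (g0 : 0 ≤ g)
    (z0 : u (ray u (y, g)) = 0) (s1 : sl u (y, g) ≤ 0) (h : |ps u y| ≤ 1) :
    ∃ x, ‖x - y‖ ≤ g ∧ ⟪pp u x, pp u y⟫ = 0 ∧ |ps u x| ≤ (1 + g) / 2 := by
  have n1 : ‖nu u y‖ ≤ 1 := by
    rw [nu, norm_smul, norm_inv, norm_norm]
    exact inv_mul_le_one
  have s0 : 0 ≤ sl u (y, 0) := by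
    simp only [sl, ray, nu, zero_smul, add_zero, real_inner_smul_right]
    exact mul_nonneg (by positivity) real_inner_self_nonneg
  have sc : Continuous fun t => sl u (y, t) := by
    have := ok.tcp.continuous
    simp only [sl, ray]
    fun_prop
  obtain ⟨t, ⟨t0, t1⟩, ht⟩ := intermediate_value_Icc' g0 sc.continuousOn ⟨s1, s0⟩
  have dr : ∀ a b, b ≤ a → ‖ray u (y, a) - ray u (y, b)‖ ≤ a - b := fun a b h => by
    rw [show ray u (y, a) - ray u (y, b) = (a - b) • nu u y by simp [ray, sub_smul], norm_smul,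
      Real.norm_of_nonneg (by linarith)]
    exact mul_le_of_le_one_right (by linarith) n1
  have d3 := dr t 0 t0
  have p2 := (ok.tlip (ray u (y, t)) (ray u (y, g))).trans (dr g t t1)
  rw [ok.tps_zero.2 z0, zero_sub, abs_neg] at p2
  simp only [show ray u (y, 0) = y by simp [ray], sub_zero] at d3
  refine ⟨ray u (y, t), d3.trans t1, ?_, ?_⟩
  · by_cases h : pp u y = 0
    · simp [h]
    · simpa [sl, nu, real_inner_smul_right, h] using ht
  · linarith [abs_sub_abs_le_abs_sub (ps u (ray u (y, t))) (ps u y), (ok.tlip y _).trans d3]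

end Low

theorem low : rLOW := by
  intro _ hF hT _ hG _ h1 m C
  obtain ⟨K₁, ε₁, e1, hF⟩ := hF (m + 1) C 1
  obtain ⟨ε₂, e2, hT⟩ := hT m C 3 (1 / 4) (by norm_num)
  obtain ⟨K₀, h1⟩ := h1 m C 0
  obtain ⟨β, b0, h1⟩ := h1 K₀ le_rfl 1 one_pos
  have k0 : 0 < |K₁| + 1 := by positivity
  refine ⟨3, min (min β (Real.exp (-2))) (min (min ε₁ ε₂) (1 / (8 * (|K₁| + 1)))),
    by positivity, fun u ε G y ok th hβ hg => ?_⟩
  simp only [le_min_iff] at hβ
  obtain ⟨⟨b1, b2⟩, ⟨b3, b4⟩, b5⟩ := hβ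
  obtain ⟨z0, r1⟩ := h1 u ε G y ok th b1 hg
  obtain ⟨x, d3, a0, p3⟩ := Low.mid ok (zero_le_two.trans ((hG _ C G u ok th.G2).2 y).1) z0
    ((r1 (gp u G y) (by simp)).1.trans (by norm_num)) th.ps
  clear r1 z0
  generalize gp u G y = g at *
  have e0 := th.e0
  have eG : 2 * ε ≤ G * ε := mul_le_mul_of_nonneg_right th.G2 e0.le
  have l2 : 2 ≤ lg ε := le_neg.1 ((Real.log_le_iff_le_exp e0).2 (by linarith))
  have x1 := Low.ex2
  rcases le_or_gt (2 * lg ε) g with hc | hc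
  · linarith [mul_le_mul_of_nonneg_right (Real.sqrt_le_iff.2 ⟨by norm_num, by norm_num⟩ : √2 ≤ 2)
      (zero_le_two.trans l2)]
  have i1 : 3 ≤ 1 / ε := by rw [le_div_iff₀ e0]; linarith
  have i2 : G ≤ 1 / ε := by rw [le_div_iff₀ e0]; linarith
  have i4 : 4 / ε = 4 * (1 / ε) := by ring
  obtain ⟨z, hz, d1, d2⟩ := hF u ε y ok e0 (by linarith)
    (fun x hx => th.gd x (ball_subset_ball (by linarith) hx)) th.ps
  have gz : Gd u ε z (1 / ε) := fun x hx => th.gd x (by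
    rw [mem_ball, dist_eq_norm] at hx ⊢
    linarith [norm_sub_le_norm_sub_add_norm_sub x z y])
  have zn := (hT u ε z ok e0 (by linarith) gz hz x (by
    rw [mem_ball, dist_eq_norm]
    linarith [norm_sub_le_norm_sub_add_norm_sub x y z, norm_sub_rev y z])).t0
  have q1 := ok.tzero_q (gz z (mem_ball_self (by positivity))) hz
  have q2 : ε ^ 2 ≤ 1 / 4 := (pow_le_pow_left₀ e0.le (by linarith : ε ≤ 1 / 2) 2).trans (by norm_num)
  have d4 : K₁ * ε ≤ 1 / 8 := by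
    rw [le_div_iff₀ (by positivity)] at b5
    linarith [mul_le_mul_of_nonneg_right (le_abs_self K₁) e0.le,
      mul_le_mul_of_nonneg_right eG k0.le, mul_pos e0 k0]
  exact Low.num e0 ((Low.vec a0 (ok.tpp_le x) (d2.trans d4) (by linarith [ok.tpp_ge z])
    (zn.trans (div_le_self (by norm_num) (by linarith)))).trans (ok.tcore_q (th.gd x (by
      rw [mem_ball, dist_eq_norm]
      linarith)) p3))

end Vale.Agent.P134E
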