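import Vale.Agent.P134B.Defs

/-!
# P134E: integration by parts and stability on the domain of a local diffeomorphism
-/

open MeasureTheory Metric Set Filter Topology
open scoped ContDiff

set_option linter.unusedSectionVars false
set_option linter.unusedVariables false

noncomputable section

namespace Vale.Agent.P134E

section general

variable {V : Type} [NormedAddCommGroup V] [NormedSpace ℝ V] [FiniteDimensional ℝ V]

/-- a local diffeomorphism on the open set `O` -/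
structure Ld (Ψ : V → V) (O : Set V) : Prop where
  op : IsOpen O
  cd : ∀ a ∈ O, ContDiffAt ℝ 1 Ψ a
  iv : ∀ a ∈ O, (fderiv ℝ Ψ a).det ≠ 0

/-- the Jacobian -/
def Jc (Ψ : V → V) (a : V) : ℝ := |(fderiv ℝ Ψ a).det|

/-- the derivative of `F` in the direction `v` of the target -/
def Dp (Ψ : V → V) (F : V → ℝ) (v a : V) : ℝ := fderiv ℝ F a ((fderiv ℝ Ψ a).inverse v)

variable {Ψ : V → V} {O K : Set V} {F : V → ℝ} {a : V}

theorem Ld.eqv (h : Ld Ψ O) (ha : a ∈ O) : ∃ A : V ≃L[ℝ] V, (A : V →L[ℝ] V) = fderiv ℝ Ψ a :=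
  ⟨(fderiv ℝ Ψ a).toContinuousLinearEquivOfDetNeZero (h.iv a ha), by simp⟩

theorem Ld.der (h : Ld Ψ O) (ha : a ∈ O) : HasFDerivAt Ψ (fderiv ℝ Ψ a) a :=
  ((h.cd a ha).differentiableAt one_ne_zero).hasFDerivAt

theorem Ld.chart (h : Ld Ψ O) (ha : a ∈ O) :
    ∃ e : OpenPartialHomeomorph V V, (e : V → V) = Ψ ∧ a ∈ e.source ∧ e.source ⊆ O := by
  have := FiniteDimensional.complete ℝ V
  obtain ⟨A, hA⟩ := h.eqv ha
  exact ⟨((h.cd a ha).toOpenPartialHomeomorph Ψ (hA ▸ h.der ha) one_ne_zero).restrOpen O h.op, rfl,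
    ⟨ContDiffAt.mem_toOpenPartialHomeomorph_source _ _ _, ha⟩, inter_subset_right⟩

theorem Ld.fin (h : Ld Ψ O) (hK : IsCompact K) (KO : K ⊆ O) (z : V) : (K ∩ Ψ ⁻¹' {z}).Finite := by
  choose e e1 e2 e3 using fun a (ha : a ∈ K) => h.chart (KO ha)
  obtain ⟨t, ht⟩ := hK.elim_nhds_subcover' (fun a ha => (e a ha).source)
    fun a ha => (e a ha).open_source.mem_nhds (e2 a ha)
  refine (t.finite_toSet.biUnion (t := fun a => (e a a.2).source ∩ Ψ ⁻¹' {z}) fun a _ =>
    Subsingleton.finite fun x hx y hy => ?_).subset fun x hx => ?_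
  · exact (e a a.2).injOn hx.1 hy.1 (by rw [e1]; exact hx.2.trans hy.2.symm)
  · obtain ⟨a, h1, h2⟩ := mem_iUnion₂.1 (ht hx.1)
    exact mem_biUnion h1 ⟨h2, hx.2⟩

theorem Ld.cinv (h : Ld Ψ O) (ha : a ∈ O) : ContinuousAt (fun a => (fderiv ℝ Ψ a).inverse) a := by
  have := FiniteDimensional.complete ℝ V
  obtain ⟨A, hA⟩ := h.eqv ha
  exact ContinuousAt.comp (g := ContinuousLinearMap.inverse) (f := fderiv ℝ Ψ)
    (hA ▸ (contDiffAt_map_inverse (n := 0) A).continuousAt)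
    ((h.cd a ha).fderiv_right (m := 0) le_rfl).continuousAt

theorem Ld.cJ (h : Ld Ψ O) (ha : a ∈ O) : ContinuousAt (Jc Ψ) a :=
  (ContinuousLinearMap.continuous_det.continuousAt.comp
    ((h.cd a ha).fderiv_right (m := 0) le_rfl).continuousAt).abs

theorem ev0 (hK : IsClosed K) (h0 : ∀ a ∉ K, F a = 0) (ha : a ∉ K) : F =ᶠ[𝓝 a] fun _ => 0 :=
  eventually_of_mem (hK.isOpen_compl.mem_nhds ha) h0

theorem cont_of (hK : IsClosed K) (hc : ∀ a ∈ K, ContinuousAt F a) (h0 : ∀ a ∉ K, F a = 0) :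
    Continuous F := continuous_iff_continuousAt.2 fun a => by
  by_cases ha : a ∈ K
  exacts [hc a ha, continuousAt_const.congr (ev0 hK h0 ha).symm]

theorem Dp0 (hK : IsClosed K) (h0 : ∀ a ∉ K, F a = 0) (v : V) : ∀ a ∉ K, Dp Ψ F v a = 0 :=
  fun _ ha => by simp [Dp, (ev0 hK h0 ha).fderiv_eq]

theorem Ld.cD (h : Ld Ψ O) (hK : IsClosed K) (KO : K ⊆ O) (hF : ContDiff ℝ 1 F)
    (h0 : ∀ a ∉ K, F a = 0) (v : V) : Continuous (Dp Ψ F v) :=
  cont_of hK (fun a ha => (hF.continuous_fderiv one_ne_zero).continuousAt.clm_apply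
    ((h.cinv (KO ha)).clm_apply continuousAt_const)) (Dp0 hK h0 v)

/-- reduction to functions with small support -/
theorem induct (hK : IsCompact K) {k : WithTop ℕ∞} (hk : k ≤ ∞) {Q : (V → ℝ) → Prop}
    (zero : Q fun _ => 0)
    (add : ∀ F G, ContDiff ℝ k F → ContDiff ℝ k G → Q F → Q G → Q fun a => F a + G a)
    (loc : ∀ a ∈ K, ∃ r > (0 : ℝ), ∀ F, ContDiff ℝ k F → (∀ x ∉ K, F x = 0) →
      (∀ x ∉ closedBall a r, F x = 0) → Q F) (hF : ContDiff ℝ k F) (h0 : ∀ x ∉ K, F x = 0) :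
    Q F := by
  classical
  choose r r0 hr using loc
  obtain ⟨t, ht⟩ := hK.elim_nhds_subcover' (fun a ha => ball a (r a ha / 2))
    fun a ha => ball_mem_nhds _ (half_pos (r0 a ha))
  replace ht : ∀ x, F x ≠ 0 → ∃ a ∈ t, x ∈ ball a.1 (r a a.2 / 2) := fun x hx => by
    simpa using ht (not_not.1 fun k => hx (h0 x k))
  induction t using Finset.induction_on generalizing F with
  | empty => rwa [show F = fun _ => 0 from funext fun x => by
      by_contra h; simpa using ht x h]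
  | insert a t _ ih =>
    let χ : ContDiffBump a.1 := ⟨_, _, half_pos (r0 a a.2), half_lt_self (r0 a a.2)⟩
    have c : ContDiff ℝ k χ := (χ.contDiff (n := ⊤)).of_le hk
    rw [show F = fun x => F x * χ x + F x * (1 - χ x) from funext fun x => by ring]
    refine add _ _ (hF.mul c) (hF.mul (contDiff_const.sub c))
      (hr a a.2 _ (hF.mul c) (fun x hx => by simp [h0 x hx]) fun x hx => ?_)
      (ih (hF.mul (contDiff_const.sub c)) (fun x hx => by simp [h0 x hx]) fun x hx => ?_)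
    · rw [χ.zero_of_le_dist (not_le.1 hx).le, mul_zero]
    · obtain ⟨b, hb, k⟩ := ht x (left_ne_zero_of_mul hx)
      rcases Finset.mem_insert.1 hb with rfl | hb
      · exact (hx (by rw [χ.one_of_mem_closedBall (ball_subset_closedBall k)]; simp)).elim
      · exact ⟨b, hb, k⟩

/-- the sum over the fibre -/
def Pu (hf : ∀ z, (K ∩ Ψ ⁻¹' {z}).Finite) (F : V → ℝ) (z : V) : ℝ := ∑ a ∈ (hf z).toFinset, F a

variable {hf : ∀ z, (K ∩ Ψ ⁻¹' {z}).Finite}

theorem Pu_add (F G : V → ℝ) : Pu hf (fun a => F a + G a) = fun z => Pu hf F z + Pu hf G z :=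
  funext fun _ => Finset.sum_add_distrib

theorem Pu_zero : Pu hf (fun _ => 0) = fun _ => 0 := funext fun _ => Finset.sum_const_zero

theorem Pu_out {z : V} (hz : z ∉ Ψ '' K) : Pu hf F z = 0 :=
  Finset.sum_eq_zero fun a ha => by
    rw [Finite.mem_toFinset] at ha
    exact (hz ⟨a, ha.1, ha.2⟩).elim

theorem Pu_loc {e : OpenPartialHomeomorph V V} (he : (e : V → V) = Ψ) {B : Set V}
    (hB : B ⊆ e.source) (h0 : ∀ x ∉ K, F x = 0) (h1 : ∀ x ∉ B, F x = 0) (z : V) :
    (z ∈ e.target → Pu hf F z = F (e.symm z)) ∧ (z ∉ Ψ '' B → Pu hf F z = 0) := by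
  refine ⟨fun hz => Finset.sum_eq_single _ (fun b hb n => h1 b fun k => n ?_) fun k => h0 _ fun j =>
    k ?_, fun hz => Finset.sum_eq_zero fun a ha => h1 a fun k => hz ⟨a, k, ?_⟩⟩
  · rw [Finite.mem_toFinset] at hb
    rw [← show Ψ b = z from hb.2, ← he, e.left_inv (hB k)]
  · exact (Finite.mem_toFinset _).2 ⟨j, by rw [← he]; exact e.right_inv hz⟩
  · exact ((Finite.mem_toFinset _).1 ha).2

theorem Ld.loc (h : Ld Ψ O) (ha : a ∈ O) : ∃ r > (0 : ℝ), ∃ e : OpenPartialHomeomorph V V,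
    (e : V → V) = Ψ ∧ closedBall a r ⊆ e.source ∧ e.source ⊆ O ∧ IsClosed (Ψ '' closedBall a r) ∧
      Ψ '' closedBall a r ⊆ e.target := by
  have := FiniteDimensional.proper_real V
  obtain ⟨e, e1, e2, e3⟩ := h.chart ha
  obtain ⟨r, r0, hr⟩ := nhds_basis_closedBall.mem_iff.1 (e.open_source.mem_nhds e2)
  refine ⟨r, r0, e, e1, hr, e3, ((isCompact_closedBall a r).image_of_continuousOn
    fun x hx => (h.cd x (e3 (hr hx))).continuousAt.continuousWithinAt).isClosed, ?_⟩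
  rintro _ ⟨x, hx, rfl⟩
  exact e1 ▸ e.map_source (hr hx)

theorem Ld.push1 (h : Ld Ψ O) (hK : IsCompact K) (KO : K ⊆ O) (hF : ContDiff ℝ 1 F)
    (h0 : ∀ x ∉ K, F x = 0) :
    ContDiff ℝ 1 (Pu hf F) ∧ ∀ v z, fderiv ℝ (Pu hf F) z v = Pu hf (Dp Ψ F v) z := by
  have := FiniteDimensional.complete ℝ V
  refine induct hK (by simp) (Q := fun F => ContDiff ℝ 1 (Pu hf F) ∧
    ∀ v z, fderiv ℝ (Pu hf F) z v = Pu hf (Dp Ψ F v) z) ?_ ?_ ?_ hF h0
  · refine ⟨by rw [Pu_zero]; exact contDiff_const, fun v z => ?_⟩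
    rw [Pu_zero, show Dp Ψ (fun _ => 0) v = fun _ => 0 from funext fun a => by simp [Dp], Pu_zero]
    simp
  · rintro F G hF hG ⟨a1, a2⟩ ⟨b1, b2⟩
    refine ⟨by rw [Pu_add]; exact a1.add b1, fun v z => ?_⟩
    rw [Pu_add, fderiv_fun_add (a1.differentiable one_ne_zero z) (b1.differentiable one_ne_zero z),
      show Dp Ψ (fun a => F a + G a) v = fun a => Dp Ψ F v a + Dp Ψ G v a from funext fun a => by
        simp [Dp, fderiv_fun_add (hF.differentiable one_ne_zero a)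
          (hG.differentiable one_ne_zero a)], Pu_add]
    simp [a2, b2]
  · intro a ha
    obtain ⟨r, r0, e, e1, e2, e3, e4, e5⟩ := h.loc (KO ha)
    refine ⟨r, r0, fun F hF h0 h1 => ?_⟩
    have key : ∀ z, ContDiffAt ℝ 1 (Pu hf F) z ∧
        ∀ v, fderiv ℝ (Pu hf F) z v = Pu hf (Dp Ψ F v) z := fun z => by
      have k := fun v => Pu_loc (hf := hf) e1 e2 (Dp0 (Ψ := Ψ) hK.isClosed h0 v)
        (Dp0 isClosed_closedBall h1 v) z
      by_cases hz : z ∈ e.target
      · have m := e3 (e.map_target hz)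
        obtain ⟨A, hA⟩ := h.eqv m
        have d : HasFDerivAt e (A : V →L[ℝ] V) (e.symm z) := by rw [e1, hA]; exact h.der m
        have ev : Pu hf F =ᶠ[𝓝 z] fun z => F (e.symm z) :=
          eventually_of_mem (e.open_target.mem_nhds hz) fun w hw => (Pu_loc e1 e2 h0 h1 w).1 hw
        refine ⟨(hF.contDiffAt.comp z (e.contDiffAt_symm hz d (e1 ▸ h.cd _ m))).congr_of_eventuallyEq
          ev, fun v => ?_⟩
        rw [ev.fderiv_eq, (k v).1 hz, show fderiv ℝ (fun z => F (e.symm z)) z = _ from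
          ((hF.differentiable one_ne_zero _).hasFDerivAt.comp z (e.hasFDerivAt_symm hz d)).fderiv,
          Dp, ← hA, ContinuousLinearMap.inverse_equiv]
        rfl
      · have n : z ∉ Ψ '' closedBall a r := fun j => hz (e5 j)
        have ev := ev0 e4 (fun w hw => (Pu_loc (hf := hf) e1 e2 h0 h1 w).2 hw) n
        exact ⟨contDiffAt_const.congr_of_eventuallyEq ev, fun v => by
          simp [ev.fderiv_eq, (k v).2 n]⟩
    exact ⟨contDiff_iff_contDiffAt.2 fun z => (key z).1, fun v z => (key z).2 v⟩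

theorem Ld.hcs (h : Ld Ψ O) (hK : IsCompact K) (KO : K ⊆ O) : HasCompactSupport (Pu hf F) :=
  HasCompactSupport.intro (hK.image_of_continuousOn fun x hx =>
    (h.cd x (KO hx)).continuousAt.continuousWithinAt) fun _ => Pu_out

variable [MeasurableSpace V] [BorelSpace V] (μ : Measure V) [μ.IsAddHaarMeasure]

theorem Ld.intJ (h : Ld Ψ O) (hK : IsCompact K) (KO : K ⊆ O) (hF : ∀ a ∈ K, ContinuousAt F a)
    (h0 : ∀ x ∉ K, F x = 0) : Integrable (fun a => F a * Jc Ψ a) μ :=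
  (cont_of hK.isClosed (fun a ha => (hF a ha).mul (h.cJ (KO ha))) fun a ha => by
    simp [h0 a ha]).integrable_of_hasCompactSupport
      (HasCompactSupport.intro hK fun a ha => by simp [h0 a ha])

theorem Ld.push0 (h : Ld Ψ O) (hK : IsCompact K) (KO : K ⊆ O) (hF : Continuous F)
    (h0 : ∀ x ∉ K, F x = 0) :
    Continuous (Pu hf F) ∧ ∫ z, Pu hf F z ∂μ = ∫ a, F a * Jc Ψ a ∂μ := by
  have := FiniteDimensional.proper_real V
  refine (induct hK (k := 0) (by simp) (Q := fun F => (∀ x ∉ K, F x = 0) ∧ Continuous (Pu hf F) ∧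
    ∫ z, Pu hf F z ∂μ = ∫ a, F a * Jc Ψ a ∂μ) ?_ ?_ ?_ (contDiff_zero.2 hF) h0).2
  · rw [Pu_zero]; simp [continuous_const]
  · rintro F G hF hG ⟨a0, a1, a2⟩ ⟨b0, b1, b2⟩
    refine ⟨fun x hx => by simp [a0 x hx, b0 x hx], by rw [Pu_add]; exact a1.add b1, ?_⟩
    simp only [Pu_add, add_mul]
    rw [integral_add (a1.integrable_of_hasCompactSupport (h.hcs hK KO))
      (b1.integrable_of_hasCompactSupport (h.hcs hK KO)), a2, b2, integral_add
      (h.intJ μ hK KO (fun _ _ => hF.continuous.continuousAt) a0)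
      (h.intJ μ hK KO (fun _ _ => hG.continuous.continuousAt) b0)]
  · intro a ha
    obtain ⟨r, r0, e, e1, e2, e3, e4, e5⟩ := h.loc (KO ha)
    refine ⟨r, r0, fun F hF h0 h1 => ⟨h0, continuous_iff_continuousAt.2 fun z => ?_, ?_⟩⟩
    · by_cases hz : z ∈ e.target
      · exact (hF.continuous.continuousAt.comp (e.continuousAt_symm hz)).congr
          (eventually_of_mem (e.open_target.mem_nhds hz) fun w hw =>
            ((Pu_loc e1 e2 h0 h1 w).1 hw).symm)
      · exact continuousAt_const.congr (ev0 e4 (fun w hw =>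
          (Pu_loc (hf := hf) e1 e2 h0 h1 w).2 hw) fun j => hz (e5 j)).symm
    · rw [← setIntegral_eq_integral_of_forall_compl_eq_zero fun w hw =>
        (Pu_loc (hf := hf) e1 e2 h0 h1 w).2 hw, integral_image_eq_integral_abs_det_fderiv_smul μ
        measurableSet_closedBall (fun x hx => (h.der (e3 (e2 hx))).hasFDerivWithinAt)
        (e1 ▸ e.injOn.mono e2), ← setIntegral_eq_integral_of_forall_compl_eq_zero
        (s := closedBall a r) (f := fun a => F a * Jc Ψ a) fun w hw => by rw [h1 w hw, zero_mul]]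
      refine setIntegral_congr_fun measurableSet_closedBall fun x hx => ?_
      rw [(Pu_loc e1 e2 h0 h1 _).1 (e5 ⟨x, hx, rfl⟩), ← e1, e.left_inv (e2 hx), smul_eq_mul,
        mul_comm, Jc]

/-- **PB**: integration by parts on the domain -/
theorem Ld.pb (h : Ld Ψ O) (hK : IsCompact K) (KO : K ⊆ O) (hF : ContDiff ℝ 1 F)
    (h0 : ∀ x ∉ K, F x = 0) (v : V) : ∫ a, Dp Ψ F v a * Jc Ψ a ∂μ = 0 := by
  obtain ⟨a1, a2⟩ := h.push1 (hf := h.fin hK KO) hK KO hF h0
  rw [← (h.push0 (hf := h.fin hK KO) μ hK KO (h.cD hK.isClosed KO hF h0 v)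
    (Dp0 hK.isClosed h0 v)).2]
  simp only [← a2]
  have hc := h.hcs (hf := h.fin hK KO) (F := F) hK KO
  simpa using integral_mul_fderiv_eq_neg_fderiv_mul_of_integrable (μ := μ) (f := fun _ => (1 : ℝ))
    (v := v) (by simp) (by simpa using (((a1.continuous_fderiv one_ne_zero).clm_apply
      continuous_const).integrable_of_hasCompactSupport (hc.fderiv_apply ℝ v)))
    (by simpa using a1.continuous.integrable_of_hasCompactSupport hc) (by simp)
    (fun x _ => a1.differentiable one_ne_zero x)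

end general

open Vale.Agent.P366.Stmt (E)

variable {n : ℕ}

theorem haar : (volume : Measure (E n × ℝ)).IsAddHaarMeasure :=
  Measure.prod.instIsAddHaarMeasure volume volume

/-- the directions of the space -/
def ex (i : Fin n) : E n × ℝ := (EuclideanSpace.single i 1, 0)

theorem slice {Φ : E n × ℝ → ℝ} (h : ContDiff ℝ 1 Φ) (x : E n) (l : ℝ) :
    ‖gradient (fun x => Φ (x, l)) x‖ ^ 2 = ∑ i, fderiv ℝ Φ (x, l) (ex i) ^ 2 := by
  rw [EuclideanSpace.norm_sq_eq]
  refine Finset.sum_congr rfl fun i _ => ?_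
  have := (HasFDerivAt.comp (f := fun x => (x, l)) x (h.differentiable one_ne_zero (x, l)).hasFDerivAt
    (hasFDerivAt_prodMk_left x l)).fderiv
  have e := P366W.inner_grad (fun x => Φ (x, l)) x (EuclideanSpace.single i 1)
  rw [EuclideanSpace.inner_single_right, show fderiv ℝ (fun x => Φ (x, l)) x = _ from this] at e
  simp only [Real.norm_eq_abs, sq_abs]
  congr 1
  simpa [ex] using e

theorem core {c : E n → ℝ} (hc : Continuous c) (st : ∀ φ : E n → ℝ, ContDiff ℝ 1 φ →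
      HasCompactSupport φ → 0 ≤ ∫ x, (‖gradient φ x‖ ^ 2 + c x * φ x ^ 2)) {H R : E n × ℝ → ℝ}
    (a1 : ContDiff ℝ 1 H) (cH : HasCompactSupport H) (b1 : Continuous R) (cR : HasCompactSupport R)
    (H0 : ∀ z, 0 ≤ H z) (R0 : ∀ z, 0 ≤ R z)
    (cs : ∀ z, ∑ i, fderiv ℝ H z (ex i) ^ 2 ≤ 4 * H z * R z) :
    0 ≤ ∫ z, (R z + c z.1 * H z) := by
  have := haar (n := n)
  have cc : Continuous fun z : E n × ℝ => c z.1 := hc.comp continuous_fst
  have iS : Integrable fun z : E n × ℝ => |c z.1| * √(H z) :=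
    (cc.abs.mul a1.continuous.sqrt).integrable_of_hasCompactSupport
      ((cH.comp_left (g := Real.sqrt) Real.sqrt_zero).mul_left)
  have iR : Integrable fun z => R z + c z.1 * H z :=
    (b1.add (cc.mul a1.continuous)).integrable_of_hasCompactSupport (cR.add cH.mul_left)
  have key : ∀ ε > (0 : ℝ), 0 ≤ (∫ z, (R z + c z.1 * H z)) + ε * ∫ z, 2 * (|c z.1| * √(H z)) := by
    intro ε hε
    have p : ∀ z, 0 < ε ^ 2 + H z := fun z => by linarith [H0 z, pow_pos hε 2]
    let Φ : E n × ℝ → ℝ := fun z => √(ε ^ 2 + H z) - ε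
    have c1 : ContDiff ℝ 1 Φ := ((contDiff_const.add a1).sqrt fun z => (p z).ne').sub contDiff_const
    have c2 : HasCompactSupport Φ := cH.comp_left (g := fun t => √(ε ^ 2 + t) - ε)
      (by simp [Real.sqrt_sq hε.le])
    have i1 : ∀ i, Integrable fun z : E n × ℝ => fderiv ℝ Φ z (ex i) ^ 2 := fun i =>
      Continuous.integrable_of_hasCompactSupport (((c1.continuous_fderiv one_ne_zero).clm_apply
        continuous_const).pow 2)
        ((c2.fderiv_apply ℝ (ex i)).comp_left (g := fun t => t ^ 2) (by simp))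
    have i2 : Integrable fun z : E n × ℝ => c z.1 * Φ z ^ 2 :=
      Continuous.integrable_of_hasCompactSupport (cc.mul (c1.continuous.pow 2))
        (c2.comp_left (g := fun t => t ^ 2) (by simp)).mul_left
    have iΦ : Integrable fun z : E n × ℝ => ∑ i, fderiv ℝ Φ z (ex i) ^ 2 + c z.1 * Φ z ^ 2 :=
      (integrable_finsetSum _ fun i _ => i1 i).add i2
    have k1 : 0 ≤ ∫ z : E n × ℝ, (∑ i, fderiv ℝ Φ z (ex i) ^ 2 + c z.1 * Φ z ^ 2) := by
      rw [Measure.volume_eq_prod, integral_prod_symm _ iΦ]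
      refine integral_nonneg fun l => ?_
      simp only [← slice c1]
      exact st _ (c1.comp (contDiff_id.prodMk contDiff_const)) (c2.comp_isClosedEmbedding
        (IsClosedEmbedding.of_continuous_injective_isClosedMap (by fun_prop)
          (fun x y k => (Prod.ext_iff.1 k).1) (isClosedMap_prodMk_right l)))
    rw [← integral_const_mul, ← integral_add iR ((iS.const_mul 2).const_mul ε)]
    refine k1.trans (integral_mono iΦ (iR.add ((iS.const_mul 2).const_mul ε)) fun z => ?_)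
    have s0 := Real.sqrt_pos.2 (p z)
    have s2 := Real.sq_sqrt (p z).le
    have d : ∀ v, fderiv ℝ Φ z v = (2 * √(ε ^ 2 + H z))⁻¹ * fderiv ℝ H z v := fun v => by
      have := ((((a1.differentiable one_ne_zero z).hasFDerivAt.const_add (ε ^ 2)).sqrt
        (p z).ne').sub_const ε).fderiv
      rw [show fderiv ℝ Φ z = _ from this]
      simp
    have R0 := R0 z
    have t1 : ∑ i, fderiv ℝ Φ z (ex i) ^ 2 ≤ R z := by
      simp only [d, mul_pow, ← Finset.mul_sum]
      rw [inv_pow, inv_mul_le_iff₀ (by positivity), mul_pow, s2]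
      nlinarith [cs z, pow_pos hε 2]
    have t2 : 0 ≤ Φ z := sub_nonneg.2 (Real.le_sqrt_of_sq_le (by linarith [H0 z]))
    have t3 : Φ z ≤ √(H z) := sub_le_iff_le_add.2 (Real.sqrt_le_iff.2 ⟨by positivity, by
      nlinarith [Real.sq_sqrt (H0 z), Real.sqrt_nonneg (H z)]⟩)
    have t4 : Φ z ^ 2 = H z - 2 * ε * Φ z := by simp only [Φ]; nlinarith
    have t5 : -c z.1 * Φ z ≤ |c z.1| * √(H z) :=
      mul_le_mul (neg_le_abs _) t3 t2 (abs_nonneg _)
    simp only
    rw [t4]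
    nlinarith
  have l := ((continuous_id.mul continuous_const).const_add (∫ z, (R z + c z.1 * H z)) (f := fun ε : ℝ =>
    ε * ∫ z : E n × ℝ, 2 * (|c z.1| * √(H z)))).continuousAt.tendsto.mono_left
    (nhdsWithin_le_nhds (a := 0) (s := Ioi 0))
  simpa using ge_of_tendsto l (eventually_mem_nhdsWithin.mono key)

/-- **PS**: stability on the domain -/
theorem Ld.ps {Ψ : E n × ℝ → E n × ℝ} {O K : Set (E n × ℝ)} (h : Ld Ψ O) (hK : IsCompact K)
    (KO : K ⊆ O) {c : E n → ℝ} (hc : Continuous c) (st : ∀ φ : E n → ℝ, ContDiff ℝ 1 φ →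
      HasCompactSupport φ → 0 ≤ ∫ x, (‖gradient φ x‖ ^ 2 + c x * φ x ^ 2))
    {ξ : E n × ℝ → ℝ} (hξ : ContDiff ℝ 1 ξ) (h0 : ∀ a ∉ K, ξ a = 0) :
    0 ≤ ∫ a, (∑ i, Dp Ψ ξ (ex i) a ^ 2 + c (Ψ a).1 * ξ a ^ 2) * Jc Ψ a := by
  have := haar (n := n)
  have hf := h.fin hK KO
  have z2 : ∀ a ∉ K, ξ a ^ 2 = 0 := fun a ha => by simp [h0 a ha]
  obtain ⟨a1, a2⟩ := h.push1 (hf := hf) hK KO (hξ.pow 2) z2
  set H := Pu hf fun a => ξ a ^ 2
  have H0 : ∀ z, 0 ≤ H z := fun z => Finset.sum_nonneg fun _ _ => sq_nonneg _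
  have cH : HasCompactSupport H := h.hcs hK KO
  have cD := fun i => h.cD hK.isClosed KO hξ h0 (ex i)
  have zD := fun i => Dp0 (Ψ := Ψ) hK.isClosed h0 (ex i)
  have zR : ∀ a ∉ K, ∑ i, Dp Ψ ξ (ex i) a ^ 2 = 0 := fun a ha => by simp [zD _ a ha]
  have b1 := (h.push0 (hf := hf) (F := fun a => ∑ i, Dp Ψ ξ (ex i) a ^ 2) volume hK KO
    (continuous_finsetSum _ fun i _ => (cD i).pow 2) zR).1
  set R := Pu hf fun a => ∑ i, Dp Ψ ξ (ex i) a ^ 2
  have cR : HasCompactSupport R := h.hcs hK KO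
  have cc : Continuous fun z : E n × ℝ => c z.1 := hc.comp continuous_fst
  have e : (Pu hf fun a => ∑ i, Dp Ψ ξ (ex i) a ^ 2 + c (Ψ a).1 * ξ a ^ 2) =
      fun z => R z + c z.1 * H z := by
    rw [Pu_add]
    funext z
    congr 1
    rw [Pu, show H z = ∑ a ∈ _, _ from rfl, Finset.mul_sum]
    exact Finset.sum_congr rfl fun a ha => by
      rw [show Ψ a = z from ((Finite.mem_toFinset _).1 ha).2]
  rw [← (h.push0 (hf := hf) (F := fun a => ∑ i, Dp Ψ ξ (ex i) a ^ 2 + c (Ψ a).1 * ξ a ^ 2)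
    volume hK KO (cont_of hK.isClosed (fun a ha =>
    (continuous_finsetSum _ fun i _ => (cD i).pow 2).continuousAt.add ((cc.continuousAt.comp
      (h.cd a (KO ha)).continuousAt).mul (hξ.continuous.pow 2).continuousAt))
    fun a ha => by simp [zR a ha, h0 a ha]) fun a ha => by simp [zR a ha, h0 a ha]).2, e]
  have cs : ∀ z, ∑ i, fderiv ℝ H z (ex i) ^ 2 ≤ 4 * H z * R z := fun z => by
    rw [show R z = ∑ a ∈ _, ∑ i, _ from rfl, Finset.sum_comm, Finset.mul_sum]
    refine Finset.sum_le_sum fun i _ => ?_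
    have d : ∀ a, Dp Ψ (fun a => ξ a ^ 2) (ex i) a = 2 * (ξ a * Dp Ψ ξ (ex i) a) := fun a => by
      rw [Dp, show fderiv ℝ (fun a => ξ a ^ 2) a = _ from
        ((hξ.differentiable one_ne_zero a).hasFDerivAt.pow 2).fderiv]
      simp [Dp, mul_assoc]
    have := Finset.sum_mul_sq_le_sq_mul_sq (hf z).toFinset ξ (Dp Ψ ξ (ex i))
    rw [a2, Pu]
    simp only [d, ← Finset.mul_sum]
    rw [show H z = ∑ a ∈ _, _ from rfl]
    linarith
  exact core hc st a1 cH b1 cR H0 (fun z => Finset.sum_nonneg fun _ _ =>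
    Finset.sum_nonneg fun _ _ => sq_nonneg _) cs

end Vale.Agent.P134E
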