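import Vale.Agent.P134E.Defs
import Vale.Agent.P134E.Tube

/-!
# P134E: the map of the tube, the divergence theorem
-/

set_option linter.unusedVariables false

open MeasureTheory Metric Filter Topology Set
open scoped ContDiff RealInnerProductSpace
open Vale.Agent.P366.Stmt (E)
open Vale.Agent.P366W (dvg trc)

noncomputable section

namespace Vale.Agent.P134E

open Vale.Agent.P134B

variable {n : ℕ} {C : ℝ} {u : E n → ℝ} {z : E n × ℝ}

/-- the map of the tube -/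
def Psi (u : E n → ℝ) (z : E n × ℝ) : E n × ℝ := (ray u z, ps u z.1)

theorem Pj_apply (u : E n → ℝ) (y v : E n) : Pj u y v = v - ⟪nu u y, v⟫ • nu u y := by
  simp [Pj]

theorem pp_nu {y : E n} (h : pp u y ≠ 0) : pp u y = ‖pp u y‖ • nu u y := by
  rw [nu, smul_smul, mul_inv_cancel₀ (norm_ne_zero_iff.2 h), one_smul]

theorem psi_cd (h : TGC) (ok : Ok C u) (hz : pp u z.1 ≠ 0) : ContDiffAt ℝ 1 (Psi u) z :=
  ((((h n C u ok).2.2.2.1 z.1 hz).2.2.2.2.1 z.2).of_le (by simp)).prodMk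
    (((ok.smp.of_le (by simp)).comp contDiff_fst).contDiffAt)

theorem psi_fd (h : TGC) (ok : Ok C u) (hz : pp u z.1 ≠ 0) (w : E n × ℝ) :
    fderiv ℝ (Psi u) z w = (w.1 + z.2 • BB u z.1 w.1 +
      ⟪nu u z.1, w.1⟫ • (z.2 • ‖pp u z.1‖⁻¹ • Pj u z.1 (SS u z.1 (nu u z.1))) + w.2 • nu u z.1,
      ‖pp u z.1‖ * ⟪nu u z.1, w.1⟫) := by
  obtain ⟨-, a1, -, -, -, -, -, -, -, -, a2⟩ := (h n C u ok).2.2.2.1 z.1 hz
  have d1 := ((a1.differentiableAt (by simp)).hasFDerivAt.comp z hasFDerivAt_fst)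
  have d2 := ((ok.smp.differentiable (by simp) z.1).hasFDerivAt.comp z hasFDerivAt_fst)
  have d3 := (((hasFDerivAt_fst (p := z)).add ((hasFDerivAt_snd (p := z)).smul d1)).prodMk
    d2).fderiv
  rw [show fderiv ℝ (Psi u) z = _ from d3, a2]
  have e : SS u z.1 w.1 = SS u z.1 (Pj u z.1 w.1) + ⟪nu u z.1, w.1⟫ • SS u z.1 (nu u z.1) := by
    rw [Pj_apply, map_sub, map_smul, sub_add_cancel]
  refine Prod.ext ?_ ?_
  · simp [BB]
    rw [e, map_add, map_smul]
    module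
  · simp
    rw [← P366W.inner_grad, ← real_inner_smul_left, ← pp_nu hz]
    rfl

theorem psi_det (h : TGC) (ok : Ok C u) (hz : pp u z.1 ≠ 0) :
    (fderiv ℝ (Psi u) z).det = -(‖pp u z.1‖ * (1 + z.2 • BB u z.1).det) := by
  obtain ⟨a0, -, -, -, -, a1, a2, a3, a4, -⟩ := (h n C u ok).2.2.2.1 z.1 hz
  set ν := nu u z.1
  set b := z.2 • ‖pp u z.1‖⁻¹ • Pj u z.1 (SS u z.1 ν) with hb
  have hB : ∀ v, ⟪ν, BB u z.1 v⟫ = 0 := fun v => by rw [← (a4 _ _).2, a1, inner_zero_left]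
  have hb0 : ⟪ν, b⟫ = 0 := by
    rw [hb, inner_smul_right, inner_smul_right, real_inner_comm, (a3 _).2.1]; simp
  let f : Module.Dual ℝ (E n × ℝ) := (innerSL ℝ ν).toLinearMap ∘ₗ LinearMap.fst ℝ _ _
  let s : Module.Dual ℝ (E n × ℝ) := LinearMap.snd ℝ _ _
  have e : (fderiv ℝ (Psi u) z).toLinearMap =
      LinearMap.transvection (‖pp u z.1‖ • f - (‖pp u z.1‖ + 1) • s) (0, 1) ∘ₗ
      LinearMap.transvection s (ν, 0) ∘ₗ LinearMap.transvection f (b, 0) ∘ₗ
      LinearMap.prodMap (1 + z.2 • BB u z.1).toLinearMap LinearMap.id := by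
    refine LinearMap.ext fun w => ?_
    rw [ContinuousLinearMap.coe_coe, psi_fd h ok hz]
    refine Prod.ext ?_ ?_
    · simp [LinearMap.transvection.apply, f, s, inner_add_right, inner_smul_right, hB, ν, hb]
    · simp [LinearMap.transvection.apply, f, s, inner_add_right, inner_smul_right, hB, hb0, a0]
      ring
  rw [ContinuousLinearMap.det, e]
  simp only [LinearMap.det_comp, LinearMap.transvection.det, LinearMap.det_prodMap]
  simp [f, s, hb0, ContinuousLinearMap.det]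

theorem psi_jc (h : TGC) (ok : Ok C u) (hz : pp u z.1 ≠ 0) : Jc (Psi u) z = JJ u z := by
  rw [Jc, psi_det h ok hz, abs_neg, abs_mul, abs_norm, JJ]

theorem psi_ld (h : TGC) (ok : Ok C u) : Ld (Psi u) (UU u) := by
  refine ⟨(h n C u ok).1, fun z hz => psi_cd h ok hz.1, fun z hz => ?_⟩
  rw [psi_det h ok hz.1, neg_ne_zero]
  refine mul_ne_zero (norm_ne_zero_iff.2 hz.1) fun k => ?_
  have e : (Ai u z).toLinearMap ∘ₗ (1 + z.2 • BB u z.1).toLinearMap = LinearMap.id :=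
    LinearMap.ext fun v => by simpa using (((h n C u ok).2.2.2.2.1 z hz).1 v).1
  have := congrArg LinearMap.det e
  rw [LinearMap.det_comp, show LinearMap.det (1 + z.2 • BB u z.1).toLinearMap = 0 from k] at this
  simp at this

theorem psi_dp (h : TGC) (ok : Ok C u) (hz : z ∈ UU u) {φ : E n × ℝ → ℝ}
    (hφ : DifferentiableAt ℝ φ z) (a : E n) : Dp (Psi u) φ (a, 0) z = ⟪tg u φ z, a⟫ := by
  obtain ⟨a0, -, -, -, -, a1, a2, a3, a4, -⟩ := (h n C u ok).2.2.2.1 z.1 hz.1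
  obtain ⟨b1, b2, -⟩ := (h n C u ok).2.2.2.2.1 z hz
  obtain ⟨A, hA⟩ := (psi_ld h ok).eqv hz
  have o : ⟪nu u z.1, Ai u z (Pj u z.1 a)⟫ = 0 := by rw [real_inner_comm, (b1 a).2.2]
  have e : (fderiv ℝ (Psi u) z).inverse (a, 0) = (Ai u z (Pj u z.1 a), ⟪nu u z.1, a⟫) := by
    have : fderiv ℝ (Psi u) z (Ai u z (Pj u z.1 a), ⟪nu u z.1, a⟫) = (a, 0) := by
      rw [psi_fd h ok hz.1]
      simp only [o, (b1 _).2.1, zero_smul, add_zero, mul_zero]
      rw [Pj_apply, sub_add_cancel]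
    rw [← this, ← hA]
    simp
  have c : Pj u z.1 (Ai u z a) = Ai u z (Pj u z.1 a) := by
    have k := (b1 (nu u z.1)).1
    rw [a1, smul_zero, add_zero] at k
    have : Ai u z a = Ai u z (Pj u z.1 a) + ⟪nu u z.1, a⟫ • nu u z.1 := by
      rw [Pj_apply, map_sub, map_smul, k, sub_add_cancel]
    rw [this, map_add, map_smul, a2, smul_zero, add_zero, Pj_apply u z.1 (Ai u z _), o, zero_smul,
      sub_zero]
  have d := (HasFDerivAt.comp (f := fun y => (y, z.2)) z.1 hφ.hasFDerivAt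
    (hasFDerivAt_prodMk_left z.1 z.2)).fderiv
  rw [Dp, e, tg, inner_add_left, b2, (a4 _ _).1, c, P366W.inner_grad,
    show fderiv ℝ (fun y => φ (y, z.2)) z.1 = _ from d, real_inner_smul_left,
    show (Ai u z (Pj u z.1 a), ⟪nu u z.1, a⟫) = (Ai u z (Pj u z.1 a), (0 : ℝ)) +
      ⟪nu u z.1, a⟫ • ((0 : E n), (1 : ℝ)) by simp, map_add, map_smul]
  simp
  ring

theorem tg_ev0 {φ : E n × ℝ → ℝ} (hz : φ =ᶠ[𝓝 z] fun _ => 0) : tg u φ z = 0 := by
  have c : ContinuousAt (fun y : E n => (y, z.2)) z.1 := by fun_prop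
  have : (fun y => φ (y, z.2)) =ᶠ[𝓝 z.1] fun _ => 0 := c.tendsto.eventually hz
  simp [tg, hz.fderiv_eq, this.gradient_eq]

theorem cd_of {K : Set (E n × ℝ)} {F : E n × ℝ → ℝ} (hK : IsClosed K)
    (hc : ∀ a ∈ K, ContDiffAt ℝ 1 F a) (h0 : ∀ a ∉ K, F a = 0) : ContDiff ℝ 1 F :=
  contDiff_iff_contDiffAt.2 fun a => by
    by_cases ha : a ∈ K
    exacts [hc a ha, contDiffAt_const.congr_of_eventuallyEq (ev0 hK h0 ha)]

theorem ray_cd (h : TGC) (ok : Ok C u) (hz : z ∈ UU u) : ContDiffAt ℝ 1 (ray u) z :=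
  (psi_cd h ok hz.1).fst

/-- the integrand of the divergence theorem -/
theorem pb' (h : TGC) (ok : Ok C u) {Y : E n → E n} {φ : E n × ℝ → ℝ} (hY : ContDiff ℝ 1 Y)
    (hφ : Tu u φ) :
    Integrable (fun z => (φ z * dvg Y (ray u z) + ⟪tg u φ z, Y (ray u z)⟫) * JJ u z) ∧
    ∫ z, (φ z * dvg Y (ray u z) + ⟪tg u φ z, Y (ray u z)⟫) * JJ u z = 0 := by
  have := haar (n := n)
  have l := psi_ld h ok
  have z0 : ∀ z ∉ tsupport φ, φ z = 0 := fun z => image_eq_zero_of_notMem_tsupport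
  let F : Fin n → E n × ℝ → ℝ := fun i z => φ z * Y (ray u z) i
  have Yi : ∀ i, ContDiff ℝ 1 fun x => Y x i := fun i =>
    (EuclideanSpace.proj i : E n →L[ℝ] ℝ).contDiff.comp hY
  have F0 : ∀ i, ∀ z ∉ tsupport φ, F i z = 0 := fun i z hz => by simp [F, z0 z hz]
  have F1 : ∀ i, ContDiff ℝ 1 (F i) := fun i => cd_of (isClosed_tsupport φ) (fun z hz =>
    hφ.c1.contDiffAt.mul ((Yi i).contDiffAt.comp z (ray_cd h ok (hφ.su hz)))) (F0 i)
  have e : ∀ z, (φ z * dvg Y (ray u z) + ⟪tg u φ z, Y (ray u z)⟫) * JJ u z =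
      ∑ i, Dp (Psi u) (F i) (ex i) z * Jc (Psi u) z := fun z => by
    by_cases hz : z ∈ tsupport φ
    · have hU := hφ.su hz
      obtain ⟨-, -, b1, -, b2, -⟩ := (h n C u ok).2.2.2.2.1 z hU
      rw [← Finset.sum_mul, psi_jc h ok hU.1]
      congr 1
      rw [dvg, Finset.mul_sum, PiLp.inner_apply, ← Finset.sum_add_distrib]
      refine Finset.sum_congr rfl fun i _ => ?_
      have d := (Yi i).differentiable one_ne_zero (ray u z)
      rw [ex, psi_dp h ok hU ((F1 i).differentiable one_ne_zero z),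
        (b1 φ (fun w => Y (ray u w) i) (hφ.c1.differentiable one_ne_zero z)
          (d.comp z ((ray_cd h ok hU).differentiableAt one_ne_zero))).1, b2 _ d, inner_add_left,
        real_inner_smul_left, real_inner_smul_left, P366W.inner_grad]
      have := ((EuclideanSpace.proj i : E n →L[ℝ] ℝ).hasFDerivAt.comp (ray u z)
        (hY.differentiable one_ne_zero (ray u z)).hasFDerivAt).fderiv
      rw [show fderiv ℝ (fun x => Y x i) (ray u z) = _ from this]
      simp [EuclideanSpace.inner_single_right]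
    · simp [z0 z hz, tg_ev0 (ev0 (isClosed_tsupport φ) z0 hz),
        Dp0 (isClosed_tsupport φ) (F0 _) _ z hz]
  have i : ∀ i, Integrable fun z => Dp (Psi u) (F i) (ex i) z * Jc (Psi u) z := fun i =>
    l.intJ volume hφ.cs hφ.su (fun a _ => (l.cD (isClosed_tsupport φ) hφ.su (F1 i) (F0 i)
      _).continuousAt) (Dp0 (isClosed_tsupport φ) (F0 i) _)
  simp only [e]
  refine ⟨integrable_finsetSum _ fun j _ => i j, ?_⟩
  rw [integral_finsetSum _ fun j _ => i j]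
  exact Finset.sum_eq_zero fun j _ => l.pb volume hφ.cs hφ.su (F1 j) (F0 j) _

theorem pb (h : TGC) : PB := fun n C u Y φ ok hY hφ => (pb' h ok hY hφ).2

end Vale.Agent.P134E
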