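import Vale.Agent.P134E.Spec

/-!
# P134E: the profiles in the phase (row PRG)
-/

set_option linter.unusedVariables false

open MeasureTheory Set
open scoped ContDiff

noncomputable section

namespace Vale.Agent.P134E

open Vale.Agent.P134B

namespace Prg

theorem tanh_d (x : ℝ) : HasDerivAt Real.tanh (1 - Real.tanh x ^ 2) x := by
  have hc := (Real.cosh_pos x).ne'
  have h := (Real.hasDerivAt_sinh x).div (Real.hasDerivAt_cosh x) hc
  have e : Real.tanh = Real.sinh / Real.cosh := funext fun y => Real.tanh_eq_sinh_div_cosh y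
  rw [e]
  refine h.congr_deriv ?_
  rw [Pi.div_apply]
  field_simp

/-- the heteroclinic solution -/
def th0 (s : ℝ) : ℝ := Real.tanh (s / √2)

theorem th_d (s : ℝ) : HasDerivAt th0 (f0 s) s := by
  have h := (tanh_d (s / √2)).comp s ((hasDerivAt_id s).div_const √2)
  refine HasDerivAt.congr_deriv h ?_
  unfold f0
  ring

theorem f0_pos (s : ℝ) : 0 < f0 s := by
  unfold f0
  have := Real.tanh_sq_lt_one (s / √2)
  exact div_pos (by linarith) (by positivity)

theorem th_mono : Monotone th0 :=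
  monotone_of_deriv_nonneg (fun s => (th_d s).differentiableAt) fun s => by rw [(th_d s).deriv]; exact (f0_pos s).le

theorem th_cont : Continuous th0 := continuous_iff_continuousAt.2 fun s => (th_d s).continuousAt

theorem f0_cont : Continuous f0 := (continuous_const.sub (th_cont.pow 2)).div_const _

/-- the primitive of `f0 ^ 2` -/
def Wp (s : ℝ) : ℝ := (th0 s - th0 s ^ 3 / 3) / √2

theorem Wp_d (s : ℝ) : HasDerivAt Wp (f0 s ^ 2) s := by
  have h := ((th_d s).sub (((th_d s).pow 3).div_const 3)).div_const √2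
  refine HasDerivAt.congr_deriv h ?_
  have e : f0 s = (1 - th0 s ^ 2) / √2 := rfl
  rw [sq (f0 s)]
  nth_rewrite 3 [e]
  push_cast
  ring

theorem int_f0 (a : ℝ) : ∫ s in (-a)..a, f0 s ^ 2 = √2 * (th0 a - th0 a ^ 3 / 3) := by
  rw [intervalIntegral.integral_eq_sub_of_hasDerivAt (fun s _ => Wp_d s) ((f0_cont.pow 2).intervalIntegrable _ _)]
  have e : th0 (-a) = -th0 a := by unfold th0; rw [neg_div, Real.tanh_neg]
  have h2 : √2 * √2 = (2 : ℝ) := Real.mul_self_sqrt (by norm_num)
  have h3 : (0 : ℝ) < √2 := by positivity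
  unfold Wp
  rw [e, div_sub_div_same, div_eq_iff h3.ne']
  linear_combination (-(th0 a - th0 a ^ 3 / 3)) * h2

theorem st_cd {k : ℕ∞} : ContDiff ℝ k st := Real.smoothTransition.contDiff
theorem st_nn (x : ℝ) : 0 ≤ st x := Real.smoothTransition.nonneg x
theorem st_le (x : ℝ) : st x ≤ 1 := Real.smoothTransition.le_one x
theorem st_mono : Monotone st := Real.smoothTransition.monotone
theorem st_zero {x : ℝ} (h : x ≤ 0) : st x = 0 := Real.smoothTransition.zero_of_nonpos h
theorem st_one {x : ℝ} (h : 1 ≤ x) : st x = 1 := Real.smoothTransition.one_of_one_le h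
theorem st_cont : Continuous st := Real.smoothTransition.continuous
theorem st_d (x : ℝ) : HasDerivAt st (deriv st x) x :=
  ((st_cd (k := 1)).differentiable (by simp) x).hasDerivAt
theorem dst_nn (x : ℝ) : 0 ≤ deriv st x := st_mono.deriv_nonneg

theorem dst_zero {x : ℝ} (h : x ≤ 0 ∨ 1 ≤ x) : deriv st x = 0 := by
  rcases h with h | h
  · exact IsLocalMin.deriv_eq_zero (Filter.Eventually.of_forall fun y => by rw [st_zero h]; exact st_nn y)
  · exact IsLocalMax.deriv_eq_zero (Filter.Eventually.of_forall fun y => by rw [st_one h]; exact st_le y)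

theorem dst_bd : ∃ B : ℝ, 1 ≤ B ∧ ∀ x, deriv st x ≤ B := by
  have hc : Continuous (deriv st) := (st_cd (k := 1)).continuous_deriv (by simp)
  obtain ⟨B, hB⟩ := isCompact_Icc.bddAbove_image (hc.continuousOn (s := Icc (0 : ℝ) 1))
  refine ⟨max B 1, le_max_right _ _, fun x => ?_⟩
  by_cases h : x ≤ 0 ∨ 1 ≤ x
  · rw [dst_zero h]
    exact le_trans zero_le_one (le_max_right _ _)
  · push Not at h
    exact (hB ⟨x, ⟨h.1.le, h.2.le⟩, rfl⟩).trans (le_max_left _ _)

/-- the primitive of the step -/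
def Pst (x : ℝ) : ℝ := ∫ t in (0 : ℝ)..x, st t

theorem Pst_d (x : ℝ) : HasDerivAt Pst (st x) x := (st_cont.integral_hasStrictDerivAt 0 x).hasDerivAt

theorem Pst_cd : ContDiff ℝ 2 Pst := by
  have e : deriv Pst = st := funext fun x => (Pst_d x).deriv
  refine (contDiff_succ_iff_deriv (n := 1)).2 ⟨fun x => (Pst_d x).differentiableAt, by simp, ?_⟩
  rw [e]
  exact st_cd (k := 1)

theorem Pst_sub (x y : ℝ) : Pst x - Pst y = ∫ t in y..x, st t :=
  intervalIntegral.integral_interval_sub_left (st_cont.intervalIntegrable _ _) (st_cont.intervalIntegrable _ _)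

variable (a N : ℝ)

/-- the profile -/
def ga (s : ℝ) : ℝ := 1 - (Pst (s - a) - Pst (s - a - N)) / N
/-- its first derivative -/
def g1 (s : ℝ) : ℝ := -((st (s - a) - st (s - a - N)) / N)
/-- its second derivative -/
def g2 (s : ℝ) : ℝ := -((deriv st (s - a) - deriv st (s - a - N)) / N)

theorem ga_d (s : ℝ) : HasDerivAt (ga a N) (g1 a N s) s := by
  have h1 := (Pst_d (s - a)).comp_sub_const s a
  have h2 := ((Pst_d (s - a - N)).comp_sub_const (s - a) N).comp_sub_const s a
  exact ((h1.sub h2).div_const N).const_sub 1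

theorem g1_d (s : ℝ) : HasDerivAt (g1 a N) (g2 a N s) s := by
  have h1 := (st_d (s - a)).comp_sub_const s a
  have h2 := ((st_d (s - a - N)).comp_sub_const (s - a) N).comp_sub_const s a
  exact ((h1.sub h2).div_const N).neg

theorem d_ga : deriv (ga a N) = g1 a N := funext fun s => (ga_d a N s).deriv
theorem d_g1 : deriv (g1 a N) = g2 a N := funext fun s => (g1_d a N s).deriv

theorem ga_cd : ContDiff ℝ 2 (ga a N) := by
  have h1 : ContDiff ℝ 2 fun s : ℝ => s - a := contDiff_id.sub contDiff_const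
  exact contDiff_const.sub (((Pst_cd.comp h1).sub (Pst_cd.comp (h1.sub contDiff_const))).div_const N)

variable {a N}

theorem ga_bd (hN : 0 < N) (s : ℝ) : 0 ≤ ga a N s ∧ ga a N s ≤ 1 := by
  unfold ga
  rw [Pst_sub]
  have h0 : s - a - N ≤ s - a := by linarith
  have h1 : 0 ≤ ∫ t in (s - a - N)..(s - a), st t := intervalIntegral.integral_nonneg h0 fun t _ => st_nn t
  have h2 : ∫ t in (s - a - N)..(s - a), st t ≤ ∫ t in (s - a - N)..(s - a), (1 : ℝ) :=
    intervalIntegral.integral_mono_on h0 (st_cont.intervalIntegrable _ _) (continuous_const.intervalIntegrable _ _)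
      fun t _ => st_le t
  rw [intervalIntegral.integral_const, smul_eq_mul, mul_one] at h2
  have h3 : (∫ t in (s - a - N)..(s - a), st t) / N ≤ 1 := by
    rw [div_le_one hN]
    linarith
  have h4 := div_nonneg h1 hN.le
  constructor <;> linarith

theorem ga_lo (hN : 0 < N) {s : ℝ} (h : s ≤ a) : ga a N s = 1 := by
  unfold ga
  rw [Pst_sub, intervalIntegral.integral_congr (g := fun _ => (0 : ℝ)) fun t ht => by
    rw [uIcc_of_le (by linarith)] at ht
    exact st_zero (by linarith [ht.2])]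
  simp

theorem ga_hi (hN : 0 < N) {s : ℝ} (h : a + N + 1 ≤ s) : ga a N s = 0 := by
  unfold ga
  rw [Pst_sub, intervalIntegral.integral_congr (g := fun _ => (1 : ℝ)) fun t ht => by
    rw [uIcc_of_le (by linarith)] at ht
    exact st_one (by linarith [ht.1])]
  rw [intervalIntegral.integral_const, smul_eq_mul, mul_one, sub_sub_cancel, div_self hN.ne', sub_self]

theorem g1_bd (hN : 1 ≤ N) (s : ℝ) : g1 a N s ≤ 0 ∧ -1 ≤ g1 a N s := by
  unfold g1
  have h1 := st_mono (show s - a - N ≤ s - a by linarith)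
  have h2 := st_le (s - a)
  have h3 := st_nn (s - a - N)
  have h4 : 0 ≤ (st (s - a) - st (s - a - N)) / N := div_nonneg (by linarith) (by linarith)
  have h5 : (st (s - a) - st (s - a - N)) / N ≤ 1 := by
    rw [div_le_one (by linarith)]
    linarith
  constructor <;> linarith

theorem g_zero (hN : 0 < N) {s : ℝ} (h : s ≤ a ∨ a + N + 1 ≤ s) : g1 a N s = 0 ∧ g2 a N s = 0 := by
  unfold g1 g2
  rcases h with h | h
  · rw [st_zero (by linarith), st_zero (by linarith), dst_zero (Or.inl (by linarith)), dst_zero (Or.inl (by linarith))]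
    simp
  · rw [st_one (by linarith), st_one (by linarith), dst_zero (Or.inr (by linarith)), dst_zero (Or.inr (by linarith))]
    simp

theorem g2_bd {B : ℝ} (hB : ∀ x, deriv st x ≤ B) (hN : 0 < N) (s : ℝ) :
    -(B / N) ≤ g2 a N s ∧ g2 a N s ≤ B / N ∧ (a + 1 ≤ s → 0 ≤ g2 a N s) := by
  unfold g2
  have h1 := dst_nn (s - a)
  have h2 := dst_nn (s - a - N)
  have h3 := hB (s - a)
  have h4 := hB (s - a - N)
  refine ⟨?_, ?_, fun h => ?_⟩
  · rw [neg_le_neg_iff]
    gcongr
    linarith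
  · rw [← neg_div]
    gcongr
    linarith
  · rw [dst_zero (Or.inr (by linarith)), zero_sub, neg_div, neg_neg]
    positivity

/-- the key inequality -/
theorem key {l B : ℝ} (hl : 0 < l) (hl1 : l ≤ 1 / 200) (hB : ∀ x, deriv st x ≤ B) (hN : 1 ≤ N) (ha : 0 ≤ a)
    (ht : 9999 / 10000 ≤ th0 a) (hBN : B / N ≤ l * (1 - th0 (a + 1) ^ 2)) (s : ℝ) :
    69 / 50 * -g1 a N s - l / 2 * (√2 * f0 s) ≤ (1 - 2 * l) * (g2 a N s / 2 - √2 * th0 s * g1 a N s) := by
  have hf := f0_pos s
  have h2 : (0 : ℝ) < √2 := by positivity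
  have hN0 : 0 < N := by linarith
  rcases le_total s a with h | h
  · obtain ⟨e1, e2⟩ := g_zero hN0 (Or.inl h)
    rw [e1, e2]
    have : 0 ≤ l / 2 * (√2 * f0 s) := by positivity
    linarith
  have t1 : 9999 / 10000 ≤ th0 s := ht.trans (th_mono h)
  have r2 : 1414 / 1000 ≤ √2 := Real.le_sqrt_of_sq_le (by norm_num)
  have k1 : 69 / 50 ≤ (1 - 2 * l) * (√2 * th0 s) := by
    have a1 : 1414 / 1000 * (9999 / 10000) ≤ √2 * th0 s := mul_le_mul r2 t1 (by norm_num) h2.le
    have a2 : 99 / 100 * (1414 / 1000 * (9999 / 10000)) ≤ (1 - 2 * l) * (√2 * th0 s) :=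
      mul_le_mul (by linarith) a1 (by norm_num) (by linarith)
    linarith
  have k2 : 69 / 50 * -g1 a N s ≤ (1 - 2 * l) * (√2 * th0 s) * -g1 a N s :=
    mul_le_mul_of_nonneg_right k1 (by linarith [(g1_bd (a := a) hN s).1])
  have k3 : -(l * (√2 * f0 s)) ≤ (1 - 2 * l) * g2 a N s := by
    obtain ⟨b1, b2, b3⟩ := g2_bd (a := a) hB hN0 s
    have p1 : 0 ≤ l * (√2 * f0 s) := by positivity
    rcases le_total 0 (g2 a N s) with h0 | h0
    · have := mul_nonneg (show 0 ≤ 1 - 2 * l by linarith) h0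
      linarith
    rcases le_total (a + 1) s with h1 | h1
    · have := mul_nonneg (show 0 ≤ 1 - 2 * l by linarith) (b3 h1)
      linarith
    have e : √2 * f0 s = 1 - th0 s ^ 2 := by
      unfold f0 th0
      field_simp
    have c1 : th0 s ^ 2 ≤ th0 (a + 1) ^ 2 := pow_le_pow_left₀ (by linarith) (th_mono h1) 2
    have c2 : l * (1 - th0 (a + 1) ^ 2) ≤ l * (1 - th0 s ^ 2) := mul_le_mul_of_nonneg_left (by linarith) hl.le
    have c3 : 0 ≤ 2 * l * -g2 a N s := mul_nonneg (by linarith) (by linarith)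
    rw [e]
    linarith
  linarith

/-- the second profile -/
def ka (a N s : ℝ) : ℝ := st (s + (a + N + 1)) * ga a N s

theorem ka_d (s : ℝ) : HasDerivAt (ka a N)
    (deriv st (s + (a + N + 1)) * ga a N s + st (s + (a + N + 1)) * g1 a N s) s :=
  ((st_d (s + (a + N + 1))).comp_add_const s _).mul (ga_d a N s)

theorem ka_cd : ContDiff ℝ 1 (ka a N) :=
  ((st_cd (k := 1)).comp (contDiff_id.add contDiff_const)).mul ((ga_cd a N).of_le (by norm_num))

theorem ka_bd (hN : 0 < N) (s : ℝ) : 0 ≤ ka a N s ∧ ka a N s ≤ 1 :=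
  ⟨mul_nonneg (st_nn _) (ga_bd hN s).1, mul_le_one₀ (st_le _) (ga_bd hN s).1 (ga_bd hN s).2⟩

theorem mass (hN : 1 ≤ N) (ha : 0 ≤ a) (ht : 9999 / 10000 ≤ th0 a) :
    (1 - 1 / 500) * sg ≤ ∫ s in (-(a + N + 1))..(a + N + 1), ka a N s * f0 s ^ 2 ∧
      ∫ s in (-(a + N + 1))..(a + N + 1), ka a N s * f0 s ^ 2 ≤ sg := by
  have hN0 : 0 < N := by linarith
  have hc : Continuous fun s => ka a N s * f0 s ^ 2 := ka_cd.continuous.mul (f0_cont.pow 2)
  have h2 : (0 : ℝ) < √2 := by positivity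
  have e : sg = √2 * (2 / 3) := by unfold sg; ring
  constructor
  · have h1 : ∫ s in (-a)..a, ka a N s * f0 s ^ 2 ≤ ∫ s in (-(a + N + 1))..(a + N + 1), ka a N s * f0 s ^ 2 :=
      intervalIntegral.integral_mono_interval (by linarith) (by linarith) (by linarith)
        (Filter.Eventually.of_forall fun s => mul_nonneg (ka_bd hN0 s).1 (sq_nonneg _)) (hc.intervalIntegrable _ _)
    rw [intervalIntegral.integral_congr (g := fun s => f0 s ^ 2) fun s hs => by
      rw [uIcc_of_le (by linarith)] at hs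
      simp only [ka]
      rw [st_one (by linarith [hs.1]), ga_lo hN0 hs.2, one_mul, one_mul], int_f0] at h1
    refine le_trans ?_ h1
    have t1 : th0 a < 1 := Real.tanh_lt_one _
    have t2 : (1 - 1 / 500) * (2 / 3) ≤ th0 a - th0 a ^ 3 / 3 := by
      have : th0 a ^ 3 ≤ 1 := pow_le_one₀ (by linarith) t1.le
      linarith
    rw [e, mul_left_comm]
    exact mul_le_mul_of_nonneg_left t2 h2.le
  · have h1 : ∫ s in (-(a + N + 1))..(a + N + 1), ka a N s * f0 s ^ 2 ≤
        ∫ s in (-(a + N + 1))..(a + N + 1), f0 s ^ 2 :=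
      intervalIntegral.integral_mono_on (by linarith) (hc.intervalIntegrable _ _)
        ((f0_cont.pow 2).intervalIntegrable _ _) fun s _ => mul_le_of_le_one_left (sq_nonneg _) (ka_bd hN0 s).2
    rw [int_f0] at h1
    refine h1.trans ?_
    rw [e]
    refine mul_le_mul_of_nonneg_left ?_ h2.le
    have t1 : -1 < th0 (a + N + 1) := Real.neg_one_lt_tanh _
    have t2 : 0 ≤ (1 - th0 (a + N + 1)) ^ 2 * (th0 (a + N + 1) + 2) := mul_nonneg (sq_nonneg _) (by linarith)
    linarith

end Prg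

open Prg in
/-- **PRG** -/
theorem prg : PRG := by
  intro l hl hl1
  obtain ⟨B, hB1, hB⟩ := dst_bd
  set a : ℝ := max 1 (√2 * Real.artanh (9999 / 10000)) with ha
  have a1 : 1 ≤ a := le_max_left _ _
  have ht : 9999 / 10000 ≤ th0 a := by
    refine le_trans (le_of_eq ?_) (th_mono (le_max_right _ _))
    unfold th0
    rw [mul_div_cancel_left₀ _ (by positivity), Real.tanh_artanh ⟨by norm_num, by norm_num⟩]
  have c0 : 0 < l * (1 - th0 (a + 1) ^ 2) := mul_pos hl (sub_pos.2 (Real.tanh_sq_lt_one _))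
  set N : ℝ := max B (B / (l * (1 - th0 (a + 1) ^ 2))) with hN
  have N1 : B ≤ N := le_max_left _ _
  have N2 : 1 ≤ N := hB1.trans N1
  have N0 : 0 < N := by linarith
  have N3 : B / N ≤ l * (1 - th0 (a + 1) ^ 2) := by
    rw [div_le_iff₀ N0, ← div_le_iff₀' c0]
    exact le_max_right _ _
  have N4 : B / N ≤ 1 := (div_le_one N0).2 N1
  have hc : Continuous fun s => ka a N s * f0 s ^ 2 := ka_cd.continuous.mul (f0_cont.pow 2)
  have hm := mass N2 (by linarith) ht
  rw [← intervalIntegral.integral_interval_sub_left (a := 0) (hc.intervalIntegrable _ _) (hc.intervalIntegrable _ _)]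
    at hm
  refine ⟨a + N + 1, ga a N, ka a N, fun s => ∫ t in (0 : ℝ)..s, ka a N t * f0 t ^ 2, hl, hl1, by linarith, ga_cd a N,
    ka_cd, fun s => ?_, fun s hs => ga_lo N0 (hs.trans a1), fun s hs => ga_hi N0 hs, fun s hs => ?_, fun s => ?_,
    fun s hs => ?_, fun s => ?_, fun s => (hc.integral_hasStrictDerivAt 0 s).hasDerivAt, hm.1, hm.2⟩
  · rw [d_ga, d_g1]
    obtain ⟨b1, b2⟩ := g1_bd (a := a) N2 s
    obtain ⟨b3, b4, -⟩ := g2_bd (a := a) hB N0 s
    exact ⟨(ga_bd N0 s).1, (ga_bd N0 s).2, b1, abs_le.2 ⟨b2, by linarith⟩, abs_le.2 ⟨by linarith, by linarith⟩⟩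
  · rw [d_ga, d_g1]
    exact g_zero N0 (hs.imp (fun h => h.trans a1) id)
  · refine ⟨(ka_bd N0 s).1, (ka_bd N0 s).2, ?_⟩
    rw [d_ga, (ka_d s).deriv]
    have b1 := mul_nonneg (dst_nn (s + (a + N + 1))) (ga_bd (a := a) N0 s).1
    have b2 := mul_nonneg (sub_nonneg.2 (st_le (s + (a + N + 1)))) (neg_nonneg.2 (g1_bd (a := a) N2 s).1)
    linarith
  · rw [(ka_d s).deriv]
    unfold ka
    rcases le_abs.1 hs with h | h
    · rw [ga_hi N0 h, (g_zero N0 (Or.inr h)).1]
      simp
    · rw [st_zero (by linarith), dst_zero (Or.inl (by linarith))]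
      simp
  · rw [d_ga, d_g1]
    exact key hl hl1 hB N2 (by linarith) ht N3 s

end Vale.Agent.P134E
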