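import Vale.Agent.P134E.Spec

/-!
# P134E, row PRK: the profile behind the outer ridges
-/

set_option linter.all false

open Set Filter Topology

noncomputable section

namespace Vale.Agent.P134E

namespace PrkA

theorem c2 : ContDiff ℝ 2 st := Real.smoothTransition.contDiff (n := 2)

theorem c1 : ContDiff ℝ 1 (deriv st) := by
  have h : ContDiff ℝ (1 + 1) st := c2
  exact h.deriv'

theorem c0 : Continuous (deriv (deriv st)) := c1.continuous_deriv le_rfl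

theorem h1 (x : ℝ) : HasDerivAt st (deriv st x) x := (c2.differentiable (by norm_num) x).hasDerivAt

theorem h2 (x : ℝ) : HasDerivAt (deriv st) (deriv (deriv st) x) x :=
  (c1.differentiable (by norm_num) x).hasDerivAt

theorem s0 (x : ℝ) : 0 ≤ st x := Real.smoothTransition.nonneg x

theorem s1 (x : ℝ) : st x ≤ 1 := Real.smoothTransition.le_one x

theorem lo {x : ℝ} (h : x ≤ 0) : st x = 0 := Real.smoothTransition.zero_of_nonpos h

theorem hi {x : ℝ} (h : 1 ≤ x) : st x = 1 := Real.smoothTransition.one_of_one_le h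

theorem dz {x : ℝ} (h : x ≤ 0 ∨ 1 ≤ x) : deriv st x = 0 ∧ deriv (deriv st) x = 0 := by
  have e : deriv st x = 0 := by
    rcases h with h | h
    · exact IsLocalMin.deriv_eq_zero (Eventually.of_forall fun y => (lo h).trans_le (s0 y))
    · exact IsLocalMax.deriv_eq_zero (Eventually.of_forall fun y => (s1 y).trans_eq (hi h).symm)
  exact ⟨e, IsLocalMin.deriv_eq_zero (Eventually.of_forall fun y =>
    e.trans_le Real.smoothTransition.monotone.deriv_nonneg)⟩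

theorem bd : ∃ M : ℝ, 1 ≤ M ∧ ∀ x, |deriv st x| ≤ M ∧ |deriv (deriv st) x| ≤ M := by
  obtain ⟨L, hL⟩ := (isCompact_Icc (a := (0 : ℝ)) (b := 1)).exists_bound_of_continuousOn
    (c1.continuous.prodMk c0).continuousOn
  refine ⟨max L 1, le_max_right _ _, fun x => ?_⟩
  by_cases h : x ≤ 0 ∨ 1 ≤ x
  · rw [(dz h).1, (dz h).2, abs_zero]
    exact ⟨by positivity, by positivity⟩
  · push Not at h
    have := norm_prod_le_iff.1 ((hL x ⟨h.1.le, h.2.le⟩).trans (le_max_left L 1))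
    exact this

variable (l a w : ℝ)

/-- the profile -/
def k (q : ℝ) : ℝ := √l * st (32 * q - 30) + st ((q - a) / w) * (Tq l q - √l)

/-- its derivative -/
def k1 (q : ℝ) : ℝ := √l * (deriv st (32 * q - 30) * 32) +
  (deriv st ((q - a) / w) * w⁻¹ * (Tq l q - √l) + st ((q - a) / w) * (-(1 - l) / 2 * (Tq l q)⁻¹))

/-- its second derivative -/
def k2 (q : ℝ) : ℝ := √l * (deriv (deriv st) (32 * q - 30) * 1024) +
  (deriv (deriv st) ((q - a) / w) * w⁻¹ ^ 2 * (Tq l q - √l) +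
    deriv st ((q - a) / w) * w⁻¹ * (-(1 - l) * (Tq l q)⁻¹) +
    st ((q - a) / w) * (-(1 - l) ^ 2 / 4 * (Tq l q)⁻¹ ^ 3))

variable {l a w} {q : ℝ}

theorem dT (h : 0 < 1 - (1 - l) * q) : HasDerivAt (Tq l) (-(1 - l) / 2 * (Tq l q)⁻¹) q := by
  have := (((hasDerivAt_id' q).const_mul (1 - l)).const_sub 1).sqrt h.ne'
  refine this.congr_deriv ?_
  unfold Tq
  ring

theorem i1 (q : ℝ) : HasDerivAt (fun q : ℝ => 32 * q - 30) 32 q := by
  simpa using ((hasDerivAt_id' q).const_mul (32 : ℝ)).sub_const 30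

theorem i2 (a w q : ℝ) : HasDerivAt (fun q : ℝ => (q - a) / w) w⁻¹ q := by
  simpa using ((hasDerivAt_id' q).sub_const a).div_const w

theorem d1 (h : 0 < 1 - (1 - l) * q) : HasDerivAt (k l a w) (k1 l a w q) q :=
  (((h1 _).comp q (i1 q)).const_mul _).add
    (((h1 _).comp q (i2 a w q)).mul ((dT h).sub_const _))

theorem d2 (h : 0 < 1 - (1 - l) * q) : HasDerivAt (k1 l a w) (k2 l a w q) q := by
  have t0 : Tq l q ≠ 0 := (Real.sqrt_pos.2 h).ne'
  have := ((((h2 _).comp q (i1 q)).mul_const 32).const_mul √l).add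
    (((((h2 _).comp q (i2 a w q)).mul_const w⁻¹).mul ((dT h).sub_const √l)).add
    (((h1 _).comp q (i2 a w q)).mul (((dT h).inv t0).const_mul (-(1 - l) / 2))))
  refine this.congr_deriv ?_
  simp only [k2, Function.comp, Pi.inv_apply]
  rw [div_eq_mul_inv _ (Tq l q ^ 2)]
  ring

theorem d3 (h : 0 < 1 - (1 - l) * q) : deriv (deriv (k l a w)) q = k2 l a w q := by
  rw [← (d2 h).deriv]
  refine EventuallyEq.deriv_eq ?_
  filter_upwards [(isOpen_lt continuous_const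
    (by fun_prop : Continuous fun q : ℝ => 1 - (1 - l) * q)).mem_nhds h] with y hy using (d1 hy).deriv

theorem sm (h : 0 < 1 - (1 - l) * q) : ContDiffAt ℝ 2 (k l a w) q :=
  (contDiffAt_const.mul (c2.contDiffAt.comp q (by fun_prop))).add
    ((c2.contDiffAt.comp q (by fun_prop)).mul
      ((ContDiffAt.sqrt (f := fun q => 1 - (1 - l) * q) (by fun_prop) h.ne').sub contDiffAt_const))

/-- the arithmetic near `q = 1` -/
theorem ar {M s τ δ t κ x₁ x₂ y₀ y₁ y₂ : ℝ} (hM : 1 ≤ M) (hδ : 0 < δ) (hl : δ ≤ l) (l1 : l ≤ 1 / 200)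
    (hs : 0 ≤ s) (st : s ≤ τ) (τ1 : τ ≤ 1) (e1 : s ^ 2 = l) (e2 : τ ^ 2 = l + (1 - l) * t)
    (t0 : 0 ≤ t) (t1 : t ≤ 16 * δ ^ 2) (κ0 : 0 ≤ κ) (κ1 : κ ≤ τ) (hx₁ : |x₁| ≤ M) (hx₂ : |x₂| ≤ M)
    (hy₀ : |y₀| ≤ 1) (hy₁ : |y₁| ≤ M) (hy₂ : |y₂| ≤ M) :
    κ * |s * (x₁ * 32) + (y₁ * (12 * δ ^ 2)⁻¹ * (τ - s) + y₀ * (-(1 - l) / 2 * τ⁻¹))| ≤ 1030 * M ∧
    κ * |s * (x₂ * 1024) + (y₂ * (12 * δ ^ 2)⁻¹ ^ 2 * (τ - s) +
      y₁ * (12 * δ ^ 2)⁻¹ * (-(1 - l) * τ⁻¹) + y₀ * (-(1 - l) ^ 2 / 4 * τ⁻¹ ^ 3))| * t ≤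
      1030 * M := by
  obtain ⟨u, hu⟩ : ∃ u, u = (12 * δ ^ 2)⁻¹ := ⟨_, rfl⟩
  have u0 : 0 < u := by rw [hu]; positivity
  have ut : u * t ≤ 4 / 3 := by
    rw [hu, inv_mul_le_iff₀ (by positivity)]; linarith
  rw [← hu]
  have τ0 : 0 < τ := by
    by_contra c
    nlinarith [mul_nonneg (show 0 ≤ 1 - l by linarith) t0]
  have D0 : 0 ≤ τ - s := by linarith
  have Dt : τ * (τ - s) ≤ t := by nlinarith [mul_nonneg hs D0, mul_nonneg (hδ.le.trans hl) t0]
  have L : |1 - l| ≤ 1 := by rw [abs_of_nonneg (by linarith)]; linarith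
  have tτ : t ≤ τ ^ 2 := by nlinarith [mul_nonneg (show 0 ≤ 1 - l by linarith) t0]
  have sτ : τ * s ≤ 1 := mul_le_one₀ τ1 hs (st.trans τ1)
  have ut0 : 0 ≤ u * t := by positivity
  constructor
  · calc _ ≤ τ * (s * (M * 32) + (M * u * (τ - s) + 1 * (1 / 2 * τ⁻¹))) := by
          gcongr
          refine (abs_add_le _ _).trans (add_le_add ?_ ((abs_add_le _ _).trans (add_le_add ?_ ?_)))
          all_goals simp only [abs_mul, abs_div, abs_neg, abs_inv, abs_of_nonneg hs, abs_of_pos u0,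
            abs_of_nonneg D0, abs_of_pos τ0, Nat.abs_ofNat]
          all_goals gcongr
      _ = τ * s * (M * 32) + M * (u * (τ * (τ - s))) + 1 / 2 := by field_simp; ring
      _ ≤ 1 * (M * 32) + M * (u * t) + 1 / 2 := by gcongr
      _ ≤ _ := by nlinarith
  · calc _ ≤ τ * (s * (M * 1024) + (M * u ^ 2 * (τ - s) + M * u * (1 * τ⁻¹) +
          1 * (1 ^ 2 / 4 * τ⁻¹ ^ 3))) * t := by
          gcongr
          refine (abs_add_le _ _).trans (add_le_add ?_ ((abs_add_le _ _).trans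
            (add_le_add ((abs_add_le _ _).trans (add_le_add ?_ ?_)) ?_)))
          all_goals simp only [abs_mul, abs_div, abs_neg, abs_inv, abs_pow, abs_of_nonneg hs,
            abs_of_pos u0, abs_of_nonneg D0, abs_of_pos τ0, Nat.abs_ofNat]
          all_goals gcongr
      _ = τ * s * (M * 1024) * t + M * (u * t) * (u * (τ * (τ - s))) + M * (u * t) +
          t / τ ^ 2 / 4 := by field_simp; ring
      _ ≤ 1 * (M * 1024) * 1 + M * (4 / 3) * (4 / 3) + M * (4 / 3) + 1 / 4 := by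
          gcongr
          · nlinarith
          · exact (mul_le_mul_of_nonneg_left Dt u0.le).trans ut
          · exact div_le_one_of_le₀ tτ (by positivity)
      _ ≤ _ := by linarith

end PrkA

open PrkA in
theorem prk : PRK := by
  obtain ⟨M, hM, hb⟩ := bd
  refine ⟨1030 * M, by positivity, fun l δ hδ hl l1 => ⟨k l (1 - 16 * δ ^ 2) (12 * δ ^ 2), ?_⟩⟩
  have l0 : 0 < l := hδ.trans_le hl
  have δ2 : δ ^ 2 ≤ 1 / 40000 := by nlinarith
  have w0 : 0 < 12 * δ ^ 2 := by positivity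
  have p0 : ∀ q ∈ Icc (0 : ℝ) 1, l ≤ 1 - (1 - l) * q := fun q hq => by nlinarith [hq.2]
  have p1 : ∀ q ∈ Icc (0 : ℝ) 1, 0 < 1 - (1 - l) * q := fun q hq => l0.trans_le (p0 q hq)
  have p2 : ∀ q ∈ Icc (0 : ℝ) 1, √l ≤ Tq l q := fun q hq => Real.sqrt_le_sqrt (p0 q hq)
  have p3 : ∀ q ∈ Icc (0 : ℝ) 1, Tq l q ≤ 1 := fun q hq =>
    Real.sqrt_le_one.2 (by nlinarith [hq.1])
  have p4 : ∀ q, q ≤ 1 - 16 * δ ^ 2 → (q - (1 - 16 * δ ^ 2)) / (12 * δ ^ 2) ≤ 0 := fun q hq =>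
    div_nonpos_of_nonpos_of_nonneg (by linarith) w0.le
  have n0 : ∀ q ∈ Icc (0 : ℝ) 1, 0 ≤ k l (1 - 16 * δ ^ 2) (12 * δ ^ 2) q := fun q hq =>
    add_nonneg (mul_nonneg (Real.sqrt_nonneg _) (s0 _)) (mul_nonneg (s0 _) (sub_nonneg.2 (p2 q hq)))
  have n1 : ∀ q ∈ Icc (0 : ℝ) 1, k l (1 - 16 * δ ^ 2) (12 * δ ^ 2) q ≤ Tq l q := fun q hq => by
    unfold k
    linarith [mul_le_of_le_one_right (Real.sqrt_nonneg l) (s1 (32 * q - 30)),
      mul_le_of_le_one_left (sub_nonneg.2 (p2 q hq)) (s1 ((q - (1 - 16 * δ ^ 2)) / (12 * δ ^ 2)))]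
  have b2 : ∀ q ∈ Icc (0 : ℝ) 1, q ≤ 1 - 16 * δ ^ 2 →
      k l (1 - 16 * δ ^ 2) (12 * δ ^ 2) q * |deriv (k l (1 - 16 * δ ^ 2) (12 * δ ^ 2)) q| ≤
        1030 * M * l ∧ k l (1 - 16 * δ ^ 2) (12 * δ ^ 2) q *
        |deriv (deriv (k l (1 - 16 * δ ^ 2) (12 * δ ^ 2))) q| ≤ 1030 * M * l := fun q hq h => by
    have z := dz (.inl (p4 q h))
    have s := Real.sqrt_nonneg l
    rw [(d1 (p1 q hq)).deriv, d3 (p1 q hq), k, k1, k2, z.1, z.2, lo (p4 q h)]
    simp only [zero_mul, add_zero, abs_mul, abs_of_nonneg s, Nat.abs_ofNat]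
    constructor
    · calc _ ≤ √l * 1 * (√l * (M * 32)) := by gcongr; exacts [s1 _, (hb _).1]
        _ = 32 * M * (√l * √l) := by ring
        _ ≤ _ := by rw [Real.mul_self_sqrt l0.le]; gcongr; norm_num
    · calc _ ≤ √l * 1 * (√l * (M * 1024)) := by gcongr; exacts [s1 _, (hb _).2]
        _ = 1024 * M * (√l * √l) := by ring
        _ ≤ _ := by rw [Real.mul_self_sqrt l0.le]; gcongr; norm_num
  refine ⟨fun q hq => sm (p1 q hq), fun q hq h => ?_, fun q h => ?_,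
    fun q hq => ⟨n0 q hq, (n1 q hq).trans (p3 q hq)⟩, fun q hq => ?_, b2⟩
  · rw [k, hi (by linarith), hi ((one_le_div w0).2 (by linarith))]
    ring
  · rw [k, lo (by linarith), lo (p4 q (by linarith))]
    ring
  · rcases le_total q (1 - 16 * δ ^ 2) with h | h
    · have m : 1030 * M * l ≤ 1030 * M := mul_le_of_le_one_right (by positivity) (by linarith)
      exact ⟨(b2 q hq h).1.trans m, (mul_le_of_le_one_right (mul_nonneg (n0 q hq) (abs_nonneg _))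
        (by linarith [hq.1])).trans ((b2 q hq h).2.trans m)⟩
    · rw [(d1 (p1 q hq)).deriv, d3 (p1 q hq)]
      exact ar hM hδ hl l1 (Real.sqrt_nonneg l) (p2 q hq) (p3 q hq) (Real.sq_sqrt l0.le)
        ((Real.sq_sqrt (p1 q hq).le).trans (by ring)) (sub_nonneg.2 hq.2) (by linarith) (n0 q hq)
        (n1 q hq) (hb _).1 (hb _).2 ((abs_of_nonneg (s0 _)).trans_le (s1 _)) (hb _).1 (hb _).2

end Vale.Agent.P134E
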