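import Vale.Agent.P134E.Spec

/-!
# P134E: the profiles in the gap (row PRS)
-/

set_option linter.unusedVariables false

open Filter Topology Set

noncomputable section

namespace Vale.Agent.P134E

namespace PrsAux

theorem st_der : ∃ B ≥ (0 : ℝ), ∀ t, 0 ≤ deriv st t ∧ deriv st t ≤ B ∧ (1 < t → deriv st t = 0) := by
  have hc : Continuous (deriv st) :=
    (Real.smoothTransition.contDiff (n := 1)).continuous_deriv le_rfl
  obtain ⟨B, hB⟩ := (isCompact_Icc (a := (0 : ℝ)) (b := 1)).exists_bound_of_continuousOn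
    hc.continuousOn
  have z1 : ∀ t, 1 < t → deriv st t = 0 := fun t ht => by
    have : st =ᶠ[𝓝 t] fun _ => 1 :=
      (lt_mem_nhds ht).mono fun x hx => Real.smoothTransition.one_of_one_le hx.le
    rw [this.deriv_eq, deriv_const]
  have z0 : ∀ t, t < 0 → deriv st t = 0 := fun t ht => by
    have : st =ᶠ[𝓝 t] fun _ => 0 :=
      (gt_mem_nhds ht).mono fun x hx => Real.smoothTransition.zero_of_nonpos hx.le
    rw [this.deriv_eq, deriv_const]
  have B0 := (norm_nonneg _).trans (hB 0 ⟨le_rfl, zero_le_one⟩)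
  refine ⟨B, B0, fun t => ⟨Real.smoothTransition.monotone.deriv_nonneg, ?_, z1 t⟩⟩
  rcases lt_or_ge t 0 with h | h
  · exact (z0 t h).trans_le B0
  rcases lt_or_ge 1 t with h' | h'
  · exact (z1 t h').trans_le B0
  · exact (le_abs_self _).trans (hB t ⟨h, h'⟩)

/-- the algebra -/
theorem alg {P R T a f t s c d B ι F F' Θ Θ' : ℝ} (hs : 100 ≤ s) (hP : P = s * f) (hT : T = s * t)
    (f0 : 0 ≤ f) (a0 : 0 ≤ a) (t0 : 0 ≤ t) (T1 : T ≤ 13 / 10 * P ^ 2) (T2 : T ≤ P * a)
    (a1 : a ≤ 13 / 5 * P) (c0 : 0 ≤ c) (c1 : c ≤ 1) (d0 : 0 ≤ d) (d1 : d ≤ B) (ι0 : 0 ≤ ι)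
    (h : d = 0 ∨ (P * R) ^ 2 ≤ ι) (eF : F = P * R * c)
    (eF' : F' = (-a + 2 / 5 * f) * R * c - P * R * d) (eΘ : Θ = R ^ 2 * (T + P * f) * c ^ 2)
    (eΘ' : -Θ' = R ^ 2 * ((a + f) ^ 2 - 4 / 5 * (t + f ^ 2)) * c ^ 2 +
      2 * (R ^ 2 * (T + P * f)) * c * d) :
    0 ≤ Θ ∧ Θ ≤ 131 / 100 * F ^ 2 ∧ 0 ≤ -Θ' ∧
      F' ^ 2 ≤ (1 + 1 / 500) * -Θ' + 501 * (B + 1) ^ 2 * ι ∧ Θ ^ 2 ≤ 5 * F ^ 2 * -Θ' ∧
      Θ ≤ 5 * s * -Θ' ∧ -Θ' ≤ 13 * F ^ 2 + 501 * (B + 1) ^ 2 * ι := by
  have s0 : 0 < s := by linarith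
  have P0 : 0 ≤ P := hP ▸ mul_nonneg s0.le f0
  have T0 : 0 ≤ T := hT ▸ mul_nonneg s0.le t0
  have f1 : f ≤ P / 100 := by linarith [mul_le_mul_of_nonneg_right hs f0]
  have t1 : t ≤ a * f := le_of_mul_le_mul_left (by rw [← hT]; linarith [T2.trans_eq (by rw [hP])]) s0
  have af := mul_nonneg a0 f0
  have u1 : T + P * f ≤ 131 / 100 * P ^ 2 := by linarith [mul_le_mul_of_nonneg_left f1 P0]
  have u2 : T + P * f ≤ P * (a + f) := by linarith
  have u0 : 0 ≤ T + P * f := by positivity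
  have B0 := d0.trans d1
  have w : (P * R) ^ 2 * d ≤ B * ι := by
    rcases h with h | h
    · rw [h, mul_zero]
      positivity
    · rw [mul_comm B]
      exact mul_le_mul h d1 d0 ι0
  have w0 : 0 ≤ (P * R) ^ 2 * d := by positivity
  have w2 : (P * R) ^ 2 * d * d ≤ B * ι * B := mul_le_mul w d1 d0 (by positivity)
  obtain ⟨m, hm⟩ : ∃ m, m = R ^ 2 * c ^ 2 := ⟨_, rfl⟩
  have m0 : 0 ≤ m := by rw [hm]; positivity
  have e0 : 0 ≤ 2 * (R ^ 2 * (T + P * f)) * c * d := by positivity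
  have D1 : m * ((a + f) ^ 2 / 5) ≤ -Θ' := by
    have : (a + f) ^ 2 / 5 ≤ (a + f) ^ 2 - 4 / 5 * (t + f ^ 2) := by
      linarith only [sq_nonneg a, t1, af]
    linarith [mul_le_mul_of_nonneg_left this m0, show m * ((a + f) ^ 2 - 4 / 5 * (t + f ^ 2)) =
      R ^ 2 * ((a + f) ^ 2 - 4 / 5 * (t + f ^ 2)) * c ^ 2 by rw [hm]; ring]
  have D2 : m * (-a + 2 / 5 * f) ^ 2 ≤ -Θ' := by
    have : (-a + 2 / 5 * f) ^ 2 ≤ (a + f) ^ 2 - 4 / 5 * (t + f ^ 2) := by
      linarith only [sq_nonneg f, t1, af]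
    linarith [mul_le_mul_of_nonneg_left this m0, show m * ((a + f) ^ 2 - 4 / 5 * (t + f ^ 2)) =
      R ^ 2 * ((a + f) ^ 2 - 4 / 5 * (t + f ^ 2)) * c ^ 2 by rw [hm]; ring]
  have E1 : Θ = m * (T + P * f) := by rw [eΘ, hm]; ring
  have E2 : F ^ 2 = m * P ^ 2 := by rw [eF, hm]; ring
  have Θ0 : 0 ≤ Θ := by rw [E1]; positivity
  have Θ2 : Θ ≤ m * (P * (a + f)) := E1 ▸ mul_le_mul_of_nonneg_left u2 m0
  have Bι : 0 ≤ B * ι := by positivity
  refine ⟨Θ0, ?_, le_trans (by positivity) D1, ?_, ?_, ?_, ?_⟩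
  · rw [E1, E2]
    linarith [mul_le_mul_of_nonneg_left u1 m0]
  · have k : F' ^ 2 ≤ (1 + 1 / 500) * (m * (-a + 2 / 5 * f) ^ 2) + 501 * ((P * R) ^ 2 * d * d) := by
      rw [eF', hm]
      linarith only [sq_nonneg ((-a + 2 / 5 * f) * R * c + 500 * (P * R * d))]
    linarith only [k, D2, w2, Bι, ι0]
  · calc Θ ^ 2 ≤ (m * (P * (a + f))) ^ 2 := pow_le_pow_left₀ Θ0 Θ2 2
      _ = 5 * F ^ 2 * (m * ((a + f) ^ 2 / 5)) := by rw [E2]; ring
      _ ≤ _ := mul_le_mul_of_nonneg_left D1 (by positivity)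
  · calc Θ ≤ m * (P * (a + f)) := Θ2
      _ ≤ m * (s * (a + f) * (a + f)) := by
        rw [hP]
        gcongr
        linarith
      _ = 5 * s * (m * ((a + f) ^ 2 / 5)) := by ring
      _ ≤ _ := mul_le_mul_of_nonneg_left D1 (by positivity)
  · have k1 : (a + f) ^ 2 ≤ (3 * P) ^ 2 := pow_le_pow_left₀ (by positivity) (by linarith) 2
    have k2 : (a + f) ^ 2 - 4 / 5 * (t + f ^ 2) ≤ 13 * P ^ 2 := by
      linarith only [sq_nonneg f, sq_nonneg P, k1, t0]
    have k3 : R ^ 2 * (T + P * f) * c * d ≤ R ^ 2 * (131 / 100 * P ^ 2) * 1 * d := by gcongr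
    have k4 := mul_le_mul_of_nonneg_left k2 m0
    rw [E2, eΘ']
    rw [hm] at k4 ⊢
    linarith only [mul_nonneg Bι B0, k3, k4, w, Bι, ι0]

variable (S G s : ℝ)

/-- the exponential -/
def yy : ℝ := Real.exp (-(13 / 5 * (s - 2 * S)))
/-- its logarithm -/
def LL : ℝ := Real.log (1 + yy S s)
/-- the slope -/
def si : ℝ := 1 - (1 + yy S s)⁻¹
/-- the basic profile -/
def F0 : ℝ := LL S s / (13 / 5 * S)
/-- the basic multiplier -/
def T0 : ℝ := (LL S s - si S s) / (13 / 5 * S ^ 2)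
/-- the weight -/
def RR : ℝ := (s / S) ^ (2 / 5 : ℝ)
/-- the profile -/
def FF : ℝ := F0 S s * RR S s * st (G - 1 - s)
/-- the multiplier -/
def TT : ℝ := RR S s ^ 2 * (T0 S s + F0 S s * (F0 S s / s)) * st (G - 1 - s) ^ 2

theorem y0 : 0 < yy S s := Real.exp_pos _

theorem y1 : 1 + yy S s ≠ 0 := by linarith [y0 S s]

theorem dy : HasDerivAt (yy S) (yy S s * -(13 / 5 * 1)) s :=
  (((hasDerivAt_id s).sub_const _).const_mul _).neg.exp

theorem dL : HasDerivAt (LL S) (-(13 / 5) * si S s) s := by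
  refine (((dy S s).const_add 1).log (y1 S s)).congr_deriv ?_
  have := y1 S s
  unfold si
  field_simp
  ring

variable {S s}

theorem dF0 (hS : 0 < S) : HasDerivAt (F0 S) (-(si S s / S)) s := by
  refine ((dL S s).div_const _).congr_deriv ?_
  field_simp

theorem dT0 (hS : 0 < S) : HasDerivAt (T0 S) (-(si S s / S) ^ 2) s := by
  refine (((dL S s).sub ((((dy S s).const_add 1).inv (y1 S s)).const_sub 1)).div_const
    _).congr_deriv ?_
  have := y1 S s
  unfold si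
  field_simp
  ring

theorem dR (hS : 0 < S) (hs : 0 < s) : HasDerivAt (RR S) (2 / 5 * RR S s / s) s := by
  refine (((hasDerivAt_id s).div_const S).rpow_const (p := 2 / 5)
    (Or.inl (div_pos hs hS).ne')).congr_deriv ?_
  rw [id, Real.rpow_sub_one (div_pos hs hS).ne', RR]
  field_simp

theorem dc : HasDerivAt (fun s => st (G - 1 - s)) (deriv st (G - 1 - s) * -1) s :=
  ((Real.smoothTransition.contDiff (n := 1)).differentiable one_ne_zero _).hasDerivAt.comp s
    ((hasDerivAt_id s).const_sub _)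

theorem facts (S s : ℝ) : 0 ≤ si S s ∧ si S s ≤ LL S s ∧ LL S s - si S s ≤ LL S s ^ 2 / 2 ∧
    LL S s - si S s ≤ LL S s * si S s ∧ LL S s ≤ yy S s := by
  have h0 := y0 S s
  have h1 : 0 < 1 + yy S s := by linarith
  have L0 : 0 ≤ LL S s := Real.log_nonneg (by linarith)
  have e : Real.exp (LL S s) = 1 + yy S s := Real.exp_log h1
  have q1 := Real.quadratic_le_exp_of_nonneg L0
  have q2 := Real.add_one_le_exp (LL S s)
  rw [e] at q1 q2
  have q3 : (1 + yy S s)⁻¹ ≤ 1 - LL S s + LL S s ^ 2 / 2 := by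
    rw [inv_le_iff_one_le_mul₀' h1]
    have : 0 ≤ 1 - LL S s + LL S s ^ 2 / 2 := by nlinarith [sq_nonneg (LL S s - 1)]
    nlinarith [mul_le_mul_of_nonneg_right q1 this, sq_nonneg (LL S s ^ 2)]
  have q4 : (LL S s + 1) * (1 + yy S s)⁻¹ ≤ 1 := (mul_inv_le_iff₀ h1).2 (by linarith)
  unfold si
  exact ⟨sub_nonneg.2 (inv_le_one_of_one_le₀ (by linarith)), Real.one_sub_inv_le_log_of_pos h1,
    by linarith, by linarith, by linarith⟩

theorem F0_nn (hS : 0 < S) : 0 ≤ F0 S s :=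
  div_nonneg ((facts S s).1.trans (facts S s).2.1) (by positivity)

theorem F0_le (hS : 1 ≤ S) (hs : 0 ≤ s) : F0 S s ≤ 3 := by
  rw [F0, div_le_iff₀ (by positivity), LL, Real.log_le_iff_le_exp (by linarith [y0 S s])]
  have h1 : yy S s ≤ Real.exp (26 / 5 * S) := Real.exp_le_exp.2 (by linarith)
  have h2 : 1 ≤ Real.exp (26 / 5 * S) := Real.one_le_exp (by linarith)
  have h3 := Real.add_one_le_exp (13 / 5 * S)
  rw [show 3 * (13 / 5 * S) = 13 / 5 * S + 26 / 5 * S by ring, Real.exp_add]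
  nlinarith

theorem F0_ge (hS : 0 < S) (hs : s ≤ S) : 1 ≤ F0 S s := by
  rw [F0, le_div_iff₀ (by positivity), LL, Real.le_log_iff_exp_le (by linarith [y0 S s])]
  have h1 : Real.exp (1 * (13 / 5 * S)) ≤ yy S s := Real.exp_le_exp.2 (by linarith)
  linarith

theorem R_sq (hS : 0 < S) (hs : 0 ≤ s) : RR S s ^ 2 = (s / S) ^ (4 / 5 : ℝ) := by
  rw [RR, ← Real.rpow_natCast, ← Real.rpow_mul (by positivity)]
  norm_num

theorem tail {G : ℝ} (hS : 1 ≤ S) (hG : 2 * S + 2 ≤ G) (h1 : G - 2 ≤ s) (h2 : s ≤ G) :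
    (F0 S s * RR S s) ^ 2 ≤ Real.exp (52 / 5) * G * Real.exp (-(26 / 5 * (G - 2 * S))) := by
  have a1 : F0 S s ≤ yy S s :=
    (div_le_self ((facts S s).1.trans (facts S s).2.1) (by linarith)).trans (facts S s).2.2.2.2
  have a2 : F0 S s ^ 2 ≤ Real.exp (52 / 5) * Real.exp (-(26 / 5 * (G - 2 * S))) := by
    refine (pow_le_pow_left₀ (F0_nn (by linarith)) a1 2).trans ?_
    rw [yy, ← Real.exp_add, sq, ← Real.exp_add]
    exact Real.exp_le_exp.2 (by linarith)
  have a3 : RR S s ^ 2 ≤ G := by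
    rw [R_sq (by linarith) (by linarith)]
    refine (Real.rpow_le_self_of_one_le ((one_le_div (by linarith)).2 (by linarith))
      (by norm_num)).trans ((div_le_self (by linarith) hS).trans h2)
  rw [mul_pow, mul_right_comm]
  exact mul_le_mul a2 a3 (sq_nonneg _) (by positivity)

theorem smooth (hS : 0 < S) (hs : 0 < s) : ContDiffAt ℝ 1 (FF S G) s ∧ ContDiffAt ℝ 1 (TT S G) s := by
  have c0 : ContDiffAt ℝ 1 (fun s => 1 + yy S s) s := by
    unfold yy
    fun_prop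
  have c1 : ContDiffAt ℝ 1 (LL S) s := c0.log (y1 S s)
  have c2 : ContDiffAt ℝ 1 (si S) s := contDiffAt_const.sub (c0.inv (y1 S s))
  have c3 : ContDiffAt ℝ 1 (F0 S) s := c1.div_const _
  have c4 : ContDiffAt ℝ 1 (T0 S) s := (c1.sub c2).div_const _
  have c5 : ContDiffAt ℝ 1 (RR S) s :=
    (contDiffAt_id.div_const S).rpow_const_of_ne (div_pos hs hS).ne'
  have c6 : ContDiffAt ℝ 1 (fun s => st (G - 1 - s)) s :=
    (Real.smoothTransition.contDiffAt (n := 1)).comp s (contDiffAt_const.sub contDiffAt_id)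
  exact ⟨(c3.mul c5).mul c6,
    ((c5.pow 2).mul (c4.add (c3.mul (c3.div contDiffAt_id hs.ne')))).mul (c6.pow 2)⟩

end PrsAux

open PrsAux in
/-- **PRS** -/
theorem prs : PRS := by
  obtain ⟨B, B0, hB⟩ := st_der
  have e1 : 1 ≤ Real.exp (52 / 5) := Real.one_le_exp (by norm_num)
  have K1 : 501 ≤ 501 * (B + 1) ^ 2 * Real.exp (52 / 5) := by
    have : 1 ≤ (B + 1) ^ 2 * Real.exp (52 / 5) :=
      one_le_mul_of_one_le_of_one_le (one_le_pow₀ (by linarith)) e1
    linarith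
  refine ⟨501 * (B + 1) ^ 2 * Real.exp (52 / 5), by linarith, 100, by norm_num,
    fun S G hS hG => ⟨FF S G, TT S G, fun s hs => smooth G (by linarith) (by linarith),
      fun s hs => ?_, fun s hs => ?_, fun s hs => ?_, fun s hs h => ?_⟩⟩
  · simp [FF, TT, st, Real.smoothTransition.zero_of_nonpos (sub_nonpos.2 hs)]
  · have S0 : 0 < S := by linarith
    have s0 : 0 < s := by linarith
    obtain ⟨a1, a2, a3, a4, -⟩ := facts S s
    obtain ⟨b1, b2, b3⟩ := hB (G - 1 - s)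
    have d1 := (((dF0 S0).mul (dR S0 s0)).mul (dc G)).deriv (x := s)
    have d2 := ((((dR S0 s0).pow 2).mul ((dT0 S0).add ((dF0 S0).mul ((dF0 S0).div
      (hasDerivAt_id s) s0.ne')))).mul ((dc G).pow 2)).deriv
    have i0 : 0 ≤ Real.exp (52 / 5) * G * Real.exp (-(26 / 5 * (G - 2 * S))) :=
      mul_nonneg (mul_nonneg (by linarith) (by linarith)) (Real.exp_pos _).le
    have hd : deriv st (G - 1 - s) = 0 ∨ (F0 S s * RR S s) ^ 2 ≤
        Real.exp (52 / 5) * G * Real.exp (-(26 / 5 * (G - 2 * S))) := by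
      rcases lt_or_ge 1 (G - 1 - s) with h | h
      · exact Or.inl (b3 h)
      rcases le_or_gt s G with h' | h'
      · exact Or.inr (tail hS hG (by linarith) h')
      · have : st =ᶠ[𝓝 (G - 1 - s)] fun _ => 0 := (gt_mem_nhds (by linarith)).mono fun x hx =>
          Real.smoothTransition.zero_of_nonpos (le_of_lt hx)
        exact Or.inl (by rw [this.deriv_eq, deriv_const])
    obtain ⟨r1, r2, r3, r4, r5, r6, r7⟩ := alg (P := F0 S s) (R := RR S s) (T := T0 S s)
      (a := si S s / S) (f := F0 S s / s) (t := T0 S s / s) (c := st (G - 1 - s))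
      (d := deriv st (G - 1 - s)) (F := FF S G s) (F' := deriv (FF S G) s) (Θ := TT S G s)
      (Θ' := deriv (TT S G) s) hs (by field_simp) (by field_simp)
      (div_nonneg (F0_nn S0) s0.le) (by positivity)
      (div_nonneg (div_nonneg (by linarith) (by positivity)) s0.le)
      ((div_le_div_of_nonneg_right a3 (by positivity)).trans_eq (by unfold F0; field_simp; ring))
      ((div_le_div_of_nonneg_right a4 (by positivity)).trans_eq (by unfold F0; field_simp))
      ((div_le_div_of_nonneg_right a2 S0.le).trans_eq (by unfold F0; field_simp))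
      (Real.smoothTransition.nonneg _) (Real.smoothTransition.le_one _) b1 b2 i0 hd rfl
      (d1.trans (by simp only [Pi.mul_apply]; ring)) rfl
      ((congrArg Neg.neg d2).trans (by
        simp only [Pi.mul_apply, Pi.pow_apply, Pi.add_apply, Pi.div_apply, id]
        field_simp
        ring))
    generalize Real.exp (-(26 / 5 * (G - 2 * S))) = x at *
    have e : 501 * (B + 1) ^ 2 * Real.exp (52 / 5) * G * x =
      501 * (B + 1) ^ 2 * (Real.exp (52 / 5) * G * x) := by ring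
    rw [e]
    have i1 : 0 ≤ 501 * (B + 1) ^ 2 * (Real.exp (52 / 5) * G * x) := by positivity
    generalize 501 * (B + 1) ^ 2 * (Real.exp (52 / 5) * G * x) = ι at *
    generalize 501 * (B + 1) ^ 2 * Real.exp (52 / 5) = K at *
    refine ⟨r1, r2, r3, r4, r5.trans ?_, r6.trans ?_, r7.trans ?_⟩
    · gcongr
      linarith
    · gcongr
      linarith
    · nlinarith [sq_nonneg (FF S G s)]
  · rw [FF, mul_right_comm, mul_pow, R_sq (by linarith) (by linarith)]
    refine mul_le_mul_of_nonneg_right ?_ (by positivity)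
    have h1 : F0 S s * st (G - 1 - s) ≤ 3 * 1 := mul_le_mul (F0_le hS (by linarith))
      (Real.smoothTransition.le_one _) (Real.smoothTransition.nonneg _) (by norm_num)
    have h2 := mul_nonneg (F0_nn (s := s) (by linarith : 0 < S))
      (Real.smoothTransition.nonneg (G - 1 - s))
    exact (pow_le_pow_left₀ h2 h1 2).trans (by linarith)
  · rw [FF, st, Real.smoothTransition.one_of_one_le (by linarith), mul_one, mul_pow,
      R_sq (by linarith) (by linarith)]
    exact le_mul_of_one_le_left (by positivity) (one_le_pow₀ (F0_ge (by linarith) h))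

end Vale.Agent.P134E
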