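import Vale.Agent.P134E.PB
import Vale.Agent.P134T.Calc

/-!
# P134E: the stability inequality in the tube
-/

set_option linter.unusedVariables false

open MeasureTheory Metric Filter Topology Set
open scoped ContDiff RealInnerProductSpace
open Vale.Agent.P366.Stmt (E)
open Vale.Agent.P366W (dvg trc)

noncomputable section

namespace Vale.Agent.P134E

open Vale.Agent.P134B

theorem ps0 (h : TGC) : PS := fun n C u ξ ok st hξ => by
  have l := psi_ld h ok
  obtain ⟨g1, g2, g3, -, g4, g5⟩ := h n C u ok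
  have cl := isClosed_tsupport ξ
  have z0 : ∀ z ∉ tsupport ξ, ξ z = 0 := fun z => image_eq_zero_of_notMem_tsupport
  have cf : ContDiff ℝ 1 (ff u) := ok.tcf.of_le (by simp)
  have cg : ContDiff ℝ 1 (gradient (ff u)) := (P366W.smooth_gradient ok.tcf).of_le (by simp)
  have F0 : ∀ z ∉ tsupport ξ, ff u (ray u z) * ξ z = 0 := fun z hz => by simp [z0 z hz]
  have F1 : ContDiff ℝ 1 fun z => ff u (ray u z) * ξ z := cd_of cl (fun z hz =>
    (cf.contDiffAt.comp z (ray_cd h ok (hξ.su hz))).mul hξ.c1.contDiffAt) F0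
  have k := l.ps hξ.cs hξ.su (c := fun x => 3 * u x ^ 2 - 1) (by have := ok.sm.continuous; fun_prop)
    st F1 F0
  obtain ⟨i1, k1⟩ := pb' h ok (Y := fun x => ff u x • gradient (ff u) x) (φ := fun z => ξ z * ξ z)
    (cf.smul cg) ⟨hξ.c1.mul hξ.c1, hξ.cs.mul_left, (tsupport_mul_subset_left).trans hξ.su⟩
  have cr : ∀ z ∈ tsupport ξ, ContinuousAt (fun z => ff u (ray u z)) z ∧ ContinuousAt (JJ u) z ∧
      ContinuousAt (ray u) z := fun z hz =>
    ⟨cf.continuous.continuousAt.comp (ray_cd h ok (hξ.su hz)).continuousAt,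
      g2.continuousAt (g1.mem_nhds (hξ.su hz)), (ray_cd h ok (hξ.su hz)).continuousAt⟩
  have i2 : Integrable fun z => ff u (ray u z) ^ 2 * PP u (ray u z) * ξ z ^ 2 * JJ u z := by
    refine g5 _ _ hξ.cs (fun z hz => ?_) fun z hz => by simp [z0 z hz]
    have c : Continuous (PP u) := (continuous_const.mul cf.continuous).mul
      (continuous_const.sub (ok.tcp.continuous.norm.pow 2))
    exact ((((cr z hz).1.pow 2).mul (c.continuousAt.comp (cr z hz).2.2)).mul
      (hξ.c1.continuous.continuousAt.pow 2)).mul (cr z hz).2.1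
  have i3 : Integrable fun z => ff u (ray u z) ^ 2 * ‖tg u ξ z‖ ^ 2 * JJ u z := by
    refine g5 _ _ hξ.cs (fun z hz => ?_) fun z hz => by simp [tg_ev0 (ev0 cl z0 hz)]
    exact (((cr z hz).1.pow 2).mul (((g4 z (hξ.su hz)).2.2.2.2.2.2.2.2.2.2 ξ
      hξ.c1.contDiffAt).norm.pow 2)).mul (cr z hz).2.1
  have k2 := integral_add (i3.sub i2) i1
  rw [k1, add_zero, integral_sub' i3 i2] at k2
  rw [← sub_nonneg, ← k2]
  refine k.trans_eq (integral_congr_ae (Eventually.of_forall fun z => ?_))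
  by_cases hz : z ∈ tsupport ξ
  · have hU := hξ.su hz
    obtain ⟨-, -, b1, -, b2, -⟩ := g4 z hU
    have d := hξ.c1.differentiable one_ne_zero z
    have d1 := cf.differentiable one_ne_zero (ray u z)
    have e : ∀ v : E n, ∑ i, ⟪v, EuclideanSpace.single i (1 : ℝ)⟫ ^ 2 = ‖v‖ ^ 2 := fun v => by
      simp [EuclideanSpace.norm_sq_eq, EuclideanSpace.inner_single_right]
    simp only [ex, psi_dp h ok hU (F1.differentiable one_ne_zero z), e, psi_jc h ok hU.1,
      Pi.sub_apply]
    rw [(b1 (fun w => ff u (ray u w)) ξ (d1.comp z ((ray_cd h ok hU).differentiableAt one_ne_zero))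
      d).1, (b1 ξ ξ d d).1, b2 _ d1, P366W.dvg_smul d1 (cg.differentiable one_ne_zero _),
      show dvg (gradient (ff u)) (ray u z) = _ from ok.tlf _, norm_add_sq_real]
    simp only [← P366W.inner_grad, inner_add_left, real_inner_smul_left, real_inner_smul_right,
      norm_smul, mul_pow, Real.norm_eq_abs, sq_abs, real_inner_self_eq_norm_sq, Psi, PP, EE]
    ring
  · simp [z0 z hz, tg_ev0 (ev0 cl z0 hz), Dp0 cl F0 _ z hz,
      tg_ev0 (ev0 (F := fun z => ξ z * ξ z) cl (fun z hz => by simp [z0 z hz]) hz)]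

theorem ps_ (h : TGC) (j : JAC) : PS := ps0 h

end Vale.Agent.P134E
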