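import Vale.Agent.P134E.Spec

/-!
# P134E, row RAY: all the facts about a ray
-/

noncomputable section

namespace Vale.Agent.P134E

open Vale.Agent.P134B

theorem ray_ : rRAY := by
  intro hA h0 h1 hM hF m C ℓ
  obtain ⟨L₀, hM⟩ := hM m C ℓ
  refine ⟨max L₀ 2, fun L hL => ?_⟩
  obtain ⟨KA, hA⟩ := hA m C L
  obtain ⟨K0, h0⟩ := h0 m C L
  obtain ⟨K1, h1⟩ := h1 m C L
  obtain ⟨βM, pM, hM⟩ := hM L ((le_max_left _ _).trans hL)
  refine ⟨max (max 1 KA) (max K0 K1), (le_max_left _ _).trans (le_max_left _ _),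
    fun η δ η0 η1 δ0 δ1 => ?_⟩
  obtain ⟨βA, pA, hA⟩ := hA _ ((le_max_right 1 KA).trans (le_max_left _ (max K0 K1))) η η0
  obtain ⟨β0, p0, h0⟩ := h0 _ ((le_max_left K0 K1).trans (le_max_right (max 1 KA) _)) η η0
  obtain ⟨β1, p1, h1⟩ := h1 _ ((le_max_right K0 K1).trans (le_max_right (max 1 KA) _)) η η0
  obtain ⟨βF, pF, hF⟩ := hF m C δ δ0 δ1
  refine ⟨min (min (min βA β0) (min β1 βM)) (min βF (Real.exp (-(2 * L + 3)))), by positivity,
    fun u ε G y ok th hβ => ?_⟩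
  simp only [le_min_iff] at hβ
  obtain ⟨⟨⟨bA, b0⟩, b1, bM⟩, bF, bE⟩ := hβ
  have r0 := h0 u ε G y ok th b0
  have rF := hF u ε G y ok th bF
  refine ⟨r0.1, fun hg => ⟨η0, η1, (le_max_right _ _).trans hL, ?_, th, hg, hA u ε G y ok th bA, r0,
    h1 u ε G y ok th b1 hg, hM u ε G y ok th bM hg, rF.1, rF.2 hg⟩⟩
  have h2 : ε ≤ Real.exp (-(2 * L + 3)) := by nlinarith [th.e0, th.G2]
  have h3 := (Real.log_le_iff_le_exp th.e0).2 h2
  unfold lg
  linarith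

end Vale.Agent.P134E
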