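import Vale.Agent.P134E.Spec
import Vale.Agent.P134H.Seg

/-!
# P134E: the first core of a ray
-/

open MeasureTheory Metric Filter Topology Set
open scoped ContDiff RealInnerProductSpace
open Vale.Agent.P366.Stmt (E)

noncomputable section

namespace Vale.Agent.P134E

open Vale.Agent.P134B

namespace Ray0

variable {n : ℕ} {C T Q a B : ℝ} {u : E n → ℝ} {x ν : E n}

theorem mvt {F : Type*} [NormedAddCommGroup F] [NormedSpace ℝ F] {w w' : ℝ → F}
    (hd : ∀ t, HasDerivAt w (w' t) t) (hB : ∀ t, |t| ≤ T → ‖w' t‖ ≤ B) {t : ℝ} (ht : |t| ≤ T) :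
    ‖w t - w 0‖ ≤ B * T := by
  have T0 := (abs_nonneg t).trans ht
  have B0 := (norm_nonneg _).trans (hB t ht)
  have := (convex_Icc (-T) T).norm_image_sub_le_of_norm_hasDerivWithin_le
    (fun s _ => (hd s).hasDerivWithinAt) (fun s hs => hB s (abs_le.2 hs))
    (show (0 : ℝ) ∈ Icc (-T) T from ⟨by linarith, T0⟩) (abs_le.1 ht)
  rw [sub_zero, Real.norm_eq_abs] at this
  exact this.trans (mul_le_mul_of_nonneg_left ht B0)

/-- the deficit and the gradient along a line -/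
theorem core (h : Ok C u) (hν : ‖ν‖ ≤ 1) (hQ : Real.exp (C * T) * qq u x ≤ Q) :
    (∀ t, |t| ≤ T → qq u (x + t • ν) ≤ Q) ∧
    ∀ t, |t| ≤ T → ‖pp u (x + t • ν) - pp u x‖ ≤ C * √Q * T := by
  have C0 : 0 ≤ C := by linarith [h.C1]
  have k : ∀ t, |t| ≤ T → qq u (x + t • ν) ≤ Q := fun t ht => by
    refine ((P134H.harn h x _).trans (mul_le_mul_of_nonneg_right ?_ (h.q0 x))).trans hQ
    rw [add_sub_cancel_left, norm_smul, Real.norm_eq_abs]
    exact Real.exp_le_exp.2 (mul_le_mul_of_nonneg_left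
      ((mul_le_of_le_one_right (abs_nonneg t) hν).trans ht) C0)
  refine ⟨k, fun t ht => ?_⟩
  simpa using mvt (B := C * √Q) (Seg.dpp h x ν) (fun s hs => ((SS u _).unit_le_opNorm ν hν).trans
    ((h.S0 _).trans (mul_le_mul_of_nonneg_left (Real.sqrt_le_sqrt (k s hs)) C0))) ht

/-- the Hessian in a direction close to that of the gradient -/
theorem dir (h : Ok C u) {w : E n} {s : ℝ} (hp : pp u x = w + s • ν) (hs : 1 / 2 ≤ |s|)
    (hQ : qq u x ≤ Q) (hw : ‖w‖ ≤ a) : ‖SS u x ν‖ ≤ C * Q + 2 * C * √Q * a := by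
  have C0 : 0 ≤ C := by linarith [h.C1]
  have a1 := h.q1 x
  rw [h.gq, norm_smul, Real.norm_eq_abs, abs_neg, abs_two] at a1
  have a2 : ‖SS u x w‖ ≤ C * √Q * a := ((SS u x).le_opNorm w).trans (mul_le_mul
    ((h.S0 _).trans (mul_le_mul_of_nonneg_left (Real.sqrt_le_sqrt hQ) C0)) hw (norm_nonneg _)
    (by positivity))
  have a3 : |s| * ‖SS u x ν‖ ≤ ‖SS u x (pp u x)‖ + ‖SS u x w‖ := by
    rw [← Real.norm_eq_abs, ← norm_smul, ← map_smul, show s • ν = pp u x - w by rw [hp]; abel,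
      map_sub]
    exact norm_sub_le _ _
  have a4 := mul_le_mul_of_nonneg_right hs (norm_nonneg (SS u x ν))
  have a5 := mul_le_mul_of_nonneg_left hQ C0
  linarith

/-- the tangential part of the gradient along a line -/
theorem tan (h : Ok C u) (P : E n →L[ℝ] E n) (hP : ∀ v, ‖P v‖ ≤ ‖v‖)
    (hd : ∀ v, v = P v + ⟪v, ν⟫ • ν) (hQ : ∀ t, |t| ≤ T → qq u (x + t • ν) ≤ Q)
    (hs : ∀ t, |t| ≤ T → 1 / 2 ≤ |⟪pp u (x + t • ν), ν⟫|)
    (hw : ∀ t, |t| ≤ T → ‖P (pp u (x + t • ν))‖ ≤ a) {t : ℝ} (ht : |t| ≤ T) :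
    ‖P (pp u (x + t • ν)) - P (pp u x)‖ ≤ (C * Q + 2 * C * √Q * a) * T := by
  simpa using mvt (B := C * Q + 2 * C * √Q * a)
    (fun s => P.hasFDerivAt.comp_hasDerivAt s (Seg.dpp h x ν s))
    (fun s k => (hP _).trans (dir h (hd _) (hs s k) (hQ s k) (hw s k))) ht

theorem pj_eq (u : E n → ℝ) (y v : E n) : v = Pj u y v + ⟪v, nu u y⟫ • nu u y := by
  simp [Pj, real_inner_comm]

theorem pp_eq {y : E n} (h : pp u y ≠ 0) : pp u y = ‖pp u y‖ • nu u y := by
  rw [nu, smul_smul, mul_inv_cancel₀ (norm_ne_zero_iff.2 h), one_smul]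

end Ray0

open Ray0 in
theorem ray0 : rRAY0 := by
  intro hT _ m C L
  set T := |2 * L|
  obtain ⟨c, hc⟩ : ∃ c, c = |C| := ⟨_, rfl⟩
  have T0 : 0 ≤ T := abs_nonneg _
  have c0 : 0 ≤ c := hc ▸ abs_nonneg _
  set X := Real.exp (c * T)
  have X1 : 1 ≤ X := Real.one_le_exp (by positivity)
  set k := √2 * Real.exp (√2 * 1)
  have k0 : 0 < k := by positivity
  refine ⟨X * (1 + (c + 2 * c * (c * T)) * T), fun K hK η η0 => ?_⟩
  set η' := min η (1 / 2)
  have η1 : 0 < η' := by positivity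
  have η2 : η' ≤ η := min_le_left _ _
  have η3 : η' ≤ 1 / 2 := min_le_right _ _
  set ρ := η' / (1 + c * T)
  have ρ0 : 0 < ρ := by positivity
  have ρ1 : ρ * (1 + c * T) = η' := div_mul_cancel₀ _ (by positivity)
  have cT : 0 ≤ c * T := by positivity
  have ρ2 : ρ ≤ η' := by nlinarith
  refine ⟨ρ / (X * k), by positivity, fun u ε G y h th hβ => ?_⟩
  obtain rfl : c = C := hc.trans (abs_of_nonneg (by linarith [h.C1]))
  have e0 := th.e0
  have e1 : X * k * ε ≤ ρ := by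
    rw [le_div_iff₀ (by positivity)] at hβ
    have := mul_le_mul_of_nonneg_right th.G2 (show 0 ≤ ε * (X * k) by positivity)
    have : 0 ≤ ε * (X * k) := by positivity
    linarith
  have q0 := h.q0 y
  have q1 : qq u y ≤ (k * ε) ^ 2 := h.tcore_q (th.gd y (mem_ball_self (by positivity))) th.ps
  set Q := X * qq u y
  have Q0 : 0 ≤ Q := by positivity
  have Q1 : qq u y ≤ Q := le_mul_of_one_le_left q0 X1
  have Q2 : Q ≤ ρ ^ 2 := calc
    Q ≤ X ^ 2 * (k * ε) ^ 2 := mul_le_mul (by nlinarith) q1 q0 (by positivity)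
    _ = (X * k * ε) ^ 2 := by ring
    _ ≤ _ := by gcongr
  have Q3 : √Q ≤ ρ := Real.sqrt_le_iff.2 ⟨ρ0.le, Q2⟩
  have Q4 : Q ≤ ρ := by nlinarith
  have p1 := h.tpp_ge y
  have p0 : pp u y ≠ 0 := norm_pos_iff.1 (by linarith)
  obtain ⟨n1, -, -, -, -, -, n2, n3, -⟩ := (hT _ _ u h).2.2.2.1 y p0
  obtain ⟨a1, a2⟩ := core (T := T) (x := y) h n1.le (le_refl Q)
  have z0 : Pj u y (pp u y) = 0 := by rw [pp_eq p0, map_smul, n2, smul_zero]
  have s1 : ∀ t, |t| ≤ T → 1 - η' ≤ ⟪pp u (y + t • nu u y), nu u y⟫ := fun t ht => by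
    have b1 : ⟪pp u y, nu u y⟫ = ‖pp u y‖ := by
      conv_lhs => rw [pp_eq p0, inner_smul_left, real_inner_self_eq_norm_sq, n1]
      simp
    have b2 := (abs_le.1 (abs_real_inner_le_norm (pp u (y + t • nu u y) - pp u y) (nu u y))).1
    rw [inner_sub_left, b1, n1, mul_one] at b2
    have b3 := mul_le_mul_of_nonneg_left Q3 cT
    linarith [a2 t ht]
  have w1 : ∀ t, |t| ≤ T → ‖Pj u y (pp u (y + t • nu u y))‖ ≤ c * √Q * T := fun t ht => by
    have := (n3 (pp u (y + t • nu u y) - pp u y)).1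
    rw [map_sub, z0, sub_zero] at this
    exact this.trans (a2 t ht)
  have d0 : 0 ≤ (c + 2 * c * (c * T)) * T := by positivity
  refine ⟨p0, fun t ht => ?_⟩
  have ht' : |t| ≤ T := ht.trans (le_abs_self _)
  have w2 := tan h (Pj u y) (fun v => (n3 v).1) (pj_eq u y) a1
    (fun t ht => le_trans (by linarith [s1 t ht]) (le_abs_self _)) w1 ht'
  rw [z0, sub_zero, show (c * Q + 2 * c * √Q * (c * √Q * T)) * T =
    (c * Q + 2 * c * (c * T) * (√Q * √Q)) * T by ring, Real.mul_self_sqrt Q0] at w2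
  have hK' := mul_le_mul_of_nonneg_right hK q0
  have d1 := mul_nonneg d0 Q0
  refine ⟨by unfold sl ray; linarith [s1 t ht'], (a1 t ht').trans (by linarith),
    (a1 t ht').trans ?_, w2.trans ?_⟩ <;> simp only [Q] at d1 Q0 ⊢ <;> linarith

end Vale.Agent.P134E
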