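import Vale.Agent.P134E.Spec

/-!
# P134E, row RAYA: the linear algebra along the ray
-/

set_option linter.unusedVariables false

open MeasureTheory Metric Filter Topology Set
open scoped ContDiff RealInnerProductSpace
open Vale.Agent.P366.Stmt (E)
open Vale.Agent.P366W (dvg trc)

noncomputable section

namespace Vale.Agent.P134E

open Vale.Agent.P134B

namespace Raya

variable {n : ℕ} {C ε G : ℝ} {u : E n → ℝ} {y : E n}

theorem q_le (h : Ok C u) (t : Th u ε G y) : qq u y ≤ (7 * ε) ^ 2 := by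
  have g := t.gd y (mem_ball_self (div_pos (by norm_num) t.e0))
  have f := h.flo y
  have s2 : √2 ≤ 3 / 2 := Real.sqrt_le_iff.2 ⟨by norm_num, by norm_num⟩
  have s0 : (0 : ℝ) < √2 := by positivity
  have e1 : Real.exp (-(3 / 2)) ≤ Real.exp (-(√2 * |ps u y|)) :=
    Real.exp_le_exp.2 (by nlinarith [t.ps, abs_nonneg (ps u y)])
  have e2 : Real.exp (3 / 2) ≤ 14 / 3 := by
    have a := Real.exp_one_lt_d9
    have b : Real.exp (3 / 2) ^ 2 = Real.exp 1 ^ 3 := by
      rw [← Real.exp_nat_mul, ← Real.exp_nat_mul]; norm_num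
    have c : Real.exp 1 ^ 3 ≤ (2.72 : ℝ) ^ 3 := by gcongr; linarith
    exact (pow_le_pow_iff_left₀ (Real.exp_pos _).le (by norm_num) two_ne_zero).1 (by linarith)
  have e3 : 3 / 14 ≤ Real.exp (-(3 / 2)) := by
    rw [Real.exp_neg, le_inv_comm₀ (by norm_num) (Real.exp_pos _)]; linarith
  have e4 : 1 / 7 ≤ ff u y := by
    refine le_trans ?_ f
    rw [le_div_iff₀ s0]; linarith
  have e5 : (1 / 7) ^ 2 * qq u y ≤ ff u y ^ 2 * qq u y := by
    have := h.q0 y
    gcongr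
  unfold EE at g
  linarith

theorem lg_le {ε ρ : ℝ} (e : 0 < ε) (r : 0 < ρ) (h : ε ≤ ρ ^ 2) : ε * lg ε ≤ 2 * ρ := by
  have s : 0 < √ε := Real.sqrt_pos.2 e
  have a := Real.log_le_sub_one_of_pos (inv_pos.2 s)
  rw [Real.log_inv, Real.log_sqrt e.le] at a
  have b : √ε ≤ ρ := Real.sqrt_le_iff.2 ⟨r.le, h⟩
  have c : ε * (√ε)⁻¹ = √ε := by
    rw [← div_eq_mul_inv, Real.div_sqrt]
  unfold lg
  nlinarith

theorem hs_nn (A : E n →L[ℝ] E n) : 0 ≤ hs A := Finset.sum_nonneg fun _ _ => sq_nonneg _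

end Raya

open Raya

theorem raya : rRAYA := by
  intro tgc alg m C L
  refine ⟨10 * C, fun K hK η hη => ?_⟩
  obtain ⟨β, b0, b1, hb⟩ := alg (m + 1) (η / 2) (by linarith)
  obtain ⟨ρ, r0, r1, r2, r3⟩ : ∃ ρ > (0 : ℝ), ρ ≤ 1 / 10 ∧ 2000 * (|C| + 1) * ρ ≤ β ∧
      2000 * (|C| + 1) * ρ ≤ η := by
    have c : 0 < 2000 * (|C| + 1) := by positivity
    refine ⟨min (1 / 10) (min β η / (2000 * (|C| + 1))), by positivity, min_le_left _ _, ?_, ?_⟩
    · exact (le_div_iff₀' c).1 ((min_le_right _ _).trans (by gcongr; exact min_le_left _ _))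
    · exact (le_div_iff₀' c).1 ((min_le_right _ _).trans (by gcongr; exact min_le_right _ _))
  refine ⟨ρ ^ 2, by positivity, fun u ε G y h t hG => ?_⟩
  have e0 := t.e0
  have c1 := h.C1
  rw [abs_of_nonneg (by linarith : 0 ≤ C)] at r2 r3
  have e1 : ε ≤ ρ ^ 2 := by nlinarith [t.G2]
  have e2 : ε ≤ ρ / 10 := by nlinarith
  have q1 := q_le h t
  have q0 := h.q0 y
  have q2 : qq u y ≤ ρ := by nlinarith
  have n0 := norm_nonneg (pp u y)
  have qe : qq u y = 1 - ‖pp u y‖ ^ 2 := rfl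
  have p1 : 1 / 2 ≤ ‖pp u y‖ := by
    by_contra hc
    nlinarith
  have p2 : ‖pp u y‖ ≤ 1 := by
    by_contra hc
    nlinarith
  have p0 : pp u y ≠ 0 := norm_pos_iff.1 (by linarith)
  have bB : ‖BB u y‖ ≤ 14 * C * ε := by
    have a := ((tgc _ C u h).2.2.2.1 y p0).2.2.2.2.2.2.2.2.2.1
    have s : √(qq u y) ≤ 7 * ε := Real.sqrt_le_iff.2 ⟨by positivity, q1⟩
    have i : ‖pp u y‖⁻¹ ≤ 2 := by
      rw [inv_le_comm₀ (by linarith) (by norm_num)]; linarith
    calc _ ≤ ‖pp u y‖⁻¹ * ‖SS u y‖ := a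
      _ ≤ 2 * (C * (7 * ε)) := by
          have := h.S0 y
          gcongr
          exact this.trans (by gcongr)
      _ = _ := by ring
  have tB : ∀ s : ℝ, |s| ≤ G + 65 * lg ε → ‖s • BB u y‖ ≤ 2000 * (C + 1) * ρ := fun s hs => by
    have a := lg_le e0 r0 e1
    have b : |s| * ε ≤ 131 * ρ := by nlinarith
    rw [norm_smul, Real.norm_eq_abs]
    calc _ ≤ |s| * (14 * C * ε) := by gcongr
      _ = 14 * C * (|s| * ε) := by ring
      _ ≤ 14 * C * (131 * ρ) := by gcongr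
      _ ≤ _ := by nlinarith
  refine ⟨?_, fun s hs => ?_⟩
  · have := (hb C u (y, 0) h p0 (by
      show ‖(0 : ℝ) • BB u y‖ ≤ β
      rw [norm_smul, norm_zero, zero_mul]; exact b0.le)).2.2.2 p1
    exact this.trans (by gcongr)
  · obtain ⟨j, a, ⟨b, k1, k2, k3⟩, -⟩ := hb C u (y, s) h p0 ((tB s hs).trans r2)
    have hn := hs_nn (BB u y)
    simp only at j a k1 k2 k3
    refine ⟨⟨p0, ((tB s hs).trans r2).trans_lt (by linarith)⟩, (tB s hs).trans r3, ?_,
      fun v => (a v).trans (by gcongr; linarith), b, by nlinarith, by nlinarith, k3⟩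
    have w : 1 - ‖pp u y‖ ≤ η / 2 := by nlinarith
    rw [abs_le] at j ⊢
    constructor <;> linarith [j.1, j.2]

end Vale.Agent.P134E
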