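import Vale.Agent.P134E.Spec

/-!
# P134E, row RAYF: the outer sides of a ray
-/

set_option linter.unusedVariables false

open MeasureTheory Metric Filter Topology Set
open scoped ContDiff RealInnerProductSpace
open Vale.Agent.P366.Stmt (E)

noncomputable section

namespace Vale.Agent.P134E

open Vale.Agent.P134B

namespace RayF

variable {n : ℕ}

theorem zn_mono {δ δ' : ℝ} {u : E n → ℝ} {e x : E n} (h : Zn δ u e x) (hδ : δ ≤ δ') :
    Zn δ' u e x :=
  ⟨h.t0.trans hδ, fun τ hτ => (h.t1 τ hτ).trans (mul_le_mul_of_nonneg_right hδ (norm_nonneg _)),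
    h.t2.trans hδ, h.t3.imp (fun k => k.trans hδ) fun k => by linarith⟩

theorem lg_bd {ε : ℝ} (h0 : 0 < ε) (h : ε ≤ 1 / 20000) : 1 ≤ lg ε ∧ 65 * lg ε < 1 / ε := by
  have h1 : 20000 ≤ 1 / ε := by rw [le_div_iff₀ h0]; linarith
  have h2 : lg ε = Real.log (1 / ε) := by rw [lg, one_div, Real.log_inv]
  have h3 : Real.log (1 / ε) = Real.log (1 / ε / 132) + Real.log 132 := by
    rw [← Real.log_mul (by positivity) (by norm_num), div_mul_cancel₀ _ (by norm_num)]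
  have h4 := Real.log_le_sub_one_of_pos (show 0 < 1 / ε / 132 by positivity)
  have h5 := Real.log_le_sub_one_of_pos (show (0 : ℝ) < 132 by norm_num)
  rw [h2]
  exact ⟨(Real.le_log_iff_exp_le (by positivity)).2 (by linarith [Real.exp_one_lt_d9]),
    by linarith⟩

theorem unit_near {p e : E n} {θ : ℝ} (he : ‖e‖ = 1) (h : ‖p - e‖ ≤ θ) (hθ : θ < 1) :
    ‖‖p‖⁻¹ • p‖ = 1 ∧ ‖e - ‖p‖⁻¹ • p‖ ≤ 2 * θ := by
  have h1 := abs_le.1 ((abs_norm_sub_norm_le p e).trans h)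
  have h0 : 0 < ‖p‖ := by linarith [h1.1]
  refine ⟨by rw [norm_smul, norm_inv, norm_norm, inv_mul_cancel₀ h0.ne'], ?_⟩
  have h2 : ‖p - ‖p‖⁻¹ • p‖ ≤ θ := by
    rw [show p - ‖p‖⁻¹ • p = (1 - ‖p‖⁻¹) • p by rw [sub_smul, one_smul], norm_smul,
      Real.norm_eq_abs, ← abs_of_pos h0, ← abs_mul, abs_of_pos h0, sub_mul, inv_mul_cancel₀ h0.ne',
      abs_le]
    constructor <;> linarith [h1.1, h1.2]
  linarith [norm_sub_le_norm_sub_add_norm_sub e p (‖p‖⁻¹ • p), norm_sub_rev e p]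

/-- the data behind a zero of the ray -/
theorem lr (hS : SYM) (hL : TL) (hZ : ZT) (hN : LN0) (m : ℕ) (C δ : ℝ) (hC : 1 ≤ C) (hδ : 0 < δ)
    (hδ1 : δ ≤ 1 / 1000) : ∃ ε₀ > (0 : ℝ), ∀ (u : E (m + 1) → ℝ) (ε t₀ σ : ℝ) (y : E (m + 1)),
    Ok C u → 0 < ε → ε ≤ ε₀ → Gd u ε y (4 / ε) → ‖nu u y‖ = 1 → σ * σ = 1 → |t₀| ≤ 3 / ε →
    u (ray u (y, t₀)) = 0 → σ * sl u (y, t₀) ≤ -(1 - (δ / (12 * C)) ^ 2 / 2) →
    Lr u y t₀ σ ε δ (65 * lg ε) := by
  obtain ⟨ε₀, ε0, hL⟩ := hL m C 66 (δ / 2) (half_pos hδ)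
  refine ⟨min ε₀ (1 / 20000), by positivity, fun u ε t₀ σ y ok e0 e1 gd ν1 σ1 t1 z0 s1 => ?_⟩
  obtain ⟨l1, l2⟩ := lg_bd e0 (e1.trans (min_le_right _ _))
  obtain ⟨⟨a1, a2, a3, a4, a5, a6⟩, a7, -⟩ := hS.1 _ u
  set θ := δ / (12 * C) with hθ
  have θ0 : 0 < θ := by positivity
  have θ1 : 12 * C * θ = δ := mul_div_cancel₀ _ (by positivity)
  have θ2 : θ ≤ δ := by nlinarith
  set z := ray u (y, t₀) with hz
  set e := σ • nu u y with he
  have σ2 : |σ| = 1 := by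
    rw [← sq_eq_sq₀ (abs_nonneg _) zero_le_one, sq_abs, sq, σ1, one_pow]
  have n1 : ‖e‖ = 1 := by rw [he, norm_smul, Real.norm_eq_abs, σ2, ν1, one_mul]
  have pt : ∀ t : ℝ, z + t • e = ray u (y, t₀ + σ * t) := fun t => by
    simp only [hz, he, ray, add_smul, smul_smul, mul_comm t σ, add_assoc]
  have g1 : Gd (-u) ε z (1 / ε) := fun x hx => by
    rw [a6]
    refine gd x (ball_subset_ball' ?_ hx)
    rw [dist_eq_norm, hz, ray, add_sub_cancel_left, norm_smul, ν1, Real.norm_eq_abs, mul_one]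
    linarith [show 4 / ε = 1 / ε + 3 / ε by ring]
  have z1 : (-u) z = 0 := by rw [Pi.neg_apply, z0, neg_zero]
  have p1 : ‖pp (-u) z - e‖ ≤ θ := by
    refine (sq_le_sq₀ (norm_nonneg _) θ0.le).1 ?_
    have q := ok.q0 z
    rw [norm_sub_sq_real, n1, a3, Pi.neg_apply, norm_neg, inner_neg_left, he, inner_smul_right]
    unfold qq at q
    unfold sl at s1
    linarith
  obtain ⟨u1, u2⟩ := unit_near n1 p1 (by linarith)
  have zn : ∀ t, |t| ≤ 65 * lg ε → Zn δ (-u) e (z + t • e) ∧ EE (-u) (z + t • e) ≤ ε ^ 2 :=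
    fun t ht => by
      have d1 : dist (z + t • e) z ≤ 65 * lg ε := by
        rwa [dist_eq_norm, add_sub_cancel_left, norm_smul, n1, mul_one]
      refine ⟨zn_mono (hZ _ C _ _ _ _ _ _ (a7 C ok) u1 n1 u2 (by positivity)
        (hL _ ε z (a7 C ok) e0 (e1.trans (min_le_left _ _)) g1 z1 _ (mem_ball.2 (by linarith))))
        ?_, g1 _ (mem_ball.2 (by linarith))⟩
      linarith [div_le_self (half_pos hδ).le l1]
  refine ⟨?_, fun t ht => ?_⟩
  · have := hN _ C ε δ (65 * lg ε) (-u) z e (a7 C ok) e0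
      (e1.trans ((min_le_right _ _).trans (by norm_num))) hδ hδ1 (by linarith) n1 z1
      (p1.trans θ2) zn
    simp only [pt, pe, a1, a2, a3, a4, a5, Pi.neg_apply, inner_neg_left,
      _root_.neg_apply] at this
    simp only [he, inner_smul_right, inner_smul_left, map_smul, conj_trivial, ← mul_assoc, σ1,
      one_mul, ← neg_mul] at this
    exact this
  · have := (zn t ht).1.t0
    rw [pt, pe, a3, Pi.neg_apply, inner_neg_left, neg_smul, sub_neg_eq_add, neg_add_eq_sub,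
      norm_sub_rev, he, inner_smul_right, smul_smul, mul_right_comm, σ1, one_mul,
      real_inner_comm] at this
    exact this

theorem zero {C η : ℝ} {u : E n → ℝ} {y : E n} (ok : Ok C u) (hη : η ≤ 1 / 10)
    (h0 : |ps u y| ≤ 1) (h : ∀ t, |t| ≤ 2 → 1 - η ≤ sl u (y, t)) :
    ∃ t₀, |t₀| ≤ 3 / 2 ∧ u (ray u (y, t₀)) = 0 := by
  have d : ∀ t, HasDerivAt (fun t : ℝ => ps u (ray u (y, t))) (sl u (y, t)) t := fun t => by
    have h1 := ((ok.smp.differentiable (by simp)) (ray u (y, t))).hasGradientAt.hasFDerivAt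
    have h2 : HasDerivAt (fun t : ℝ => ray u (y, t)) (nu u y) t := by
      simpa [ray] using ((hasDerivAt_id t).smul_const (nu u y)).const_add y
    exact h1.comp_hasDerivAt t h2
  have c : Continuous fun t : ℝ => ps u (ray u (y, t)) :=
    continuous_iff_continuousAt.2 fun t => (d t).continuousAt
  have mv := (convex_Icc (-2 : ℝ) 2).mul_sub_le_image_sub_of_le_deriv c.continuousOn
    (fun t _ => (d t).differentiableAt.differentiableWithinAt) (C := 9 / 10) fun t ht => by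
      rw [(d t).deriv]
      linarith [h t (abs_le.2 (mem_Icc.1 (interior_subset ht)))]
  have m1 := mv 0 (by norm_num) (3 / 2) (by norm_num) (by norm_num)
  have m2 := mv (-(3 / 2)) (by norm_num) 0 (by norm_num) (by norm_num)
  have r0 : ray u (y, 0) = y := by simp [ray]
  simp only [r0] at m1 m2
  obtain ⟨t, ht, e⟩ := intermediate_value_Icc (show -(3 / 2 : ℝ) ≤ 3 / 2 by norm_num)
    c.continuousOn (show (0 : ℝ) ∈ Icc _ _ from
      ⟨by linarith [(abs_le.1 h0).2], by linarith [(abs_le.1 h0).1]⟩)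
  refine ⟨t, abs_le.2 ht, ?_⟩
  rw [ok.th, show ps u (ray u (y, t)) = 0 from e, zero_div, Real.tanh_zero]

end RayF

open RayF in
theorem rayf : rRAYF := by
  intro hT hS _ hL hZ hN h0 h1 m C δ hδ hδ1
  by_cases hC : 1 ≤ C
  swap
  · exact ⟨1, one_pos, fun u ε G y ok => absurd ok.C1 hC⟩
  obtain ⟨ε₀, ε0, hl⟩ := lr hS hL hZ hN m C δ hC hδ hδ1
  set η := (δ / (12 * C)) ^ 2 / 2 with hη
  have η0 : 0 < η := by positivity
  have η1 : η ≤ 1 / 10 := by
    have a1 : δ / (12 * C) ≤ 1 / 10 := by rw [div_le_iff₀ (by positivity)]; linarith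
    have a2 : 0 < δ / (12 * C) := by positivity
    nlinarith
  obtain ⟨K₀, h0⟩ := h0 m C 1
  obtain ⟨β₀, β0, h0⟩ := h0 K₀ le_rfl η η0
  obtain ⟨K₁, h1⟩ := h1 m C 1
  obtain ⟨β₁, β1, h1⟩ := h1 K₁ le_rfl η η0
  refine ⟨min (min β₀ β₁) (min ε₀ 1), by positivity, fun u ε G y ok th hG => ?_⟩
  simp only [le_min_iff] at hG
  obtain ⟨⟨b0, b1⟩, b2, b3⟩ := hG
  have e0 := th.e0
  have G2 := th.G2
  obtain ⟨r1, r2⟩ := h0 u ε G y ok th b0
  have ν1 := ((hT _ C u ok).2.2.2.1 y r1).1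
  have k : ∀ t, |t| ≤ G → |t| ≤ 3 / ε := fun t ht => by
    rw [le_div_iff₀ e0]; nlinarith
  have hl' := fun t σ => hl u ε t σ y ok e0 (by nlinarith) th.gd ν1
  refine ⟨?_, fun hg => ?_⟩
  · obtain ⟨t, t1, t2⟩ := zero ok η1 th.ps fun t ht => (r2 t (by linarith)).1
    exact ⟨t, t1, hl' t (-1) (by norm_num) (k t (by linarith)) t2 (by
      linarith [(r2 t (by linarith)).1])⟩
  · obtain ⟨r3, r4⟩ := h1 u ε G y ok th b1 hg
    have g0 : 0 ≤ gp u G y := Real.sInf_nonneg fun t ht => zero_le_two.trans ht.1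
    exact hl' _ 1 (by norm_num) (k _ (by rw [abs_of_nonneg g0]; exact hg.le)) r3 (by
      linarith [(r4 (gp u G y) (by simp)).1])

end Vale.Agent.P134E
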