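import Vale.Agent.P134E.Spec
import Vale.Agent.P134T.Calc

/-!
# P134E, row RAYM: the gap
-/

open Metric Set
open scoped RealInnerProductSpace
open Vale.Agent.P366.Stmt (E)

noncomputable section

namespace Vale.Agent.P134E

open Vale.Agent.P134B Vale.Agent.P134T

theorem raym_der {n : ℕ} {C : ℝ} {u : E n → ℝ} (h : Ok C u) (y : E n) (t : ℝ) :
    HasDerivAt (fun t => ps u (ray u (y, t))) (sl u (y, t)) t := by
  have := (d2 (c2 h.smp) (ray u (y, t))).hasFDerivAt.comp_hasDerivAt t
    (((hasDerivAt_id t).smul_const (nu u y)).const_add y)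
  rwa [one_smul, ← P366W.inner_grad] at this

theorem raym : rRAYM := fun tgc greg slab r0 r1 low m C ℓ => by
  refine ⟨4 * |ℓ| + 32 * |C| + 3, fun L hL => ?_⟩
  obtain ⟨β₁, b1, slab⟩ := slab m C 1 one_pos
  obtain ⟨K₀, r0⟩ := r0 m C L
  obtain ⟨β₂, b2, r0⟩ := r0 K₀ le_rfl (1 / 2) (by norm_num)
  obtain ⟨K₁, r1⟩ := r1 m C L
  obtain ⟨β₃, b3, r1⟩ := r1 K₁ le_rfl (1 / 2) (by norm_num)
  obtain ⟨K, β₄, b4, low⟩ := low m C
  refine ⟨min (min β₁ β₂) (min (min β₃ β₄) (Real.exp (-|8 * L + K|))), by positivity,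
    fun u ε G y h ht hβ hg => ?_⟩
  simp only [le_min_iff] at hβ
  obtain ⟨⟨c1, c2'⟩, ⟨c3, c4⟩, c5⟩ := hβ
  obtain ⟨p0, r0⟩ := r0 u ε G y h ht c2'
  obtain ⟨z1, r1⟩ := r1 u ε G y h ht c3 hg
  have lo := low u ε G y h ht c4 hg
  obtain ⟨g2, -, gpos, -⟩ := (greg _ C G u h ht.G2).2 y
  obtain ⟨n1, -, -, -, -, -, n2, n3, -⟩ := (tgc _ C u h).2.2.2.1 y p0
  set g := gp u G y
  have l0 := abs_nonneg ℓ
  have l1 := le_abs_self ℓ
  have C1 := h.C1
  rw [abs_of_pos (by linarith : 0 < C)] at hL
  have s1 : (1 : ℝ) ≤ √2 := Real.one_le_sqrt.2 one_le_two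
  have s2 : √2 ≤ (2 : ℝ) := Real.sqrt_le_iff.2 ⟨by norm_num, by norm_num⟩
  have key : ∀ t ∈ Icc 0 g, ff u (ray u (y, t)) ≤ 8 * C * Real.exp (-(min t (g - t) / 2)) := by
    intro t ht'
    have m1 := min_le_left t (g - t)
    have m2 := min_le_right t (g - t)
    have a : ff u (ray u (y, t)) ≤ C * Real.exp (-(min t (g - t) / 2 - 1)) := by
      rcases le_total 0 (min t (g - t) / 2 - 1) with hr | hr
      · refine h.dec _ _ hr fun z hz h0 => ?_
        obtain ⟨w, rfl⟩ : ∃ w, z = y + (t • nu u y + w) := ⟨z - y - t • nu u y, by abel⟩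
        rw [mem_ball_iff_norm, ray, ← add_assoc, add_sub_cancel_left] at hz
        have w1 := abs_le.1 (abs_real_inner_le_norm w (nu u y))
        have w2 := (n3 w).1
        have w3 := norm_add_le (t • nu u y) w
        rw [norm_smul, n1, mul_one, Real.norm_of_nonneg ht'.1] at w3
        rw [n1, mul_one] at w1
        have := slab u ε G y _ h ht c1 h0 (by rw [add_sub_cancel_left]; linarith [ht'.2])
        rw [add_sub_cancel_left, map_add, map_smul, n2, smul_zero, zero_add, inner_add_left,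
          real_inner_smul_left, real_inner_self_eq_norm_sq, n1] at this
        rcases this with k | k <;> linarith [w1.1, w1.2]
      · exact (ff_le u _).trans (one_le_mul_of_one_le_of_one_le C1
          (Real.one_le_exp (neg_nonneg.2 hr)))
    rw [neg_sub, sub_eq_add_neg, Real.exp_add] at a
    nlinarith [Real.exp_one_lt_d9, mul_pos (by linarith : 0 < C)
      (Real.exp_pos (-(min t (g - t) / 2)))]
  refine ⟨?_, key, fun t ht' => ?_, fun t ht' => ⟨?_, ?_⟩⟩
  · have : |8 * L + K| ≤ lg ε := by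
      rw [lg, le_neg]
      exact (Real.log_le_iff_le_exp ht.e0).2 (by nlinarith [ht.G2, ht.e0])
    nlinarith [le_abs_self (8 * L + K), abs_nonneg (8 * L + K)]
  · have a := (h.flo _).trans (key t ⟨by linarith [ht'.1], by linarith [ht'.2]⟩)
    have b : Real.exp (-(min t (g - t) / 2)) ≤ Real.exp (-(2 * |ℓ|)) * Real.exp (-(16 * C)) := by
      rw [← Real.exp_add, Real.exp_le_exp]
      linarith [le_min ht'.1 (by linarith [ht'.2] : L ≤ g - t)]
    have c : 16 * C * Real.exp (-(16 * C)) < 1 := by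
      rw [Real.exp_neg, ← div_eq_mul_inv, div_lt_one (Real.exp_pos _)]
      linarith [Real.add_one_le_exp (16 * C)]
    have d : Real.exp (-(√2 * |ps u (ray u (y, t))|)) < Real.exp (-(2 * |ℓ|)) := by
      rw [div_le_iff₀ (by positivity)] at a
      refine a.trans_lt ((mul_le_mul (mul_le_mul_of_nonneg_left b (by positivity)) s2
        (by positivity) (by positivity)).trans_lt ?_)
      linarith [mul_lt_mul_of_pos_left c (Real.exp_pos (-(2 * |ℓ|)))]
    have e := gpos t (by linarith [ht'.1]) (by linarith [ht'.2])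
    rw [h.th, Real.tanh_eq_sinh_div_cosh, lt_div_iff₀ (Real.cosh_pos _), zero_mul,
      Real.sinh_pos_iff, lt_div_iff₀ (by positivity), zero_mul] at e
    rw [Real.exp_lt_exp, abs_of_pos e] at d
    nlinarith
  · have := (convex_Icc (-t) 0).mul_sub_le_image_sub_of_le_deriv (C := 1 / 2)
      (fun s _ => (raym_der h y s).continuousAt.continuousWithinAt)
      (fun s _ => (raym_der h y s).differentiableAt.differentiableWithinAt)
      (fun s hs => by
        have hs' := interior_subset hs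
        rw [(raym_der h y s).deriv]
        linarith [(r0 s (abs_le.2 ⟨by linarith [hs'.1, ht'.2], by linarith [hs'.2]⟩)).1])
      (-t) ⟨le_rfl, by linarith [ht'.1]⟩ 0 ⟨by linarith [ht'.1], le_rfl⟩ (by linarith [ht'.1])
    rw [show ray u (y, 0) = y by simp [ray]] at this
    linarith [ht'.1, (abs_le.1 ht.ps).2]
  · have := (convex_Icc g (g + t)).image_sub_le_mul_sub_of_deriv_le (C := -(1 / 2))
      (fun s _ => (raym_der h y s).continuousAt.continuousWithinAt)
      (fun s _ => (raym_der h y s).differentiableAt.differentiableWithinAt)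
      (fun s hs => by
        have hs' := interior_subset hs
        rw [(raym_der h y s).deriv]
        linarith [(r1 s (abs_le.2 ⟨by linarith [hs'.1], by linarith [hs'.2, ht'.2]⟩)).1])
      g ⟨le_rfl, by linarith [ht'.1]⟩ (g + t) ⟨by linarith [ht'.1], le_rfl⟩ (by linarith [ht'.1])
    rw [h.tps_zero.2 z1] at this
    linarith [ht'.1]

end Vale.Agent.P134E
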