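import Vale.Agent.P134E.Lib
import Vale.Agent.P134E.RAY0

/-!
# P134E: the regularity of the cuts
-/

open MeasureTheory Metric Filter Topology Set
open scoped ContDiff RealInnerProductSpace
open Vale.Agent.P366.Stmt (E)

noncomputable section

namespace Vale.Agent.P134E

open Vale.Agent.P134B Vale.Agent.P134T

namespace Regw

variable {n : ℕ} {C K η L ℓ δ ε G : ℝ} {u : E n → ℝ} {y : E n}

theorem tg0 {φ : E n × ℝ → ℝ} {z : E n × ℝ} {c : ℝ} (h : φ =ᶠ[𝓝 z] fun _ => c) : tg u φ z = 0 := by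
  have k : (fun y => φ (y, z.2)) =ᶠ[𝓝 z.1] fun _ => c :=
    (show Tendsto (fun y : E n => (y, z.2)) (𝓝 z.1) (𝓝 z) from
      (Continuous.prodMk_left z.2).tendsto z.1).eventually h
  simp [tg, h.fderiv_eq, gradient, k.fderiv_eq]

theorem g16 (r : Ry C K η L ℓ δ u ε G y) : 16 ≤ gp u G y := by linarith [r.rm.1, r.L1]

theorem sv_lo {t : ℝ} (h : t < 2) : sv u G (y, t) = sl u (y, t) := if_pos h

theorem sv_hi (r : Ry C K η L ℓ δ u ε G y) {t : ℝ} (h : gp u G y - 2 < t) :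
    sv u G (y, t) = -sl u (y, t) := by
  have := g16 r
  rw [sv, if_neg (by simp only; linarith), if_pos h]

theorem s0 (r : Ry C K η L ℓ δ u ε G y) {t : ℝ} (h : |t| ≤ 2 * L) : 1 / 2 < sl u (y, t) := by
  linarith [(r.r0.2 t h).1, r.η1]

theorem s1 (r : Ry C K η L ℓ δ u ε G y) {t : ℝ} (h : |t - gp u G y| ≤ 2 * L) :
    1 / 2 < -sl u (y, t) := by
  linarith [(r.r1.2 t h).1, r.η1]

theorem mid (r : Ry C K η L ℓ δ u ε G y) {t : ℝ} (h : t ∈ Icc (-(2 * L)) (gp u G y + 2 * L)) :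
    1 / 2 ≤ sv u G (y, t) := by
  have := r.L1
  rcases lt_or_ge t 2 with a | a
  · rw [sv_lo a]; exact (s0 r (abs_le.2 ⟨h.1, by linarith⟩)).le
  rcases lt_or_ge (gp u G y - 2) t with b | b
  · rw [sv_hi r b]; exact (s1 r (abs_le.2 ⟨by linarith, by linarith [h.2]⟩)).le
  · rw [sv, if_neg (not_lt.2 a), if_neg (not_lt.2 b)]; norm_num

theorem sign (h : Ok C u) (x : E n) : (0 < ps u x → 0 < u x) ∧ (u x < 0 → ps u x < 0) := by
  have k : ∀ s : ℝ, 0 ≤ s → 0 ≤ Real.sinh (s / √2) := fun s hs =>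
    Real.sinh_nonneg_iff.2 (by positivity)
  rw [h.th x, Real.tanh_eq_sinh_div_cosh]
  refine ⟨fun a => div_pos (Real.sinh_pos_iff.2 (by positivity)) (Real.cosh_pos _), fun a => ?_⟩
  exact not_le.1 fun b => absurd a (not_lt.2 (div_nonneg (k _ b) (Real.cosh_pos _).le))

theorem pos2 (h : Ok C u) (r : Ry C K η L ℓ δ u ε G y) : 0 < u (ray u (y, 2)) := by
  refine (sign h _).1 ?_
  obtain ⟨c, hc, e⟩ := exists_hasDerivAt_eq_slope (fun t : ℝ => ps u (y + t • nu u y))
    (fun t => pe u (nu u y) (y + t • nu u y)) two_pos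
    (fun t _ => (Seg.dps h y _ t).continuousAt.continuousWithinAt) fun t _ => Seg.dps h y _ t
  have a := s0 r (t := c) (abs_le.2 ⟨by linarith [hc.1, r.L1], by linarith [hc.2, r.L1]⟩)
  simp only [zero_smul, add_zero, sub_zero] at e
  change 1 / 2 < pe u (nu u y) (y + c • nu u y) at a
  change 0 < ps u (y + (2 : ℝ) • nu u y)
  linarith [(abs_le.1 r.th.ps).1]

theorem csl (hT : TGC) (h : Ok C u) (p0 : pp u y ≠ 0) (t : ℝ) : ContDiffAt ℝ 1 (sl u) (y, t) := by
  obtain ⟨-, a, -, -, b, -⟩ := (hT _ _ u h).2.2.2.1 y p0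
  exact ((h.tcp.contDiffAt.comp _ (b t)).inner ℝ (a.comp (y, t) contDiffAt_fst)).of_le
    (m := 1) (by simp)

/-- the local form of the slope -/
theorem loc (r : Ry C K η L ℓ δ u ε G y) (cg : ContinuousAt (gp u G) y)
    (cs : ∀ t, ContinuousAt (sl u) (y, t)) (t : ℝ) : sv u G =ᶠ[𝓝 (y, t)] sl u ∨
    sv u G =ᶠ[𝓝 (y, t)] (fun z => -sl u z) ∨ ∀ᶠ z in 𝓝 (y, t), 1 / 2 ≤ sv u G z := by
  have L1 := r.L1
  have g1 := g16 r
  have c2 : ContinuousAt (fun z : E n × ℝ => gp u G z.1 - 2) (y, t) :=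
    (cg.comp_of_eq continuousAt_fst rfl).sub continuousAt_const
  rcases lt_or_ge t 2 with a | a
  · exact .inl ((continuousAt_snd.eventually_lt continuousAt_const a).mono fun z k => if_pos k)
  rcases lt_or_ge (gp u G y - 2) t with b | b
  · refine .inr (.inl ?_)
    filter_upwards [c2.eventually_lt continuousAt_snd b, (continuousAt_const (y := (2 : ℝ))).eventually_lt
      (continuousAt_snd (p := (y, t))) (by simp only; linarith)] with z k1 k2
    rw [sv, if_neg (not_lt.2 k2.le), if_pos k1]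
  have e1 : ∀ᶠ z in 𝓝 (y, t), z.2 < 2 → 1 / 2 ≤ sl u z := by
    rcases a.eq_or_lt with a | a
    · exact (continuousAt_const.eventually_lt (cs t)
        (s0 r (abs_le.2 ⟨by linarith, by linarith⟩))).mono fun z k _ => k.le
    · exact (continuousAt_const.eventually_lt (continuousAt_snd (p := (y, t))) a).mono
        fun z k k' => absurd k (not_lt.2 k'.le)
  have e2 : ∀ᶠ z in 𝓝 (y, t), gp u G z.1 - 2 < z.2 → 1 / 2 ≤ -sl u z := by
    rcases b.eq_or_lt with b | b
    · exact (continuousAt_const.eventually_lt (cs t).neg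
        (s1 r (abs_le.2 ⟨by linarith, by linarith⟩))).mono fun z k _ => k.le
    · exact (continuousAt_snd.eventually_lt c2 b).mono fun z k k' => absurd k (not_lt.2 k'.le)
  refine .inr (.inr ?_)
  filter_upwards [e1, e2] with z k1 k2
  unfold sv
  split_ifs with i1 i2
  exacts [k1 i1, k2 i2, by norm_num]

theorem cmin (r : Ry C K η L ℓ δ u ε G y) (cg : ContinuousAt (gp u G) y)
    (cs : ∀ t, ContinuousAt (sl u) (y, t)) (t : ℝ) :
    ContinuousAt (fun z => min (sv u G z) (1 / 2)) (y, t) := by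
  rcases loc r cg cs t with k | k | k
  · exact ((cs t).congr k.symm).min continuousAt_const
  · exact ((cs t).neg.congr k.symm).min continuousAt_const
  · exact continuousAt_const.congr (k.mono fun z k => (min_eq_right k).symm)

theorem uI {a b : ℝ} : b ∈ uIcc 0 a ↔ ∃ θ ∈ Icc (0 : ℝ) 1, θ * a = b := by
  rw [← segment_eq_uIcc, segment_eq_image]
  simp

section

variable (cm : ∀ t, ContinuousAt (fun z => min (sv u G z) (1 / 2)) (y, t))
include cm

theorem ev_gt {a t : ℝ} (ha : a < 1 / 2) (h : a < sv u G (y, t)) :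
    ∀ᶠ z in 𝓝 (y, t), a < sv u G z :=
  (continuousAt_const.eventually_lt (cm t) (lt_min h ha)).mono fun _ k => (lt_min_iff.1 k).1

theorem ev_lt {a t : ℝ} (ha : a ≤ 1 / 2) (h : sv u G (y, t) < a) :
    ∀ᶠ z in 𝓝 (y, t), sv u G z < a :=
  ((cm t).eventually_lt continuousAt_const (min_lt_of_left_lt h)).mono fun _ k =>
    (min_lt_iff.1 k).resolve_right (not_lt.2 ha)

theorem W_nhds {t : ℝ} (h : (y, t) ∈ WW u G) : ∀ᶠ z in 𝓝 (y, t), z ∈ WW u G := by
  have := (isCompact_Icc (a := (0 : ℝ)) (b := 1)).eventually_forall_of_forall_eventually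
    (x₀ := (y, t)) (P := fun z θ => -(3 / 4) < sv u G (z.1, θ * z.2)) fun θ hθ =>
    (show Tendsto (fun w : (E n × ℝ) × ℝ => (w.1.1, w.2 * w.1.2)) (𝓝 ((y, t), θ))
      (𝓝 (y, θ * t)) from Continuous.tendsto' (by fun_prop) _ _ rfl).eventually
      (ev_gt cm (by norm_num) (h _ (uI.2 ⟨θ, hθ, rfl⟩)))
  refine this.mono fun z k s hs => ?_
  obtain ⟨θ, hθ, rfl⟩ := uI.1 hs
  exact k θ hθ

theorem W_out {t : ℝ} (h : sv u G (y, t) = -(3 / 4) ∨ ∃ s ∈ uIcc 0 t, sv u G (y, s) < -(3 / 4)) :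
    aW u G =ᶠ[𝓝 (y, t)] fun _ => 0 := by
  rcases h with h | ⟨s, hs, h⟩
  · refine (ev_lt cm (a := -(5 / 8)) (t := t) (by norm_num) (by rw [h]; norm_num)).mono fun z k => ?_
    exact indicator_apply_eq_zero.2 fun _ => st_zero (by linarith)
  · obtain ⟨θ, hθ, rfl⟩ := uI.1 hs
    refine ((show Tendsto (fun w : E n × ℝ => (w.1, θ * w.2)) (𝓝 (y, t)) (𝓝 (y, θ * t)) from
      Continuous.tendsto' (by fun_prop) _ _ rfl).eventually (ev_lt cm (by norm_num) h)).mono
      fun z k => ?_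
    exact indicator_of_notMem (s := WW u G)
      (fun a => absurd (a _ (uI.2 ⟨θ, hθ, rfl⟩)) (not_lt.2 k.le)) _

end

/-- the outer side of the second sheet -/
theorem hi (hc : COL) (h : Ok C u) (r : Ry C K η L ℓ δ u ε G y) {t : ℝ} (h1 : gp u G y + 2 ≤ t)
    (h2 : t ≤ gp u G y + 64 * lg ε) :
    ((y, t) ∉ WW u G → sv u G (y, t) = -(3 / 4) ∨ ∃ s ∈ uIcc 0 t, sv u G (y, s) < -(3 / 4)) ∧
    ((y, t) ∈ WW u G → ps u (ray u (y, t)) < 0 ∧
      ff u (ray u (y, t)) ≤ Real.exp (122 - max (-t) (t - gp u G y))) := by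
  have L1 := r.L1
  have g1 := g16 r
  have l1 := r.lg
  obtain ⟨⟨b, cl⟩, -, -, c4, -⟩ := hc _ _ _ (-(3 / 4)) _ _ _ _ _ _ r.rf.2.ln (by norm_num)
    (by norm_num)
  obtain ⟨τ, rfl⟩ : ∃ τ, t = gp u G y + 1 * τ := ⟨t - gp u G y, by ring⟩
  have e : ∀ s, 0 ≤ s → -1 * sl u (y, gp u G y + 1 * s) = sv u G (y, gp u G y + 1 * s) :=
    fun s hs => by rw [sv_hi r (by linarith), neg_one_mul]
  have τ0 : 0 < τ := by linarith
  have t0 : 0 ≤ gp u G y + 1 * τ := by linarith
  constructor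
  · intro k
    rcases c4 τ τ0.le (by linarith) (fun a => k fun s hs => by
      rw [uIcc_of_le t0] at hs
      rcases le_total s (gp u G y) with i | i
      · linarith [mid r (t := s) ⟨by linarith [hs.1], by linarith⟩]
      · have := a.2 (s - gp u G y) (by
          rw [uIcc_of_le τ0.le]; exact ⟨by linarith, by linarith [hs.2]⟩)
        simp only at this
        rwa [e _ (by linarith), one_mul, add_sub_cancel] at this) with a | ⟨s, hs, a⟩
    · exact .inl ((e τ τ0.le).symm.trans a)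
    · exact .inr ⟨_, by rw [uIcc_of_le t0]; exact ⟨by linarith [hs.1], by linarith [hs.2]⟩,
        (e s hs.1).symm.trans_lt a⟩
  · intro k
    have i : τ ∈ Iv (fun t => -1 * sl u (y, gp u G y + 1 * t)) (65 * lg ε) (-(3 / 4)) :=
      ⟨by rw [abs_of_pos τ0]; linarith, fun s hs => by
        rw [uIcc_of_le τ0.le] at hs
        exact (k _ (by rw [uIcc_of_le t0]; exact ⟨by linarith [hs.1], by linarith [hs.2]⟩)).trans_eq
          (e s hs.1).symm⟩
    refine ⟨(sign h _).2 (neg_pos.1 (cl.ps τ i τ0)), (cl.dc τ i τ0.le).trans ?_⟩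
    rw [← Real.exp_add, max_eq_right (by linarith)]
    exact Real.exp_le_exp.2 (by linarith)

/-- the outer side of the first sheet -/
theorem lo (hc : COL) (h : Ok C u) (r : Ry C K η L ℓ δ u ε G y) {t : ℝ} (h1 : t ≤ -2)
    (h2 : -(64 * lg ε) ≤ t) :
    ((y, t) ∉ WW u G → sv u G (y, t) = -(3 / 4) ∨ ∃ s ∈ uIcc 0 t, sv u G (y, s) < -(3 / 4)) ∧
    ((y, t) ∈ WW u G → ps u (ray u (y, t)) < 0 ∧
      ff u (ray u (y, t)) ≤ Real.exp (122 - max (-t) (t - gp u G y))) := by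
  have L1 := r.L1
  have g1 := g16 r
  have l1 := r.lg
  obtain ⟨t₀, ht₀, lr⟩ := r.rf.1
  obtain ⟨a1, a2⟩ := abs_le.1 ht₀
  obtain ⟨⟨b, cl⟩, -, -, c4, -⟩ := hc _ _ _ (-(3 / 4)) _ _ _ _ _ _ lr.ln (by norm_num)
    (by norm_num)
  obtain ⟨τ, rfl⟩ : ∃ τ, t = t₀ + -1 * τ := ⟨t₀ - t, by ring⟩
  have e : ∀ s, 0 ≤ s → - -1 * sl u (y, t₀ + -1 * s) = sv u G (y, t₀ + -1 * s) :=
    fun s hs => by rw [sv_lo (by linarith), neg_neg, one_mul]
  have τ0 : 0 < τ := by linarith
  have t0 : t₀ + -1 * τ ≤ 0 := by linarith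
  constructor
  · intro k
    rcases c4 τ τ0.le (by linarith) (fun a => k fun s hs => by
      rw [uIcc_of_ge t0] at hs
      rcases le_total t₀ s with i | i
      · linarith [mid r (t := s) ⟨by linarith, by linarith [hs.2]⟩]
      · have := a.2 (t₀ - s) (by
          rw [uIcc_of_le τ0.le]; exact ⟨by linarith, by linarith [hs.1]⟩)
        simp only at this
        rwa [e _ (by linarith), show t₀ + -1 * (t₀ - s) = s by ring] at this) with a | ⟨s, hs, a⟩
    · exact .inl ((e τ τ0.le).symm.trans a)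
    · have a' := (e s hs.1).symm.trans_lt a
      refine .inr ⟨_, ?_, a'⟩
      rw [uIcc_of_ge t0]
      refine ⟨by linarith [hs.2], not_lt.1 fun j => ?_⟩
      linarith [mid r (t := t₀ + -1 * s) ⟨by linarith, by linarith [hs.1]⟩]
  · intro k
    have i : τ ∈ Iv (fun t => - -1 * sl u (y, t₀ + -1 * t)) (65 * lg ε) (-(3 / 4)) :=
      ⟨by rw [abs_of_pos τ0]; linarith, fun s hs => by
        rw [uIcc_of_le τ0.le] at hs
        refine lt_of_lt_of_eq ?_ (e s hs.1).symm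
        rcases le_total (t₀ + -1 * s) 0 with j | j
        · exact k _ (by rw [uIcc_of_ge t0]; exact ⟨by linarith [hs.2], j⟩)
        · linarith [mid r (t := t₀ + -1 * s) ⟨by linarith, by linarith [hs.1]⟩]⟩
    refine ⟨(sign h _).2 (neg_pos.1 (cl.ps τ i τ0)), (cl.dc τ i τ0.le).trans ?_⟩
    rw [← Real.exp_add, max_eq_left (by linarith)]
    exact Real.exp_le_exp.2 (by linarith)

theorem Vle (hT : TGC) (h : Ok C u) (r : Ry C K η L ℓ δ u ε G y) :
    ‖Vg u y (gp u G y)‖ ≤ 2 * η := by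
  have L1 := r.L1
  have g1 := g16 r
  have η0 := r.η0
  have η1 := r.η1
  obtain ⟨-, -, -, -, -, b0, -⟩ := (hT _ _ u h).2.2.2.1 y r.r0.1
  obtain ⟨a1, -, -, a2, -⟩ := r.r1.2 (gp u G y) (by rw [sub_self, abs_zero]; linarith)
  have a3 := (r.ra.2 (gp u G y) (by rw [abs_of_pos (by linarith)]; linarith [r.gG, r.lg])).2.1
  set p := pp u (ray u (y, gp u G y))
  have a4 : ‖gp u G y • BB u y p‖ ≤ η * η := by
    rw [Ray0.pj_eq u y p, map_add, map_smul, b0, smul_zero, add_zero]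
    exact ((gp u G y • BB u y).le_opNorm _).trans (mul_le_mul a3 a2 (norm_nonneg _) η0.le)
  have a5 := (norm_add_le _ _).trans (add_le_add a2 a4)
  rw [Vg, norm_smul, norm_neg, norm_inv, Real.norm_eq_abs, abs_of_neg (by linarith),
    inv_mul_le_iff₀ (by linarith)]
  refine a5.trans ?_
  nlinarith

theorem cut (hT : TGC) (h : Ok C u) {e : E n → ℝ} (r : Ry C K η L ℓ δ u (e y) G y)
    (cg : ContDiffAt ℝ 1 (gp u G) y) (hV : Pj u y (gradient (gp u G) y) = Vg u y (gp u G y))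
    (ce : ContDiffAt ℝ 1 e y) (he : ‖gradient e y‖ ≤ e y) {B : ℝ} (B1 : 1 ≤ B)
    (hB : ∀ x, |deriv st x| ≤ B) (t : ℝ) : ContDiffAt ℝ 1 (aT u e G) (y, t) ∧
    ‖tg u (aT u e G) (y, t)‖ ≤ 300 * B ∧ (tg u (aT u e G) (y, t) = 0 ∨
      t ∈ Icc (-(64 * lg (e y))) (-(64 * lg (e y)) + 1) ∨
      t ∈ Icc (gp u G y + 64 * lg (e y) - 1) (gp u G y + 64 * lg (e y))) := by
  have e0 := r.th.e0
  have g1 := g16 r
  have l1 : 7 ≤ lg (e y) := by linarith [r.lg, r.L1]
  have c1 : ContDiffAt ℝ 1 (fun y => 64 * lg (e y)) y := contDiffAt_const.mul (ce.log e0.ne').neg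
  have c2 : ContDiffAt ℝ 1 (fun z : E n × ℝ => 64 * lg (e z.1)) (y, t) :=
    ContDiffAt.comp (g := fun y => 64 * lg (e y)) (y, t) c1 contDiffAt_fst
  have c3 : ContDiffAt ℝ 1 (fun z : E n × ℝ => gp u G z.1) (y, t) :=
    ContDiffAt.comp (g := gp u G) (y, t) cg contDiffAt_fst
  have ca : ContDiffAt ℝ 1 (fun z : E n × ℝ => z.2 + 64 * lg (e z.1)) (y, t) := contDiffAt_snd.add c2
  have cb : ContDiffAt ℝ 1 (fun z : E n × ℝ => gp u G z.1 + 64 * lg (e z.1) - z.2) (y, t) :=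
    (c3.add c2).sub contDiffAt_snd
  have ca' := (st_cd (k := 1)).contDiffAt.comp _ ca
  have cb' := (st_cd (k := 1)).contDiffAt.comp _ cb
  have z1 : t < -(64 * lg (e y)) → tg u (aT u e G) (y, t) = 0 := fun k =>
    tg0 (c := 0) ((ca.continuousAt.eventually_lt (continuousAt_const (y := (0 : ℝ)))
      (by simp only; linarith)).mono fun z j => by simp only [aT, st_zero j.le, zero_mul])
  have z2 : gp u G y + 64 * lg (e y) < t → tg u (aT u e G) (y, t) = 0 := fun k =>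
    tg0 (c := 0) ((cb.continuousAt.eventually_lt (continuousAt_const (y := (0 : ℝ)))
      (by simp only; linarith)).mono fun z j => by simp only [aT, st_zero j.le, mul_zero])
  refine ⟨ca'.mul cb', ?_, ?_⟩
  · rcases lt_or_ge t (-(64 * lg (e y))) with a | a
    · rw [z1 a, norm_zero]; positivity
    rcases lt_or_ge (gp u G y + 64 * lg (e y)) t with b | b
    · rw [z2 b, norm_zero]; positivity
    obtain ⟨hU, -, -, hA, -⟩ := r.ra.2 t (abs_le.2 ⟨by linarith [r.gG], by linarith [r.gG]⟩)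
    obtain ⟨n1, -, -, -, -, -, -, n3, -⟩ := (hT _ _ u h).2.2.2.1 y r.r0.1
    obtain ⟨-, -, t1, t2, -, t3, t4, -⟩ := (hT _ _ u h).2.2.2.2.1 _ hU
    have A2 : ∀ v, ‖Ai u (y, t) v‖ ≤ 2 * ‖v‖ := fun v => by
      have := mul_le_mul_of_nonneg_right r.η1 (norm_nonneg v)
      linarith [norm_sub_norm_le (Ai u (y, t) v) v, hA v, norm_nonneg v]
    have d : ∀ {φ : E n × ℝ → ℝ}, ContDiffAt ℝ 1 φ (y, t) → DifferentiableAt ℝ φ (y, t) :=
      fun k => k.differentiableAt one_ne_zero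
    have l2 : ‖tg u (fun z : E n × ℝ => 64 * lg (e z.1)) (y, t)‖ ≤ 128 := by
      rw [t3 (fun y => 64 * lg (e y)) (c1.differentiableAt one_ne_zero),
        grad_comp (φ := fun s => 64 * lg s) (((Real.hasDerivAt_log e0.ne').neg).const_mul 64)
          (ce.differentiableAt one_ne_zero)]
      refine (A2 _).trans ?_
      have := (n3 ((64 * -(e y)⁻¹) • gradient e y)).1
      rw [norm_smul, norm_mul, norm_neg, norm_inv, Real.norm_of_nonneg e0.le,
        Real.norm_of_nonneg (by norm_num), mul_assoc] at this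
      linarith [(inv_mul_le_one₀ e0).2 he]
    have l3 : ‖tg u (fun z : E n × ℝ => gp u G z.1) (y, t)‖ ≤ 1 := by
      rw [t3 _ (cg.differentiableAt one_ne_zero), hV]
      linarith [A2 (Vg u y (gp u G y)), Vle hT h r, r.η1]
    have l4 : ‖tg u (fun z : E n × ℝ => z.2) (y, t)‖ = 1 := by rw [t4, n1]
    have l5 : ‖tg u (fun z : E n × ℝ => z.2 + 64 * lg (e z.1)) (y, t)‖ ≤ 150 := by
      rw [(t1 _ _ differentiableAt_snd (d c2)).2.1]
      linarith [norm_add_le (tg u (fun z : E n × ℝ => z.2) (y, t))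
        (tg u (fun z : E n × ℝ => 64 * lg (e z.1)) (y, t))]
    have l6 : ‖tg u (fun z : E n × ℝ => gp u G z.1 + 64 * lg (e z.1) - z.2) (y, t)‖ ≤ 150 := by
      rw [(t1 _ _ (d (c3.add c2)) differentiableAt_snd).2.2, (t1 _ _ (d c3) (d c2)).2.1]
      refine (norm_sub_le _ _).trans ((add_le_add (norm_add_le _ _) le_rfl).trans ?_)
      linarith
    have l7 : ∀ {φ : E n × ℝ → ℝ} (c : ℝ), ContDiffAt ℝ 1 φ (y, t) → ‖tg u φ (y, t)‖ ≤ 150 →
        ‖st c • tg u (fun w => st (φ w)) (y, t)‖ ≤ B * 150 := fun c k j => by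
      rw [t2 _ st _ (d k) (st_hd _), norm_smul, norm_smul, Real.norm_of_nonneg (st_nn c)]
      exact (mul_le_of_le_one_left (by positivity) (st_le c)).trans
        (mul_le_mul (hB _) j (norm_nonneg _) (by linarith))
    have := (t1 _ _ (d ca') (d cb')).1
    refine (congrArg norm this).trans_le ((norm_add_le _ _).trans ?_)
    exact (add_le_add (l7 _ cb l6) (l7 _ ca l5)).trans_eq (by ring)
  rcases lt_or_ge t (-(64 * lg (e y))) with a | a
  · exact .inl (z1 a)
  rcases le_or_gt t (-(64 * lg (e y)) + 1) with a' | a'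
  · exact .inr (.inl ⟨a, a'⟩)
  rcases lt_or_ge (gp u G y + 64 * lg (e y)) t with b | b
  · exact .inl (z2 b)
  rcases le_or_gt (gp u G y + 64 * lg (e y) - 1) t with b' | b'
  · exact .inr (.inr ⟨b', b⟩)
  refine .inl (tg0 (c := 1) ?_)
  filter_upwards [(continuousAt_const (y := (1 : ℝ))).eventually_lt ca.continuousAt
    (by simp only; linarith), (continuousAt_const (y := (1 : ℝ))).eventually_lt cb.continuousAt
    (by simp only; linarith)] with z i j
  simp only [aT, st_one i.le, st_one j.le, mul_one]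

end Regw

open Regw in
theorem regw : rREGW := by
  intro hT hG hc
  obtain ⟨B, B1, hB⟩ := st_bd
  refine ⟨300 * B, by linarith, fun n C K η L ℓ δ G u e y h r => ?_⟩
  have L1 := r.L1
  have g1 := g16 r
  have p0 := r.r0.1
  obtain ⟨cg, hV⟩ := (((hG _ _ G u h r.th.G2).2 y).2.2.2.2.2.2 p0).2 r.gG (pos2 h r) (by
    linarith [s1 r (t := gp u G y) (by rw [sub_self, abs_zero]; linarith)])
  have cs := fun t => (csl hT h p0 t).continuousAt
  have cm := cmin r cg.continuousAt cs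
  have c5 : ∀ c : ℝ → ℝ, ContDiff ℝ 1 c → (∀ s, 1 / 2 ≤ s → c s = c 1) →
      ∀ t, ContDiffAt ℝ 1 (fun z => c (sv u G z)) (y, t) := fun c c1 c2 t => by
    rcases loc r cg.continuousAt cs t with k | k | k
    · exact (c1.contDiffAt.comp _ (csl hT h p0 t)).congr_of_eventuallyEq (k.fun_comp c)
    · exact (c1.contDiffAt.comp _ (csl hT h p0 t).neg).congr_of_eventuallyEq (k.fun_comp c)
    · exact contDiffAt_const.congr_of_eventuallyEq (k.mono fun z j => c2 _ j)
  have mW : ∀ t ∈ Icc (-(2 * L)) (gp u G y + 2 * L), (y, t) ∈ WW u G := fun t ht s hs => by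
    linarith [mid r (uIcc_subset_Icc ⟨by linarith, by linarith⟩ ht hs)]
  refine ⟨cg, hV, Vle hT h r, ?_, c5, fun t ht => ⟨mid r ht, ?_⟩, fun t ht => ?_,
    fun ce he => cut hT h r cg hV ce he B1 fun x => (hB x).1⟩
  · obtain ⟨-, -, -, -, -, -, -, n3, -⟩ := (hT _ _ u h).2.2.2.1 y p0
    rw [← hV, (n3 _).2.2.1]
  · exact (indicator_of_mem (mW t ht) _).trans (st_one (by linarith [mid r ht]))
  have out : (y, t) ∉ WW u G → aW u G =ᶠ[𝓝 (y, t)] fun _ => 0 := fun k => W_out cm (by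
    rcases le_total t 0 with j | j
    · exact (lo hc h r (not_lt.1 fun i => k (mW t ⟨by linarith, by linarith⟩)) ht.1).1 k
    · exact (hi hc h r (not_lt.1 fun i => k (mW t ⟨by linarith, by linarith⟩)) ht.2).1 k)
  have far : (y, t) ∈ WW u G → t ≤ -2 ∨ gp u G y + 2 ≤ t → ps u (ray u (y, t)) < 0 ∧
      ff u (ray u (y, t)) ≤ Real.exp (122 - max (-t) (t - gp u G y)) := fun k j =>
    j.elim (fun j => (lo hc h r j ht.1).2 k) fun j => (hi hc h r j ht.2).2 k
  by_cases k : (y, t) ∈ WW u G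
  · have i : aW u G =ᶠ[𝓝 (y, t)] fun z => st (8 * sv u G z + 5) :=
      (W_nhds cm k).mono fun z j => indicator_of_mem j _
    refine ⟨(c5 (fun s => st (8 * s + 5)) ((st_cd (k := 1)).comp (by fun_prop)) (fun s hs => by
      rw [st_one (by linarith), st_one (by norm_num)]) t).congr_of_eventuallyEq i, ?_, out, far⟩
    refine (lt_or_ge (-(1 / 2)) (sv u G (y, t))).imp_left fun j => tg0 (c := 1) (i.trans ?_)
    exact (ev_gt cm (by norm_num) j).mono fun z j => st_one (by linarith)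
  · exact ⟨contDiffAt_const.congr_of_eventuallyEq (out k), .inl (tg0 (out k)), out, far⟩

end Vale.Agent.P134E
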