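import Vale.Agent.P134E.Spec
import Vale.Agent.P134T.Calc

/-!
# P134E: row RG1, the test function of the stability inequality
-/

set_option linter.unusedVariables false

open MeasureTheory Metric Filter Topology Set
open scoped ContDiff RealInnerProductSpace
open Vale.Agent.P366.Stmt (E)

noncomputable section

namespace Vale.Agent.P134E

open Vale.Agent.P134B Vale.Agent.P134T

namespace Rg1

variable {n : ℕ} {C K η L ℓ δ G Kf ι g₀ S : ℝ} {u e ζ : E n → ℝ} {F Θ : ℝ → ℝ} {y : E n} {t : ℝ}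

theorem st0 {x : ℝ} (h : x ≤ 0) : st x = 0 := Real.smoothTransition.zero_of_nonpos h

theorem st1 {x : ℝ} (h : 1 ≤ x) : st x = 1 := Real.smoothTransition.one_of_one_le h

theorem cst {f : ℝ → ℝ} (h : ContDiff ℝ 1 f) : ContDiff ℝ 1 fun s => st (f s) :=
  Real.smoothTransition.contDiff.comp h

theorem tg_zero {φ : E n × ℝ → ℝ} {z : E n × ℝ} (h : φ =ᶠ[𝓝 z] fun _ => 0) : tg u φ z = 0 := by
  have h2 : (fun y => φ (y, z.2)) =ᶠ[𝓝 z.1] fun _ => 0 :=
    (Continuous.prodMk_left z.2).continuousAt.eventually (p := fun w => φ w = 0) h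
  rw [tg, h.fderiv_eq, h2.gradient_eq, grad_const]
  simp

/-- base points that are not active -/
theorem ina (hG : GREG) (h : Cy C K η L ℓ δ u e ζ G) (hP : Pf Kf ι g₀ S G F Θ)
    (hy : ¬(y ∈ tsupport ζ ∧ gp u G y ≤ G - 1)) : ∀ᶠ y' in 𝓝 y, et u ζ G F y' = 0 := by
  by_cases h1 : y ∈ tsupport ζ
  · filter_upwards [(((hG n C G u h.ok h.G2).2 y).2.2.2.2.2.2 (h.ry y h1).1).1 (G - 1)
      (not_le.1 fun k => hy ⟨h1, k⟩)] with y' hy'
    rw [et, (hP.ze _ hy'.le).1, zero_mul]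
  · filter_upwards [notMem_tsupport_iff_eventuallyEq.1 h1] with y' hy'
    rw [et, hy', Pi.zero_apply, mul_zero]

theorem ina' (hG : GREG) (h : Cy C K η L ℓ δ u e ζ G) (hP : Pf Kf ι g₀ S G F Θ)
    (hy : ¬Ac u ζ G y) : ∀ᶠ y' in 𝓝 y, et u ζ G F y' = 0 :=
  ina hG h hP fun k => hy ⟨k.1, by linarith [k.2]⟩

theorem xi_ina (hy : ∀ᶠ y' in 𝓝 y, et u ζ G F y' = 0) :
    xi u e ζ G F =ᶠ[𝓝 (y, t)] fun _ => 0 := by
  filter_upwards [(continuous_fst.continuousAt (x := (y, t))).eventually hy] with z hz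
  rw [xi, hz, zero_mul]

/-- heights outside the range -/
theorem aT_out (hg : ContinuousAt (gp u G) y) (he : Continuous e) (e0 : 0 < e y)
    (ht : t ∉ Icc (-(64 * lg (e y))) (gp u G y + 64 * lg (e y))) :
    aT u e G =ᶠ[𝓝 (y, t)] fun _ => 0 := by
  have c1 : ContinuousAt (fun z : E n × ℝ => lg (e z.1)) (y, t) :=
    ((he.comp continuous_fst).continuousAt.log (a := (y, t)) e0.ne').neg
  have c2 : ContinuousAt (fun z : E n × ℝ => gp u G z.1) (y, t) :=
    hg.comp_of_eq continuousAt_fst rfl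
  rcases not_and_or.1 ht with k | k
  · filter_upwards [(continuousAt_snd.add (c1.const_mul 64)).eventually_lt (g := fun _ => 0)
      continuousAt_const (by simp only [Pi.add_apply]; linarith [not_le.1 k])] with z hz
    rw [aT, st0 (x := z.2 + 64 * lg (e z.1)) hz.le, zero_mul]
  · filter_upwards [((c2.add (c1.const_mul 64)).sub continuousAt_snd).eventually_lt
      (g := fun _ => 0) continuousAt_const
      (by simp only [Pi.add_apply, Pi.sub_apply]; linarith [not_le.1 k])] with z hz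
    rw [aT, st0 (x := gp u G z.1 + 64 * lg (e z.1) - z.2) hz.le, mul_zero]

theorem xi_out (h : aT u e G =ᶠ[𝓝 (y, t)] fun _ => 0) :
    xi u e ζ G F =ᶠ[𝓝 (y, t)] fun _ => 0 := by
  filter_upwards [h] with z hz
  rw [xi, aa, hz, zero_mul, mul_zero]

theorem c_gn (h : Ok C u) : Continuous (gn u) := by
  have h1 : ContDiff ℝ ∞ (pp u) := P366W.smooth_gradient h.smp
  have h2 : Continuous (SS u) := h1.continuous_fderiv (by simp)
  have h3 := h1.continuous
  have h4 := h.sm.continuous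
  unfold gn PP hs ff qq
  fun_prop

theorem sv_sq (hs : sv u G (y, t) ≠ 1) : sv u G (y, t) ^ 2 = sl u (y, t) ^ 2 := by
  unfold sv at hs ⊢
  split_ifs at hs ⊢
  exacts [rfl, neg_sq _, absurd rfl hs]

theorem mem_UU {ε : ℝ} (r : Ry C K η L ℓ δ u ε G y) (g2 : 2 ≤ gp u G y)
    (ht : t ∈ Icc (-(64 * lg ε)) (gp u G y + 64 * lg ε)) : (y, t) ∈ UU u :=
  (r.ra.2 t (abs_le.2 ⟨by linarith [ht.1, r.lg, r.L1, r.gG],
    by linarith [ht.2, r.lg, r.L1, r.gG]⟩)).1

theorem tilt {ε : ℝ} (r : Ry C K η L ℓ δ u ε G y)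
    (ht : t ∈ Icc (-(64 * lg ε)) (gp u G y + 64 * lg ε))
    (h2 : t < -(2 * L) ∨ gp u G y + 2 * L < t) : ‖Pj u y (pp u (ray u (y, t)))‖ ≤ δ := by
  have := r.lg
  have := r.L1
  rcases h2 with k | k
  · obtain ⟨t₀, h0, h1⟩ := r.rf.1
    have h0 := abs_le.1 h0
    simpa using h1.ti (t₀ - t) (abs_le.2 ⟨by linarith, by linarith [ht.1]⟩)
  · simpa using r.rf.2.ti (t - gp u G y) (abs_le.2 ⟨by linarith, by linarith [ht.2]⟩)

end Rg1

open Rg1 in
theorem rg1 : rRG1 := by
  rintro hT hG - h0 h1 ⟨B₀, -, hW⟩ n C K η L ℓ δ G δ₀ l B Kf ι g₀ S u e ζ γ κ Kp k F Θ h hγ hk hP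
    d0 d1
  obtain ⟨oU, cJ, -, tN, tU, -⟩ := hT n C u h.ok
  have g2 : ∀ y, 2 ≤ gp u G y := fun y => ((hG n C G u h.ok h.G2).2 y).1
  have ry : ∀ {y}, Ac u ζ G y → Ry C K η L ℓ δ u (e y) G y := fun a => (h.ry _ a.1).2.2 a.2
  have W := fun {y} (a : Ac u ζ G y) => hW n C K η L ℓ δ G u e y h.ok (ry a)
  have out := fun {y t} (a : Ac u ζ G y) => aT_out (t := t) (W a).1.continuousAt h.ce.continuous
    (ry a).th.e0
  have cT := fun {y} (a : Ac u ζ G y) t =>
    ((W a).2.2.2.2.2.2.2 h.ce.contDiffAt (h.ry y a.1).2.1 t).1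
  have cE : ∀ {y}, Ac u ζ G y → ContDiffAt ℝ 1 (et u ζ G F) y := fun {y} a =>
    ((hP.c1 _ (by linarith [g2 y])).1.comp _ (W a).1).mul h.cζ.contDiffAt
  have kind : ∀ y t, (xi u e ζ G F =ᶠ[𝓝 (y, t)] fun _ => 0) ∨ Ac u ζ G y ∧
      t ∈ Icc (-(64 * lg (e y))) (gp u G y + 64 * lg (e y)) := fun y t => by
    by_cases a : Ac u ζ G y
    · by_cases ht : t ∈ Icc (-(64 * lg (e y))) (gp u G y + 64 * lg (e y))
      exacts [.inr ⟨a, ht⟩, .inl (xi_out (out a ht))]
    · exact .inl (xi_ina (ina' hG h hP a))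
  have sup : ∀ y t, (y, t) ∈ tsupport (xi u e ζ G F) → Ac u ζ G y ∧
      t ∈ Icc (-(64 * lg (e y))) (gp u G y + 64 * lg (e y)) := fun y t hz =>
    (kind y t).resolve_left fun k => notMem_tsupport_iff_eventuallyEq.2 k hz
  obtain ⟨q₁, -, h0⟩ := h0 n C l ℓ
  obtain ⟨-, -, h0⟩ := h0 u γ κ Kp h.ok hγ
  obtain ⟨K₁, -, h1⟩ := h1 n C B
  have l1 := hγ.l1
  refine ⟨⟨contDiff_iff_contDiffAt.2 fun ⟨y, t⟩ => ?_, ?_, fun ⟨y, t⟩ hz => ?_⟩,
    fun ⟨y, t⟩ hz => ?_, fun y t => ⟨fun a => ?_, fun a => ?_⟩⟩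
  · rcases kind y t with k | ⟨a, ht⟩
    · exact contDiffAt_const.congr_of_eventuallyEq k
    · exact ((cE a).comp (y, t) contDiffAt_fst).mul ((cT a t).mul ((W a).2.2.2.2.2.2.1 t ht).1)
  · have cA : IsCompact {y | y ∈ tsupport ζ ∧ gp u G y ≤ G - 1} := by
      refine h.cs.of_isClosed_subset (isOpen_compl_iff.1 (isOpen_iff_mem_nhds.2 fun y hy => ?_))
        fun _ hy => hy.1
      by_cases m : y ∈ tsupport ζ
      · filter_upwards [(((hG n C G u h.ok h.G2).2 y).2.2.2.2.2.2 (h.ry y m).1).1 (G - 1)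
          (not_le.1 fun k => hy ⟨m, k⟩)] with y' hy' k using k.2.not_gt hy'
      · filter_upwards [(isClosed_tsupport ζ).isOpen_compl.mem_nhds m] with y' hy' k using hy' k.1
    obtain ⟨R, hR⟩ := cA.exists_bound_of_continuousOn (f := fun y => lg (e y)) fun y hy =>
      (h.ce.continuous.continuousAt.log
        (ry ⟨hy.1, by linarith [hy.2]⟩).th.e0.ne').neg.continuousWithinAt
    refine HasCompactSupport.intro (cA.prod (isCompact_Icc (a := -(64 * R)) (b := G + 64 * R)))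
      fun ⟨y, t⟩ hz => ?_
    by_cases m : y ∈ tsupport ζ ∧ gp u G y ≤ G - 1
    · have := (le_abs_self _).trans (hR y m)
      exact (xi_out (out ⟨m.1, by linarith [m.2]⟩ fun k =>
        hz ⟨m, by linarith [k.1], by linarith [k.2, m.2]⟩)).self_of_nhds
    · exact (xi_ina (ina hG h hP m)).self_of_nhds
  · exact mem_UU (ry (sup y t hz).1) (g2 y) (sup y t hz).2
  · obtain ⟨a, ht⟩ := sup y t hz
    obtain ⟨-, -, -, -, w1, w2, w3, -⟩ := W a
    obtain ⟨w3, -, w4, w5⟩ := w3 t ht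
    have δ0 : 0 < δ := (ry a).rf.2.ln.d0
    have e0 : 0 < δ₀ := by linarith
    have big : ∀ s c : ℝ, 1 / 2 ≤ s → 0 ≤ c → st (s / δ₀ + c) = 1 := fun s c hs hc =>
      st1 (by linarith [(one_le_div e0).2 (show δ₀ ≤ s by linarith)])
    have m : (y, t) ∈ WW u G := by
      by_contra m
      refine notMem_tsupport_iff_eventuallyEq.2 ?_ hz
      filter_upwards [w4 m] with z k
      rw [xi, aa, k, mul_zero, mul_zero, Pi.zero_apply]
    obtain ⟨n1, -, -, -, cr, -, -, pj, -⟩ := tN y (h.ry y a.1).1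
    refine ⟨w1 (fun s => st (s / δ₀ + 1 / 2)) (cst (by fun_prop)) (fun s hs => by
      rw [big s _ hs (by norm_num), big 1 _ (by norm_num) (by norm_num)]) t, ?_, ?_⟩
    · rcases lt_or_ge (δ₀ / 2) (sv u G (y, t)) with k₀ | k₀
      · refine .inl ⟨1, ?_⟩
        filter_upwards [continuousAt_const.eventually_lt (w1 (fun s => st (4 * s - 2 * δ₀))
          (cst (by fun_prop)) (fun s hs => by rw [st1, st1] <;> linarith) t).continuousAt
          (Real.smoothTransition.pos_of_pos (by linarith))] with z hz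
        have : 0 < 4 * sv u G z - 2 * δ₀ := not_le.1 fun k => hz.ne' (st0 k)
        exact st1 (by linarith [(le_div_iff₀ e0).2 (show 1 / 2 * δ₀ ≤ sv u G z by linarith)])
      rcases lt_or_ge (sv u G (y, t)) (-(δ₀ / 2)) with k' | k'
      · refine .inl ⟨0, ?_⟩
        filter_upwards [(w1 (fun s => st (s / δ₀ + 3 / 2)) (cst (by fun_prop)) (fun s hs => by
          rw [big s _ hs (by norm_num), big 1 _ (by norm_num) (by norm_num)])
            t).continuousAt.eventually_lt (g := fun _ => 1) continuousAt_const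
          (Real.smoothTransition.lt_one_of_lt_one (by
            linarith [(div_lt_iff₀ e0).2 (show sv u G (y, t) < -(1 / 2) * δ₀ by linarith)]))]
          with z hz
        have : sv u G z / δ₀ + 3 / 2 < 1 := not_le.1 fun k => hz.ne (st1 k)
        exact st0 (by linarith)
      have ho : t < -(2 * L) ∨ gp u G y + 2 * L < t := by
        by_contra! c
        linarith [(w2 t c).1]
      have L1 := (ry a).L1
      have p1 := (w5 m (ho.imp (fun _ => by linarith) fun _ => by linarith)).1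
      have p2 := (pj (pp u (ray u (y, t)))).2.2.2
      have p3 := pow_le_pow_left₀ (norm_nonneg _) ((tilt (ry a) ht ho).trans d0) 2
      have p4 : sv u G (y, t) ^ 2 ≤ (δ₀ / 2) ^ 2 := sq_le_sq' k' k₀
      rw [sv_sq (by linarith), sl] at p4
      exact .inr (((h0 _).2.2.1 (by linarith)).trans (((h1 u l δ₀ k h.ok hγ.l0 e0 hk).2 _).2.2.1
        (lt_of_pow_lt_pow_left₀ 2 (by linarith) (by nlinarith))).symm)
    · exact (((((cT a t).mul w3).continuousAt.pow 2).mul (w1 (fun s => st (2 * s))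
        (cst (by fun_prop)) (fun s hs => by rw [st1, st1] <;> linarith) t).continuousAt).mul
        ((c_gn h.ok).continuousAt.comp (cr t).continuousAt)).mul
        (cJ.continuousAt (oU.mem_nhds (mem_UU (ry a) (g2 y) ht)))
  · by_cases ht : t ∈ Icc (-(64 * lg (e y))) (gp u G y + 64 * lg (e y))
    swap
    · rw [rr, tg_zero (xi_out (out a ht)), tg_zero (out a ht), aa, (out a ht).self_of_nhds]
      simp
    obtain ⟨w0, wV, -, -, -, -, w3, -⟩ := W a
    obtain ⟨w3, w4 | w4, -⟩ := w3 t ht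
    · obtain ⟨-, -, tm, -, -, tf, -⟩ := tU _ (mem_UU (ry a) (g2 y) ht)
      have dE := (cE a).differentiableAt one_ne_zero
      have dT := (cT a t).differentiableAt one_ne_zero
      have dW := w3.differentiableAt one_ne_zero
      have dg := w0.differentiableAt one_ne_zero
      have dF := (hP.c1 _ (by linarith [g2 y])).1.differentiableAt one_ne_zero (x := gp u G y)
      have e1 : Pj u y (gradient (et u ζ G F) y) = vb u ζ G F y := by
        unfold et vb
        rw [grad_mul (f := fun y => F (gp u G y)) (dF.comp y dg)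
          (h.cζ.differentiable one_ne_zero y), grad_comp dF.hasDerivAt dg, map_add, map_smul,
          map_smul, map_smul, wV, smul_smul, add_comm, mul_comm]
      have e2 : tg u (xi u e ζ G F) (y, t) = aa u e G (y, t) • Ai u (y, t) (vb u ζ G F y) +
          (et u ζ G F y * aW u G (y, t)) • tg u (aT u e G) (y, t) := by
        unfold xi
        rw [(tm (fun z => et u ζ G F z.1) (aa u e G) (dE.fun_comp' (y, t) differentiableAt_fst)
          (dT.mul dW)).1, tf _ dE, e1, add_comm]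
        unfold aa
        rw [(tm _ _ dT dW).1, w4, smul_zero, zero_add, smul_smul]
      rw [rr, e2]
    · have e0 : 0 < δ₀ := by linarith [(ry a).rf.2.ln.d0]
      have p1 : th u G δ₀ (y, t) = 0 := st0 (by
        linarith [(div_le_iff₀ e0).2 (show sv u G (y, t) ≤ -(1 / 2) * δ₀ by linarith)])
      have p2 := ((tN y (h.ry y a.1).1).2.2.2.2.2.2.2.1 (pp u (ray u (y, t)))).2.2.2
      have p3 := sv_sq (u := u) (G := G) (y := y) (t := t) (by linarith)
      rw [sl] at p3
      have p4 := ((h1 u l δ₀ k h.ok hγ.l0 e0 hk).2 (ray u (y, t))).2.2.2.1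
        (le_of_sq_le_sq (by nlinarith [sq_nonneg ‖Pj u y (pp u (ray u (y, t)))‖]) (norm_nonneg _))
      simp [rr, La, p1, p4]
  · exact ⟨(ina' hG h hP a).self_of_nhds, tg_zero (xi_ina (ina' hG h hP a))⟩

end Vale.Agent.P134E
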