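import Vale.Agent.P134E.Lib
import Vale.Agent.P134T.Calc

/-!
# P134E: the test function of the stress identity
-/

set_option linter.unusedVariables false

open MeasureTheory Metric Filter Topology Set
open scoped ContDiff RealInnerProductSpace
open Vale.Agent.P366.Stmt (E)

noncomputable section

namespace Vale.Agent.P134E

open Vale.Agent.P134B

namespace RG2x

variable {n : ℕ} {C K η L ℓ δ G l Kf ι g₀ S : ℝ} {u e ζ : E n → ℝ} {γ κ Kp F Θ : ℝ → ℝ}

/-- a function which vanishes near a point has no gradient there -/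
theorem tg_zero {φ : E n × ℝ → ℝ} {z : E n × ℝ} (h : φ =ᶠ[𝓝 z] fun _ => 0) : tg u φ z = 0 := by
  have h1 : fderiv ℝ φ z = 0 := by rw [h.fderiv_eq]; simp
  have h2 : (fun y => φ (y, z.2)) =ᶠ[𝓝 z.1] fun _ => 0 :=
    (Continuous.prodMk_left z.2).continuousAt.eventually (p := fun w => φ w = 0) h
  have h3 : gradient (fun y => φ (y, z.2)) z.1 = 0 := by
    rw [h2.gradient_eq]; exact P134T.grad_const 0 _
  simp [tg, h1, h3]

/-- the points which are not active -/
theorem loc_na (hG : GREG) (hC : Cy C K η L ℓ δ u e ζ G) (hP : Pf Kf ι g₀ S G F Θ) {y : E n}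
    (hy : ¬Ac u ζ G y) (t : ℝ) : pS u ζ G L κ Θ =ᶠ[𝓝 (y, t)] fun _ => 0 := by
  by_cases h : y ∈ tsupport ζ
  · have h1 : G ≤ gp u G y := not_lt.1 fun k => hy ⟨h, k⟩
    have h2 := (((hG n C G u hC.ok hC.G2).2 y).2.2.2.2.2.2 (hC.ry y h).1).1 (G - 1) (by linarith)
    filter_upwards [continuousAt_fst.eventually (p := fun w => G - 1 < gp u G w) h2] with z hz
    simp [pS, (hP.ze _ hz.le).2]
  · have h2 : ζ =ᶠ[𝓝 y] 0 := notMem_tsupport_iff_eventuallyEq.1 h
    filter_upwards [continuousAt_fst.eventually (p := fun w => ζ w = 0) h2] with z hz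
    simp [pS, hz]

/-- the active points outside the windows -/
theorem loc_out {y : E n} {t : ℝ} (hL : 2 ≤ L) (hg : ContinuousAt (gp u G) y)
    (h0 : 0 ≤ gp u G y) (ht : t < -(2 * L) ∨ gp u G y + 2 * L < t) :
    ∀ᶠ z in 𝓝 (y, t), w0 L z = 0 ∧ w1 u G L z = 0 := by
  have L0 : 0 < L := by linarith
  have c0 : ContinuousAt (fun z : E n × ℝ => |z.2 / L|) (y, t) := by fun_prop
  have c1 : ContinuousAt (fun z : E n × ℝ => |(z.2 - gp u G z.1) / L|) (y, t) :=
    ((continuousAt_snd.sub (hg.comp_of_eq continuousAt_fst rfl)).div_const L).abs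
  have k0 : 2 < |t / L| := by
    rw [abs_div, abs_of_pos L0, lt_div_iff₀ L0, lt_abs]
    rcases ht with h | h
    · right; linarith
    · left; linarith
  have k1 : 2 < |(t - gp u G y) / L| := by
    rw [abs_div, abs_of_pos L0, lt_div_iff₀ L0, lt_abs]
    rcases ht with h | h
    · right; linarith
    · left; linarith
  filter_upwards [c0.eventually (lt_mem_nhds k0), c1.eventually (lt_mem_nhds k1)] with z a b
  exact ⟨bp_zero a.le, bp_zero b.le⟩

theorem loc_out' {y : E n} {t : ℝ} (hL : 2 ≤ L) (hg : ContinuousAt (gp u G) y)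
    (h0 : 0 ≤ gp u G y) (ht : t < -(2 * L) ∨ gp u G y + 2 * L < t) :
    pS u ζ G L κ Θ =ᶠ[𝓝 (y, t)] fun _ => 0 := by
  filter_upwards [loc_out hL hg h0 ht] with z hz
  simp [pS, hz.1, hz.2]

/-- the points in the windows are regular -/
theorem mem_UU {y : E n} {t ε : ℝ} (h : Ry C K η L ℓ δ u ε G y) (h0 : 0 ≤ gp u G y)
    (ht : ¬(t < -(2 * L) ∨ gp u G y + 2 * L < t)) : (y, t) ∈ UU u := by
  push Not at ht
  refine (h.ra.2 t (abs_le.2 ⟨?_, ?_⟩)).1 <;> linarith [h.gG, h.lg, h.L1, ht.1, ht.2]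

/-- where the windows vary the profile vanishes -/
theorem kz {y : E n} {t g : ℝ} (hL : 2 ≤ L) (h : RM C L ℓ u y g) (hA : Ga l ℓ γ κ Kp) :
    κ (ps u (ray u (y, t))) * deriv bp (t / L) = 0 ∧
      κ (ps u (ray u (y, t))) * deriv bp ((t - g) / L) = 0 := by
  have L0 : 0 < L := by linarith
  obtain ⟨h8, -, h2, h3⟩ := h
  have a : ∀ s : ℝ, ℓ < s ∨ s < -ℓ → κ s = 0 := fun s hs =>
    (hA.κz s (by rw [le_abs]; rcases hs with k | k <;> [left; right] <;> linarith)).1
  have b : ∀ x : ℝ, deriv bp (x / L) = 0 ∨ x ∈ Icc L (2 * L) ∨ -x ∈ Icc L (2 * L) := fun x => by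
    by_cases k1 : |x / L| ≤ 1
    · exact Or.inl (dbp_in k1)
    by_cases k2 : 2 ≤ |x / L|
    · exact Or.inl (dbp_out k2)
    rw [abs_div, abs_of_pos L0, div_le_one L0, not_le] at k1
    rw [abs_div, abs_of_pos L0, le_div_iff₀ L0, not_le, abs_lt] at k2
    rcases lt_abs.1 k1 with k | k
    · exact Or.inr (Or.inl ⟨k.le, k2.2.le⟩)
    · exact Or.inr (Or.inr ⟨k.le, by linarith [k2.1]⟩)
  constructor
  · rcases b t with k | k | k
    · rw [k, mul_zero]
    · rw [a _ (Or.inl (h2 t ⟨k.1, by linarith [k.2]⟩)), zero_mul]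
    · have := (h3 _ k).1
      rw [neg_neg] at this
      rw [a _ (Or.inr this), zero_mul]
  · rcases b (t - g) with k | k | k
    · rw [k, mul_zero]
    · have := (h3 _ k).2
      rw [add_sub_cancel] at this
      rw [a _ (Or.inr this), zero_mul]
    · rw [a _ (Or.inl (h2 t ⟨by linarith [k.2], by linarith [k.1]⟩)), zero_mul]

/-- the gradient of the multiplier -/
theorem grad_a {y : E n} (hg : DifferentiableAt ℝ (gp u G) y) (hζ : DifferentiableAt ℝ ζ y)
    (hΘ : DifferentiableAt ℝ Θ (gp u G y))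
    (hV : Pj u y (gradient (gp u G) y) = Vg u y (gp u G y)) :
    Pj u y (gradient (fun y => Θ (gp u G y) * ζ y ^ 2) y) = va u ζ G Θ y := by
  have h2 : HasDerivAt (fun s : ℝ => s ^ 2) (2 * ζ y) (ζ y) := by
    simpa using hasDerivAt_pow 2 (ζ y)
  rw [P134T.grad_mul (f := fun y => Θ (gp u G y)) (g := fun y => ζ y ^ 2) (hΘ.comp y hg)
    (hζ.pow 2), P134T.grad_comp hΘ.hasDerivAt hg,
    P134T.grad_comp (φ := fun s : ℝ => s ^ 2) h2 hζ]
  simp only [map_add, map_smul, hV, va, smul_smul]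
  rw [add_comm]
  congr 2 <;> ring

end RG2x

open RG2x in
theorem rg2 : rRG2 := by
  intro hT hG hW n C K η L ℓ δ G l Kf ι g₀ S u e ζ γ κ Kp F Θ hC hA hP
  obtain ⟨B, -, hW⟩ := hW
  obtain ⟨-, -, -, hN, hU, -⟩ := hT n C u hC.ok
  have g2 : ∀ y, 2 ≤ gp u G y ∧ gp u G y ≤ G := fun y =>
    ⟨((hG n C G u hC.ok hC.G2).2 y).1, ((hG n C G u hC.ok hC.G2).2 y).2.1⟩
  have hR : ∀ y, Ac u ζ G y → Ry C K η L ℓ δ u (e y) G y := fun y hy => (hC.ry y hy.1).2.2 hy.2
  have hg : ∀ y, Ac u ζ G y → ContDiffAt ℝ 1 (gp u G) y := fun y hy =>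
    (hW n C K η L ℓ δ G u e y hC.ok (hR y hy)).1
  have ca : ∀ y, Ac u ζ G y → ContDiffAt ℝ 1 (fun y => Θ (gp u G y) * ζ y ^ 2) y := fun y hy =>
    ((hP.c1 _ (by linarith [(g2 y).1])).2.comp y (hg y hy)).mul (hC.cζ.contDiffAt.pow 2)
  have cr : ∀ y t, Ac u ζ G y → ContDiffAt ℝ 1 (fun z => ps u (ray u z)) (y, t) := fun y t hy =>
    (hC.ok.smp.contDiffAt.comp (y, t) ((hN y (hC.ry y hy.1).1).2.2.2.2.1 t)).of_le (by norm_cast)
  have c0 : ∀ z : E n × ℝ, ContDiffAt ℝ 1 (fun z : E n × ℝ => z.2 / L) z := fun z =>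
    contDiffAt_snd.div_const L
  have c1 : ∀ y t, Ac u ζ G y →
      ContDiffAt ℝ 1 (fun z : E n × ℝ => (z.2 - gp u G z.1) / L) (y, t) := fun y t hy =>
    (contDiffAt_snd.sub ((hg y hy).comp (y, t) contDiffAt_fst)).div_const L
  have cw : ∀ y t, Ac u ζ G y → ContDiffAt ℝ 1 (w0 L : E n × ℝ → ℝ) (y, t) ∧
      ContDiffAt ℝ 1 (w1 u G L) (y, t) := fun y t hy =>
    ⟨(bp_cd (k := 1)).contDiffAt.comp (y, t) (c0 _),
      (bp_cd (k := 1)).contDiffAt.comp (y, t) (c1 y t hy)⟩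
  have su : ∀ z ∈ tsupport (pS u ζ G L κ Θ), Ac u ζ G z.1 ∧
      ¬(z.2 < -(2 * L) ∨ gp u G z.1 + 2 * L < z.2) := by
    rintro ⟨y, t⟩ hz
    have a : Ac u ζ G y := by
      by_contra k
      exact notMem_tsupport_iff_eventuallyEq.2 (loc_na hG hC hP k t) hz
    exact ⟨a, fun k => notMem_tsupport_iff_eventuallyEq.2
      (loc_out' (hR y a).L1 (hg y a).continuousAt (by linarith [(g2 y).1]) k) hz⟩
  refine ⟨⟨contDiff_iff_contDiffAt.2 ?_, ?_, fun z hz => ?_⟩, fun y t => ⟨fun hy => ?_, fun hy => ?_⟩⟩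
  · rintro ⟨y, t⟩
    by_cases hy : Ac u ζ G y
    · exact ((ca y hy).comp (y, t) contDiffAt_fst).mul
        ((hA.cκ.contDiffAt.comp (y, t) (cr y t hy)).mul ((cw y t hy).2.sub (cw y t hy).1))
    · exact contDiffAt_const.congr_of_eventuallyEq (loc_na hG hC hP hy t)
  · refine (hC.cs.isCompact.prod (isCompact_Icc (a := -(2 * L)) (b := G + 2 * L))).of_isClosed_subset
      (isClosed_tsupport _) fun z hz => ?_
    obtain ⟨a, b⟩ := su z hz
    push Not at b
    exact ⟨a.1, b.1, by linarith [b.2, (g2 z.1).2]⟩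
  · obtain ⟨a, b⟩ := su z hz
    exact mem_UU (hR _ a) (by linarith [(g2 z.1).1]) b
  · by_cases ht : t < -(2 * L) ∨ gp u G y + 2 * L < t
    · have a := loc_out' (ζ := ζ) (κ := κ) (Θ := Θ) (hR y hy).L1 (hg y hy).continuousAt
        (by linarith [(g2 y).1]) ht
      obtain ⟨b0, b1⟩ := (loc_out (hR y hy).L1 (hg y hy).continuousAt
        (by linarith [(g2 y).1]) ht).self_of_nhds
      rw [tg_zero a, a.self_of_nhds]
      simp [ia, ib, b0, b1]
    have hz := mem_UU (hR y hy) (by linarith [(g2 y).1]) ht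
    obtain ⟨u1, -, u3, u4, u5, u6, -⟩ := hU _ hz
    have d1 : (1 : WithTop ℕ∞) ≠ 0 := one_ne_zero
    have da := (ca y hy).differentiableAt d1
    have dr := (cr y t hy).differentiableAt d1
    have dκ := (hA.cκ.differentiable d1 (ps u (ray u (y, t))))
    have dw0 := (cw y t hy).1.differentiableAt d1
    have dw1 := (cw y t hy).2.differentiableAt d1
    have e1 : tg u (fun w : E n × ℝ => Θ (gp u G w.1) * ζ w.1 ^ 2) (y, t) =
        Ai u (y, t) (va u ζ G Θ y) := by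
      rw [u6 (fun y => Θ (gp u G y) * ζ y ^ 2) da, grad_a ((hg y hy).differentiableAt d1)
        (hC.cζ.differentiable d1 y) ((hP.c1 _ (by linarith [(g2 y).1])).2.differentiableAt d1)
        (hW n C K η L ℓ δ G u e y hC.ok (hR y hy)).2.1]
    have e0 : ⟪Ai u (y, t) (va u ζ G Θ y), nu u y⟫ = 0 := by
      rw [← grad_a ((hg y hy).differentiableAt d1)
        (hC.cζ.differentiable d1 y) ((hP.c1 _ (by linarith [(g2 y).1])).2.differentiableAt d1)
        (hW n C K η L ℓ δ G u e y hC.ok (hR y hy)).2.1]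
      exact (u1 _).2.2
    have e2 : tg u (fun w => κ (ps u (ray u w))) (y, t) =
        deriv κ (ps u (ray u (y, t))) • pp u (ray u (y, t)) := by
      rw [u4 (fun w => ps u (ray u w)) κ _ dr dκ.hasDerivAt,
        u5 (ps u) (hC.ok.smp.differentiable (by simp) _)]
      rfl
    have e3 : κ (ps u (ray u (y, t))) • tg u (fun w => w1 u G L w - w0 L w) (y, t) = 0 := by
      obtain ⟨k0, k1⟩ := kz (t := t) (hR y hy).L1 (hR y hy).rm hA
      have a0 := u4 (fun z : E n × ℝ => z.2 / L) bp _ ((c0 _).differentiableAt d1) (bp_hd _)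
      have a1 := u4 (fun z : E n × ℝ => (z.2 - gp u G z.1) / L) bp _
        ((c1 y t hy).differentiableAt d1) (bp_hd _)
      rw [(u3 _ _ dw1 dw0).2.2, smul_sub, show tg u (w0 L) (y, t) = _ from a0,
        show tg u (w1 u G L) (y, t) = _ from a1, smul_smul, smul_smul, k0, k1]
      simp
    have e4 : tg u (pS u ζ G L κ Θ) (y, t) = (Θ (gp u G y) * ζ y ^ 2) •
        ((w1 u G L (y, t) - w0 L (y, t)) • deriv κ (ps u (ray u (y, t))) • pp u (ray u (y, t))) +
        (κ (ps u (ray u (y, t))) * (w1 u G L (y, t) - w0 L (y, t))) •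
          Ai u (y, t) (va u ζ G Θ y) := by
      have a := (u3 (fun w : E n × ℝ => Θ (gp u G w.1) * ζ w.1 ^ 2)
        (fun w => κ (ps u (ray u w)) * (w1 u G L w - w0 L w))
        (((ca y hy).comp (y, t) contDiffAt_fst).differentiableAt d1) ((dκ.comp (y, t) dr).mul (dw1.sub dw0))).1
      have b := (u3 (fun w => κ (ps u (ray u w))) (fun w => w1 u G L w - w0 L w)
        (dκ.comp (y, t) dr) (dw1.sub dw0)).1
      rw [e3, zero_add, e2] at b
      rw [b, e1] at a
      exact a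
    have e5 : ⟪pp u (ray u (y, t)), pp u (ray u (y, t))⟫ = 1 - qq u (ray u (y, t)) := by
      rw [real_inner_self_eq_norm_sq, qq]; ring
    rw [e4]
    simp only [Te, pe, inner_add_left, inner_sub_right, real_inner_smul_left, real_inner_smul_right,
      e0, e5, pS, ia, ib, sl, EE]
    ring
  · have a := loc_na (κ := κ) hG hC hP hy t
    exact ⟨a.self_of_nhds, tg_zero a⟩

end Vale.Agent.P134E
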