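import Vale.Agent.P134E.Spec
import Vale.Agent.P134T.Calc

/-!
# P134E: the test function of the integration by parts
-/

open MeasureTheory Metric Filter Topology Set
open scoped ContDiff RealInnerProductSpace
open Vale.Agent.P366.Stmt (E)
open Vale.Agent.P366W (dvg trc)

noncomputable section

namespace Vale.Agent.P134E

open Vale.Agent.P134B Vale.Agent.P134T

namespace Rg3

variable {n : ℕ}

theorem bp0 {x : ℝ} (h : 2 ≤ |x|) : bp x = 0 := by
  unfold bp st
  rcases le_abs.1 h with h | h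
  · rw [Real.smoothTransition.zero_of_nonpos (x := 2 - x) (by linarith), mul_zero]
  · rw [Real.smoothTransition.zero_of_nonpos (x := x + 2) (by linarith), zero_mul]

theorem bp1 {x : ℝ} (h : |x| ≤ 1) : bp x = 1 := by
  unfold bp st
  rw [abs_le] at h
  rw [Real.smoothTransition.one_of_one_le (by linarith),
    Real.smoothTransition.one_of_one_le (by linarith), one_mul]

theorem bps : ContDiff ℝ 1 bp :=
  (Real.smoothTransition.contDiff.comp (contDiff_id.add contDiff_const)).mul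
    (Real.smoothTransition.contDiff.comp (contDiff_const.sub contDiff_id))

theorem tg0 {u : E n → ℝ} {φ : E n × ℝ → ℝ} {z : E n × ℝ} {c : ℝ} (h : φ =ᶠ[𝓝 z] fun _ => c) :
    tg u φ z = 0 := by
  have h1 : (fun y => φ (y, z.2)) =ᶠ[𝓝 z.1] fun _ => c :=
    ((Continuous.prodMk_left z.2).tendsto z.1).eventually h
  rw [tg, h.fderiv_eq, h1.gradient_eq]
  simp

theorem tgb {u : E n → ℝ} {a : E n × ℝ → ℝ} {z : E n × ℝ} (ha : ContinuousAt a z)
    (h : |a z| < 1 ∨ 2 < |a z|) : tg u (fun w => bp (a w)) z = 0 := by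
  rcases h with h | h
  · exact tg0 ((ha.abs.eventually_lt continuousAt_const h).mono fun w hw => bp1 hw.le)
  · exact tg0 ((continuousAt_const.eventually_lt ha.abs h).mono fun w hw => bp0 hw.le)

theorem win {t L : ℝ} (hL : 0 < L) (h : ¬(|t / L| < 1 ∨ 2 < |t / L|)) :
    t ∈ Icc L (2 * L) ∨ -t ∈ Icc L (2 * L) := by
  rw [not_or, not_lt, not_lt, abs_div, abs_of_pos hL, le_div_iff₀ hL, div_le_iff₀ hL] at h
  rcases le_total 0 t with k | k
  · rw [abs_of_nonneg k] at h
    exact Or.inl ⟨by linarith [h.1], h.2⟩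
  · rw [abs_of_nonpos k] at h
    exact Or.inr ⟨by linarith [h.1], h.2⟩

theorem out {t L : ℝ} (hL : 0 < L) (h : 2 * L ≤ |t|) : bp (t / L) = 0 :=
  bp0 (by rwa [abs_div, abs_of_pos hL, le_div_iff₀ hL])

end Rg3

open Rg3

theorem rg3 : rRG3 := by
  rintro tgc greg ⟨B, -, regw⟩ n C K η L ℓ δ G l Kf ι g₀ S u e ζ γ κ Kp F Θ cy ga pf
  have ok := cy.ok
  obtain ⟨-, -, -, -, tu, -⟩ := tgc n C u ok
  have gr := (greg n C G u ok cy.G2).2
  have ry : ∀ y, Ac u ζ G y → Ry C K η L ℓ δ u (e y) G y := fun y h => (cy.ry y h.1).2.2 h.2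
  have na : ∀ z : E n × ℝ, ¬Ac u ζ G z.1 → pY u ζ G L F =ᶠ[𝓝 z] fun _ => 0 := fun z h => by
    have : ∀ᶠ y in 𝓝 z.1, et u ζ G F y = 0 := by
      by_cases h1 : z.1 ∈ tsupport ζ
      · have h2 : G ≤ gp u G z.1 := not_lt.1 fun k => h ⟨h1, k⟩
        exact (((gr z.1).2.2.2.2.2.2 (cy.ry _ h1).1).1 (G - 1) (by linarith)).mono fun y hy => by
          rw [et, (pf.ze _ hy.le).1, zero_mul]
      · exact (notMem_tsupport_iff_eventuallyEq.1 h1).mono fun y hy => by
          rw [et, hy, Pi.zero_apply, mul_zero]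
    exact ((continuous_fst.tendsto z).eventually this).mono fun w hw => by simp [pY, hw]
  have cg : ∀ y, Ac u ζ G y → ContDiffAt ℝ 1 (gp u G) y := fun y h =>
    (regw n C K η L ℓ δ G u e y ok (ry y h)).1
  have cF : ∀ y, ContDiffAt ℝ 1 F (gp u G y) := fun y => (pf.c1 _ (by linarith [(gr y).1])).1
  have ce : ∀ y, Ac u ζ G y → ContDiffAt ℝ 1 (et u ζ G F) y := fun y h =>
    ((cF y).comp y (cg y h)).mul cy.cζ.contDiffAt
  have c0 : ContDiff ℝ 1 (w0 (n := n) L) := bps.comp (contDiff_snd.div_const L)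
  have c1 : ∀ z : E n × ℝ, Ac u ζ G z.1 → ContDiffAt ℝ 1 (w1 u G L) z := fun z h =>
    bps.contDiffAt.comp z ((contDiffAt_snd.sub ((cg _ h).comp z contDiffAt_fst)).div_const L)
  have ww : ∀ z : E n × ℝ, Ac u ζ G z.1 → z.2 ∉ Icc (-(2 * L)) (G + 2 * L) →
      w0 L z + w1 u G L z = 0 := fun z h hz => by
    have L0 : 0 < L := by linarith [(ry _ h).L1]
    have g0 := (gr z.1).1
    have g1 := (gr z.1).2.1
    rw [mem_Icc, not_and_or, not_le, not_le] at hz
    rw [w0, w1, out L0, out L0, add_zero] <;> rw [le_abs] <;> rcases hz with k | k <;>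
      first | exact Or.inl (by linarith) | exact Or.inr (by linarith)
  have sp : tsupport (pY u ζ G L F) ⊆ tsupport ζ ×ˢ Icc (-(2 * L)) (G + 2 * L) :=
    closure_minimal (fun z hz => by
      have h : Ac u ζ G z.1 := by_contra fun h => hz (na z h).eq_of_nhds
      exact ⟨h.1, by_contra fun k => hz (by rw [pY, ww z h k, mul_zero])⟩)
      ((isClosed_tsupport ζ).prod isClosed_Icc)
  have uu : ∀ z : E n × ℝ, Ac u ζ G z.1 → z.2 ∈ Icc (-(2 * L)) (G + 2 * L) → z ∈ UU u :=
    fun z h hz => by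
      have r := ry _ h
      refine (r.ra.2 z.2 (abs_le.2 ⟨?_, ?_⟩)).1 <;> linarith [r.L1, r.lg, hz.1, hz.2, cy.G2]
  refine ⟨⟨contDiff_iff_contDiffAt.2 fun z => ?_, (cy.cs.prod isCompact_Icc).of_isClosed_subset
    (isClosed_tsupport _) sp, fun z hz => uu z (by_contra fun h =>
      notMem_tsupport_iff_eventuallyEq.2 (na z h) hz) (sp hz).2⟩, fun y t =>
    ⟨fun h => ?_, fun h => ⟨(na (y, t) h).eq_of_nhds, tg0 (na (y, t) h)⟩⟩⟩
  · by_cases h : Ac u ζ G z.1
    · exact (((ce _ h).comp z contDiffAt_fst).pow 2).mul (c0.contDiffAt.add (c1 z h))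
    · exact contDiffAt_const.congr_of_eventuallyEq (na z h)
  by_cases ht : t ∈ Icc (-(2 * L)) (G + 2 * L)
  swap
  · have k := ww (y, t) h ht
    rw [tg0 (notMem_tsupport_iff_eventuallyEq.1 fun k => ht (sp k).2)]
    simp [pY, dv, iy, k]
  have r := ry y h
  have L0 : 0 < L := by linarith [r.L1]
  obtain ⟨-, -, t1, -, -, t2, -⟩ := tu (y, t) (uu (y, t) h ht)
  have de := (ce y h).differentiableAt one_ne_zero
  have d0 := c0.differentiable one_ne_zero (y, t)
  have d1 := (c1 (y, t) h).differentiableAt one_ne_zero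
  have dg := (cg y h).differentiableAt one_ne_zero
  have e1 : tg u (fun w => et u ζ G F w.1 ^ 2) (y, t) =
      (2 * et u ζ G F y) • Ai u (y, t) (vb u ζ G F y) := by
    rw [t2 (fun y => et u ζ G F y ^ 2) (de.pow 2),
      grad_comp (φ := fun s => s ^ 2) (hasDerivAt_pow 2 _) de]
    have dF := ((cF y).differentiableAt one_ne_zero).hasDerivAt
    have : gradient (et u ζ G F) y = _ := grad_mul (dF.differentiableAt.comp y dg)
      (cy.cζ.differentiable one_ne_zero y)
    rw [this, grad_comp dF dg]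
    simp only [map_smul, map_add, (regw n C K η L ℓ δ G u e y ok r).2.1, vb, smul_smul]
    simp [add_comm, mul_comm]
  have yz : ∀ s, ps u (ray u (y, s)) < -ℓ ∨ ℓ < ps u (ray u (y, s)) →
      YY γ u (ray u (y, s)) = 0 := fun s k => by
    rw [YY, (ga.dz _ (k.imp (fun k => by linarith [ga.ℓ1]) le_of_lt)).1, mul_zero, zero_smul]
  obtain ⟨m1, -, m2, m3⟩ := r.rm
  have z0 : ⟪tg u (w0 L) (y, t), YY γ u (ray u (y, t))⟫ = 0 := by
    by_cases k : |t / L| < 1 ∨ 2 < |t / L|
    · rw [show tg u (w0 L) (y, t) = 0 from tgb (a := fun z => z.2 / L) (by fun_prop) k,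
        inner_zero_left]
    · rw [yz t, inner_zero_right]
      rcases win L0 k with k | k
      · exact Or.inr (m2 t ⟨k.1, by linarith [k.2]⟩)
      · exact Or.inl (by simpa using (m3 _ k).1)
  have z1 : ⟪tg u (w1 u G L) (y, t), YY γ u (ray u (y, t))⟫ = 0 := by
    by_cases k : |(t - gp u G y) / L| < 1 ∨ 2 < |(t - gp u G y) / L|
    · rw [show tg u (w1 u G L) (y, t) = 0 from tgb (a := fun z => (z.2 - gp u G z.1) / L)
        ((continuousAt_snd.sub (dg.continuousAt.comp (f := Prod.fst) (x := (y, t))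
          continuousAt_fst)).div_const L) k,
        inner_zero_left]
    · rw [yz t, inner_zero_right]
      rcases win L0 k with k | k
      · exact Or.inl (by simpa using (m3 _ k).2)
      · exact Or.inr (m2 t ⟨by linarith [k.2], by linarith [k.1]⟩)
  have e2 : tg u (pY u ζ G L F) (y, t) = _ := (t1 (fun w => et u ζ G F w.1 ^ 2)
    (fun w => w0 L w + w1 u G L w)
    ((de.comp (f := Prod.fst) (y, t) differentiableAt_fst).pow 2) (d0.add d1)).1
  rw [e2, e1, (t1 _ _ d0 d1).2.1, inner_add_left, inner_smul_left, inner_add_left, z0, z1,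
    inner_smul_left, inner_smul_left]
  simp only [pY, dv, iy, conj_trivial]
  ring

end Vale.Agent.P134E
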