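import Vale.Agent.P134E.Spec

/-!
# P134E: the row SBA (helper83)
-/

set_option linter.unusedVariables false

open MeasureTheory Metric Filter Topology Set
open scoped ContDiff RealInnerProductSpace
open Vale.Agent.P366.Stmt (E)

noncomputable section

namespace Vale.Agent.P134E

open Vale.Agent.P134B

namespace SBAx

variable {n : ℕ} {C : ℝ} {u : E n → ℝ}

theorem hd (h : Ok C u) (y : E n) (t : ℝ) :
    HasDerivAt (fun t => u (ray u (y, t))) (ff u (ray u (y, t)) * sl u (y, t)) t := by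
  have a : HasDerivAt (fun t : ℝ => ray u (y, t)) (nu u y) t := by
    simpa [ray] using ((hasDerivAt_id t).smul_const (nu u y)).const_add y
  have b := ((h.sm.differentiable (by simp)) (ray u (y, t))).hasGradientAt.hasFDerivAt.comp_hasDerivAt t a
  rw [InnerProductSpace.toDual_apply_apply, h.gu, real_inner_smul_left] at b
  exact b

theorem ct (h : Ok C u) (y : E n) : Continuous fun t : ℝ => ff u (ray u (y, t)) ^ 2 * sl u (y, t) := by
  have a := h.sm.continuous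
  have b : Continuous (pp u) := (InnerProductSpace.toDual ℝ (E n)).symm.continuous.comp
    (h.smp.continuous_fderiv (by simp))
  unfold ff sl ray
  dsimp only
  fun_prop

theorem core (h : Ok C u) (y : E n) {a b : ℝ} (hab : a ≤ b) :
    |∫ t in Icc a b, ff u (ray u (y, t)) ^ 2 * sl u (y, t)| ≤ sg := by
  have s0 : (0 : ℝ) < √2 := by positivity
  have d : ∀ t, HasDerivAt (fun t => (u (ray u (y, t)) - u (ray u (y, t)) ^ 3 / 3) / √2)
      (ff u (ray u (y, t)) ^ 2 * sl u (y, t)) t := fun t => by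
    refine (((hd h y t).sub (((hd h y t).pow 3).div_const 3)).div_const √2).congr_deriv ?_
    unfold ff
    push_cast
    ring
  rw [integral_Icc_eq_integral_Ioc, ← intervalIntegral.integral_of_le hab,
    intervalIntegral.integral_eq_sub_of_hasDerivAt (fun t _ => d t) ((ct h y).intervalIntegrable _ _), ← sub_div,
    abs_div, abs_of_pos s0, div_le_iff₀ s0]
  have e : sg * √2 = 4 / 3 := by
    unfold sg
    rw [div_mul_eq_mul_div, mul_assoc, Real.mul_self_sqrt (by norm_num)]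
    norm_num
  have p : ∀ v : ℝ, |v| < 1 → -(2 / 3) ≤ v - v ^ 3 / 3 ∧ v - v ^ 3 / 3 ≤ 2 / 3 := fun v hv => by
    rw [abs_lt] at hv
    constructor
    · nlinarith [mul_nonneg (sq_nonneg (v + 1)) (show 0 ≤ 2 - v by linarith)]
    · nlinarith [mul_nonneg (sq_nonneg (v - 1)) (show 0 ≤ 2 + v by linarith)]
  have p1 := p _ (h.lt (ray u (y, a)))
  have p2 := p _ (h.lt (ray u (y, b)))
  rw [e, abs_le]
  constructor <;> linarith

theorem tail {L t : ℝ} (h : L ≤ |t|) : Real.exp (-|t|) ≤ 8 * Real.exp (-(L / 2)) * (1 + t ^ 2)⁻¹ := by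
  have a := Real.quadratic_le_exp_of_nonneg (x := |t| / 2) (by positivity)
  have b : Real.exp (-(|t| / 2)) ≤ 8 * (1 + t ^ 2)⁻¹ := by
    rw [Real.exp_neg, ← div_eq_mul_inv, inv_eq_one_div, div_le_div_iff₀ (Real.exp_pos _) (by positivity)]
    rw [div_pow, sq_abs] at a
    linarith [abs_nonneg t]
  calc _ = Real.exp (-(|t| / 2)) * Real.exp (-(|t| / 2)) := by rw [← Real.exp_add]; congr 1; ring
    _ ≤ Real.exp (-(L / 2)) * (8 * (1 + t ^ 2)⁻¹) :=
        mul_le_mul (Real.exp_le_exp.2 (by linarith)) b (Real.exp_pos _).le (Real.exp_pos _).le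
    _ = _ := by ring

theorem sq_add (x y : E n) : ‖x + y‖ ^ 2 ≤ (1 + 1 / 500) * ‖x‖ ^ 2 + 501 * ‖y‖ ^ 2 := by
  have := pow_le_pow_left₀ (norm_nonneg _) (norm_add_le x y) 2
  nlinarith [sq_nonneg (‖x‖ - 500 * ‖y‖)]

theorem ff0 (h : Ok C u) (x : E n) : 0 ≤ ff u x := le_trans (by positivity) (h.flo x)

theorem aW01 (G : ℝ) (z : E n × ℝ) : 0 ≤ aW u G z ∧ aW u G z ≤ 1 ∧ (z ∉ WW u G → aW u G z = 0) := by
  by_cases h : z ∈ WW u G
  · rw [aW, indicator_of_mem h]
    exact ⟨Real.smoothTransition.nonneg _, Real.smoothTransition.le_one _, fun a => absurd h a⟩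
  · rw [aW, indicator_of_notMem h]
    exact ⟨le_rfl, zero_le_one, fun _ => rfl⟩

theorem mass {F s a : ℝ → ℝ} {η L g C t : ℝ} (F0 : 0 ≤ F t) (w0 : 0 ≤ a t) (w1 : a t ≤ 1) (η1 : η < 1)
    (L1 : 2 ≤ L) (g8 : 8 * L ≤ g) (s0 : ∀ t, |t| ≤ 2 * L → 1 - η ≤ s t) (s1 : ∀ t, |t - g| ≤ 2 * L → s t ≤ -(1 - η))
    (gap : t ∈ Icc 0 g → F t ≤ 8 * C * Real.exp (-(min t (g - t) / 2)))
    (out : a t ≠ 0 → t ≤ -2 ∨ g + 2 ≤ t → F t ≤ Real.exp (122 - max (-t) (t - g))) :
    (Icc (g - L) (g + L)).indicator (fun t => F t ^ 2 * s t) t ≤ (Icc (-L) L).indicator (fun t => F t ^ 2 * s t) t ∧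
    F t ^ 2 * a t ^ 2 ≤ (1 - η)⁻¹ * ((Icc (-L) L).indicator (fun t => F t ^ 2 * s t) t -
      (Icc (g - L) (g + L)).indicator (fun t => F t ^ 2 * s t) t) +
        8 * (64 * C ^ 2 + Real.exp 244) * Real.exp (-(L / 2)) * ((1 + t ^ 2)⁻¹ + (1 + (t - g) ^ 2)⁻¹) := by
  have q2 : 0 ≤ (Icc (-L) L).indicator (fun t => F t ^ 2 * s t) t := indicator_nonneg (fun t ht =>
    mul_nonneg (sq_nonneg _) (by linarith [s0 t (abs_le.2 ⟨by linarith [ht.1], by linarith [ht.2]⟩)])) t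
  have q3 : (Icc (g - L) (g + L)).indicator (fun t => F t ^ 2 * s t) t ≤ 0 := indicator_nonpos (fun t ht =>
    mul_nonpos_of_nonneg_of_nonpos (sq_nonneg _)
      (by linarith [s1 t (abs_le.2 ⟨by linarith [ht.1], by linarith [ht.2]⟩)])) t
  refine ⟨q3.trans q2, ?_⟩
  obtain ⟨A, hA⟩ : ∃ A : ℝ, A = 64 * C ^ 2 + Real.exp 244 := ⟨_, rfl⟩
  have A0 : 0 < A := by rw [hA]; positivity
  rw [← hA]
  have q0 : 0 ≤ 8 * A * Real.exp (-(L / 2)) * ((1 + t ^ 2)⁻¹ + (1 + (t - g) ^ 2)⁻¹) := by positivity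
  have q1 : F t ^ 2 * a t ^ 2 ≤ F t ^ 2 := mul_le_of_le_one_right (sq_nonneg _) (pow_le_one₀ w0 w1)
  by_cases h0 : t ∈ Icc (-L) L
  · have := mul_le_mul_of_nonneg_left (s0 t (abs_le.2 ⟨by linarith [h0.1], by linarith [h0.2]⟩)) (sq_nonneg (F t))
    refine q1.trans (le_add_of_le_of_nonneg ((le_inv_mul_iff₀ (by linarith)).2 ?_) q0)
    rw [indicator_of_mem h0]
    linarith
  by_cases h1 : t ∈ Icc (g - L) (g + L)
  · have := mul_le_mul_of_nonneg_left (s1 t (abs_le.2 ⟨by linarith [h1.1], by linarith [h1.2]⟩)) (sq_nonneg (F t))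
    refine q1.trans (le_add_of_le_of_nonneg ((le_inv_mul_iff₀ (by linarith)).2 ?_) q0)
    rw [indicator_of_mem h1]
    linarith
  rw [indicator_of_notMem h0, indicator_of_notMem h1, sub_zero, mul_zero, zero_add]
  simp only [mem_Icc, not_and_or, not_le] at h0 h1
  have t0 := tail (L := L) (t := t) (le_abs.2 (by rcases h0 with h | h <;> [right; left] <;> linarith))
  have t1 := tail (L := L) (t := t - g) (le_abs.2 (by rcases h1 with h | h <;> [right; left] <;> linarith))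
  suffices s : F t ^ 2 * a t ^ 2 ≤ A * (Real.exp (-|t|) + Real.exp (-|t - g|)) by
    linarith [mul_le_mul_of_nonneg_left (add_le_add t0 t1) A0.le]
  by_cases h2 : t ∈ Icc 0 g
  · have a := pow_le_pow_left₀ F0 (gap h2) 2
    rw [mul_pow, ← Real.exp_nat_mul] at a
    have a' : Real.exp ((2 : ℕ) * -(min t (g - t) / 2)) ≤ Real.exp (-|t|) + Real.exp (-|t - g|) := by
      rw [abs_of_nonneg h2.1, abs_of_nonpos (by linarith [h2.2])]
      rcases min_choice t (g - t) with h | h <;> rw [h]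
      · exact le_add_of_le_of_nonneg (Real.exp_le_exp.2 (by push_cast; linarith)) (Real.exp_pos _).le
      · exact le_add_of_nonneg_of_le (Real.exp_pos _).le (Real.exp_le_exp.2 (by push_cast; linarith))
    refine q1.trans (a.trans (mul_le_mul ?_ a' (Real.exp_pos _).le A0.le))
    linarith [Real.exp_pos 244]
  by_cases h3 : a t = 0
  · rw [h3]
    simpa using by positivity
  simp only [mem_Icc, not_and_or, not_le] at h2
  have a := pow_le_pow_left₀ F0 (out h3 (by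
    rcases h0 with h | h <;> rcases h1 with h' | h' <;> rcases h2 with h'' | h'' <;>
      first | (left; linarith) | (right; linarith))) 2
  rw [← Real.exp_nat_mul] at a
  have a' : Real.exp ((2 : ℕ) * (122 - max (-t) (t - g))) ≤
      Real.exp 244 * (Real.exp (-|t|) + Real.exp (-|t - g|)) := by
    rw [mul_add, ← Real.exp_add, ← Real.exp_add]
    have := le_max_left (-t) (t - g)
    have := le_max_right (-t) (t - g)
    rcases h2 with h | h
    · rw [abs_of_neg h]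
      exact le_add_of_le_of_nonneg (Real.exp_le_exp.2 (by push_cast; linarith)) (Real.exp_pos _).le
    · rw [abs_of_pos (sub_pos.2 h)]
      exact le_add_of_nonneg_of_le (Real.exp_pos _).le (Real.exp_le_exp.2 (by push_cast; linarith))
  refine q1.trans (a.trans (a'.trans (mul_le_mul_of_nonneg_right ?_ (by positivity))))
  linarith [sq_nonneg C]

theorem cutz {F a ε g B η₀ Λ t : ℝ} {v : E n} (F0 : 0 ≤ F) (w0 : 0 ≤ a) (w1 : a ≤ 1) (e0 : 0 < ε) (g0 : 0 ≤ g)
    (hΛ : Λ = 64 * lg ε) (l1 : 1 ≤ lg ε) (b1 : ‖v‖ ≤ B)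
    (b2 : v = 0 ∨ t ∈ Icc (-Λ) (-Λ + 1) ∨ t ∈ Icc (g + Λ - 1) (g + Λ))
    (out : t ∈ Icc (-Λ) (g + Λ) → a ≠ 0 → t ≤ -2 ∨ g + 2 ≤ t → F ≤ Real.exp (122 - max (-t) (t - g))) :
    2 * (501 * (F ^ 2 * ‖(η₀ * a) • v‖ ^ 2)) ≤ 1002 * B ^ 2 * Real.exp 246 * (η₀ ^ 2 * ε ^ 80) *
      ((Icc (-Λ) (-Λ + 1)).indicator 1 t + (Icc (g + Λ - 1) (g + Λ)).indicator 1 t) := by
  have j0 : 0 ≤ (Icc (-Λ) (-Λ + 1)).indicator (1 : ℝ → ℝ) t := indicator_nonneg (fun _ _ => zero_le_one) t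
  have j1 : 0 ≤ (Icc (g + Λ - 1) (g + Λ)).indicator (1 : ℝ → ℝ) t := indicator_nonneg (fun _ _ => zero_le_one) t
  by_cases h3 : a = 0
  · rw [h3]
    simpa using by positivity
  rcases b2 with b2 | b2
  · rw [b2]
    simpa using by positivity
  have j2 : 1 ≤ (Icc (-Λ) (-Λ + 1)).indicator (1 : ℝ → ℝ) t + (Icc (g + Λ - 1) (g + Λ)).indicator 1 t := by
    rcases b2 with h | h
    · rw [indicator_of_mem h]; exact le_add_of_nonneg_right j1
    · rw [indicator_of_mem h]; exact le_add_of_nonneg_left j0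
  refine le_trans ?_ (le_mul_of_one_le_right (by positivity) j2)
  have c := pow_le_pow_left₀ F0 (out (by rcases b2 with h | h <;> constructor <;> linarith [h.1, h.2]) h3 (by
    rcases b2 with h | h
    · left; linarith [h.2]
    · right; linarith [h.1])) 2
  have a' : Real.exp (122 - max (-t) (t - g)) ^ 2 ≤ Real.exp 246 * ε ^ 80 := by
    rw [← Real.exp_log e0, ← Real.exp_nat_mul, ← Real.exp_nat_mul, ← Real.exp_add]
    have := le_max_left (-t) (t - g)
    have := le_max_right (-t) (t - g)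
    unfold lg at hΛ l1
    refine Real.exp_le_exp.2 ?_
    push_cast
    rcases b2 with h | h <;> linarith [h.1, h.2]
  have a2 : ‖(η₀ * a) • v‖ ^ 2 ≤ η₀ ^ 2 * B ^ 2 := by
    rw [norm_smul, mul_pow, Real.norm_eq_abs, sq_abs, mul_pow]
    exact mul_le_mul (mul_le_of_le_one_right (sq_nonneg _) (pow_le_one₀ w0 w1))
      (pow_le_pow_left₀ (norm_nonneg _) b1 2) (sq_nonneg _) (sq_nonneg _)
  linarith [mul_le_mul (c.trans a') a2 (sq_nonneg _) (by positivity)]

theorem pw {F La J a a' η m c : ℝ} {b A v : E n} (η0 : 0 < η) (η1 : η ≤ 1) (a1 : |J - 1| ≤ η) (J0 : 0 ≤ J)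
    (a2 : ‖A - b‖ ≤ η * ‖b‖) (a4 : a' ^ 2 ≤ a ^ 2) (a6 : La ^ 2 ≤ 1) (hm : F ^ 2 * a ^ 2 ≤ m)
    (cz : 2 * (501 * (F ^ 2 * ‖v‖ ^ 2)) ≤ c) :
    F ^ 2 * La ^ 2 * ‖a' • A + v‖ ^ 2 * J ≤ (1 + η) ^ 3 * (1 + 1 / 500) * ‖b‖ ^ 2 * m + c := by
  have a3 : ‖A‖ ≤ (1 + η) * ‖b‖ := by linarith [norm_sub_norm_le A b]
  have a5 : ‖a' • A‖ ^ 2 ≤ a ^ 2 * ((1 + η) * ‖b‖) ^ 2 := by
    rw [norm_smul, mul_pow, Real.norm_eq_abs, sq_abs]
    exact mul_le_mul a4 (pow_le_pow_left₀ (norm_nonneg _) a3 2) (sq_nonneg _) (sq_nonneg _)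
  have a7 := (abs_le.1 a1).2
  have a8 := mul_le_mul_of_nonneg_left hm (show 0 ≤ (1 + η) ^ 3 * (1 + 1 / 500) * ‖b‖ ^ 2 by positivity)
  have a9 := mul_le_mul_of_nonneg_left (sq_add (a' • A) v) (sq_nonneg F)
  have b1 := mul_le_mul_of_nonneg_left a5 (sq_nonneg F)
  have b2 := mul_le_mul_of_nonneg_left η1 (show 0 ≤ F ^ 2 * ‖v‖ ^ 2 by positivity)
  calc _ ≤ F ^ 2 * 1 * ‖a' • A + v‖ ^ 2 * (1 + η) := by gcongr; linarith
    _ ≤ ((1 + 1 / 500) * (F ^ 2 * (a ^ 2 * ((1 + η) * ‖b‖) ^ 2)) + 501 * (F ^ 2 * ‖v‖ ^ 2)) * (1 + η) :=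
        mul_le_mul_of_nonneg_right (by linarith) (by linarith)
    _ ≤ _ := by linarith

theorem fin {r f : ℝ → ℝ} {η L g Λ A β c : ℝ} (hf : Continuous f) (co : ∀ a b, a ≤ b → |∫ t in Icc a b, f t| ≤ sg)
    (η0 : 0 < η) (η1 : η ≤ 1 / 1000) (L0 : 0 ≤ L) (hL : 2 * (3200 * A * Real.pi / sg) ≤ L) (r0 : ∀ t, 0 ≤ r t)
    (h : ∀ t, r t ≤ (1 + η) ^ 3 * (1 + 1 / 500) * β ^ 2 * ((1 - η)⁻¹ * ((Icc (-L) L).indicator f t -
      (Icc (g - L) (g + L)).indicator f t) + 8 * A * Real.exp (-(L / 2)) * ((1 + t ^ 2)⁻¹ + (1 + (t - g) ^ 2)⁻¹)) +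
      c * ((Icc (-Λ) (-Λ + 1)).indicator 1 t + (Icc (g + Λ - 1) (g + Λ)).indicator 1 t)) :
    ∫ t, r t ≤ (2 + 1 / 50) * sg * β ^ 2 + 2 * c := by
  have sg0 : 0 < sg := by unfold sg; positivity
  have I0 : ∀ a b : ℝ, Integrable fun t => (Icc a b).indicator f t := fun a b =>
    hf.integrableOn_Icc.integrable_indicator measurableSet_Icc
  have I2 := integrable_inv_one_add_sq
  have I3 := I2.comp_sub_right g
  have I4 : ∀ a b : ℝ, Integrable fun t => (Icc a b).indicator (1 : ℝ → ℝ) t := fun a b =>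
    (continuous_const.integrableOn_Icc).integrable_indicator measurableSet_Icc
  have J0 := ((I0 (-L) L).sub' (I0 (g - L) (g + L))).const_mul (1 - η)⁻¹
  have J1 := (I2.fun_add I3).const_mul (8 * A * Real.exp (-(L / 2)))
  have J2 := ((I4 (-Λ) (-Λ + 1)).fun_add (I4 (g + Λ - 1) (g + Λ))).const_mul c
  have J3 := (J0.fun_add J1).const_mul ((1 + η) ^ 3 * (1 + 1 / 500) * β ^ 2)
  refine (integral_mono_of_nonneg (Eventually.of_forall r0) (J3.fun_add J2) (Eventually.of_forall h)).trans ?_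
  have v : ∀ a b : ℝ, b - a = 1 → ∫ t, (Icc a b).indicator (1 : ℝ → ℝ) t = 1 := fun a b h => by
    rw [integral_indicator_one measurableSet_Icc, Real.volume_real_Icc, h]; norm_num
  rw [integral_add J3 J2, integral_const_mul, integral_const_mul, integral_add J0 J1, integral_const_mul,
    integral_const_mul, integral_add (I4 _ _) (I4 _ _), v _ _ (by ring), v _ _ (by ring),
    integral_sub (I0 _ _) (I0 _ _), integral_add I2 I3, integral_sub_right_eq_self (fun t : ℝ => (1 + t ^ 2)⁻¹) g,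
    integral_univ_inv_one_add_sq, integral_indicator measurableSet_Icc, integral_indicator measurableSet_Icc]
  have k0 := (abs_le.1 (co _ _ (show -L ≤ L by linarith))).2
  have k1 := (abs_le.1 (co _ _ (show g - L ≤ g + L by linarith))).1
  have k2 : 8 * A * Real.exp (-(L / 2)) * (Real.pi + Real.pi) ≤ sg / 200 := by
    have a := Real.add_one_le_exp (L / 2)
    have a' : 3200 * A * Real.pi ≤ Real.exp (L / 2) * sg := (div_le_iff₀ sg0).1 (by linarith)
    rw [Real.exp_neg, mul_right_comm, ← div_eq_mul_inv, div_le_iff₀ (Real.exp_pos _)]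
    linarith
  have i0 : 0 < (1 - η)⁻¹ := inv_pos.2 (by linarith)
  have k3 : (1 - η)⁻¹ ≤ 1000 / 999 := by rw [inv_le_comm₀ (by linarith) (by norm_num)]; linarith
  have k4 : (1 + η) ^ 3 * (1 + 1 / 500) * β ^ 2 ≤ (1 + 1 / 1000) ^ 3 * (1 + 1 / 500) * β ^ 2 := by gcongr
  have k5 := (mul_le_mul_of_nonneg_left (show (∫ t in Icc (-L) L, f t) - ∫ t in Icc (g - L) (g + L), f t ≤ 2 * sg by
    linarith) i0.le).trans (mul_le_mul_of_nonneg_right k3 (by positivity))
  have k6 := (mul_le_mul_of_nonneg_left (add_le_add k5 k2) (by positivity)).trans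
    (mul_le_mul_of_nonneg_right k4 (by positivity))
  have : 0 ≤ sg * β ^ 2 := by positivity
  linarith

end SBAx

open SBAx in
theorem sba : rSBA := by
  intro _ g0 g1 ⟨B₀, hB, rg⟩ C
  refine ⟨2 * (3200 * (64 * C ^ 2 + Real.exp 244) * Real.pi / sg), 2 * (1002 * B₀ ^ 2 * Real.exp 246), by positivity,
    fun n K η L ℓ δ G δ₀ l B η₀ u e y b γ κ Kp k hL ok ry ce ge ga k1 d0 => ?_⟩
  obtain ⟨-, -, -, -, -, -, r1, r2⟩ := rg n C K η L ℓ δ G u e y ok ry
  replace r2 := r2 ce ge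
  obtain ⟨_, -, g0⟩ := g0 n C l ℓ
  obtain ⟨_, -, g1⟩ := g1 n C B
  have m0 := (g0 u γ κ Kp ok ga).2.2
  have m1 := (g1 u l δ₀ k ok ga.l0 d0 k1).2
  have η0 := ry.η0; have η1 := ry.η1; have L1 := ry.L1; have hlg := ry.lg; have gG := ry.gG
  obtain ⟨g8, gap, -⟩ := ry.rm
  rw [mul_assoc 2]
  refine fin (g := gp u G y) (Λ := 64 * lg (e y)) (ct ok y) (fun a b => core ok y) η0 η1 (by linarith) hL
    (fun t => by unfold rr JJ; positivity) fun t => ?_
  obtain ⟨w0, w1, w2⟩ := aW01 (u := u) G (y, t)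
  have out := fun (ht : t ∈ Icc _ _) (h : aW u G (y, t) ≠ 0) h' => ((r1 t ht).2.2.2 (not_not.1 (mt w2 h)) h').2
  have cz := cutz (η₀ := η₀) (ff0 ok (ray u (y, t))) w0 w1 ry.th.e0 (by linarith) rfl (by linarith) (r2 t).2.1
    (r2 t).2.2 out
  have ms := fun out => mass (F := fun t => ff u (ray u (y, t))) (s := fun t => sl u (y, t)) (t := t) (ff0 ok _)
    (a := fun t => aW u G (y, t)) w0 w1 (by linarith) L1 g8 (fun t h => (ry.r0.2 t h).1)
    (fun t h => (ry.r1.2 t h).1) (gap t) out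
  by_cases ht : t ∈ Icc (-(64 * lg (e y))) (gp u G y + 64 * lg (e y))
  · obtain ⟨-, -, a1, a2, -⟩ := ry.ra.2 t (abs_le.2 ⟨by linarith [ht.1], by linarith [ht.2]⟩)
    refine pw η0 (by linarith) a1 (by unfold JJ; positivity) (a2 b) ?_ ?_ (ms (out ht)).2 cz
    · rw [aa, mul_pow]
      exact mul_le_of_le_one_left (sq_nonneg _) (pow_le_one₀ (mul_nonneg (Real.smoothTransition.nonneg _)
        (Real.smoothTransition.nonneg _)) (mul_le_one₀ (Real.smoothTransition.le_one _)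
        (Real.smoothTransition.nonneg _) (Real.smoothTransition.le_one _)))
    · have s0 : 0 ≤ th u G δ₀ (y, t) := Real.smoothTransition.nonneg _
      have s1 : 0 ≤ 1 - th u G δ₀ (y, t) := sub_nonneg.2 (Real.smoothTransition.le_one _)
      obtain ⟨u0, u1, -⟩ := m0 (ray u (y, t))
      obtain ⟨v0, v1, -⟩ := m1 (ray u (y, t))
      exact pow_le_one₀ (add_nonneg (mul_nonneg s0 u0) (mul_nonneg s1 v0))
        ((add_le_add (mul_le_of_le_one_right s0 u1) (mul_le_of_le_one_right s1 v1)).trans (by linarith))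
  · have z1 : aa u e G (y, t) = 0 := by
      simp only [mem_Icc, not_and_or, not_le] at ht
      unfold aa aT st
      rcases ht with h | h
      · rw [Real.smoothTransition.zero_of_nonpos (by linarith), zero_mul, zero_mul]
      · rw [Real.smoothTransition.zero_of_nonpos (x := _ - _) (by linarith), mul_zero, zero_mul]
    have z2 : tg u (aT u e G) (y, t) = 0 := (r2 t).2.2.resolve_right fun h => ht (by
      rcases h with h | h <;> constructor <;> linarith [h.1, h.2])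
    have i0 : 0 < (1 - η)⁻¹ := inv_pos.2 (by linarith)
    have := (mass (F := fun t => ff u (ray u (y, t))) (s := fun t => sl u (y, t)) (t := t) (ff0 ok _)
      (a := fun _ => 0) le_rfl zero_le_one (by linarith) L1 g8 (fun t h => (ry.r0.2 t h).1)
      (fun t h => (ry.r1.2 t h).1) (gap t) fun h => absurd rfl h).2
    rw [z2] at cz
    rw [rr, z1, z2]
    simp only [smul_zero, zero_smul, add_zero, norm_zero, ne_eq, OfNat.ofNat_ne_zero, not_false_eq_true, zero_pow,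
      mul_zero, zero_mul] at cz this ⊢
    exact add_nonneg (mul_nonneg (by positivity) this) cz

end Vale.Agent.P134E
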