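import Vale.Agent.P134E.Spec
import Vale.Agent.P134T.Calc

/-!
# P134E: the gain on a ray
-/

set_option linter.unusedVariables false

open MeasureTheory Metric Filter Topology Set
open scoped ContDiff RealInnerProductSpace
open Vale.Agent.P366.Stmt (E)
open Vale.Agent.P366W (dvg trc)

noncomputable section

namespace Vale.Agent.P134E

open Vale.Agent.P134B

namespace Sbb

theorem st_one {x : ℝ} (h : 1 ≤ x) : st x = 1 := Real.smoothTransition.one_of_one_le h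

theorem st_zero {x : ℝ} (h : x ≤ 0) : st x = 0 := Real.smoothTransition.zero_of_nonpos h

theorem st_nn (x : ℝ) : 0 ≤ st x := Real.smoothTransition.nonneg x

@[fun_prop] theorem cont_st : Continuous st := Real.smoothTransition.continuous

theorem st_mono : Monotone st := Real.smoothTransition.monotone

theorem bp_one {x L : ℝ} (hL : 0 < L) (h : |x| ≤ L) : bp (x / L) = 1 := by
  rw [← div_le_one hL, ← abs_of_pos hL, ← abs_div, abs_le] at h
  rw [bp, st_one (by linarith), st_one (by linarith), one_mul]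

theorem bp_lo {x L : ℝ} (hL : 0 < L) (h : x ≤ -(2 * L)) : bp (x / L) = 0 := by
  have : x / L ≤ -2 := by rw [div_le_iff₀ hL]; linarith
  rw [bp, st_zero (by linarith), zero_mul]

theorem bp_hi {x L : ℝ} (hL : 0 < L) (h : 2 * L ≤ x) : bp (x / L) = 0 := by
  have : 2 ≤ x / L := by rwa [le_div_iff₀ hL]
  rw [bp, st_zero (x := 2 - x / L) (by linarith), mul_zero]

theorem split {F : ℝ → ℝ} {a b : ℝ} (hab : a ≤ b)
    (h1 : IntegrableOn (fun τ => F (a + -1 * τ)) (Ici 0)) (h2 : IntegrableOn F (Icc a b))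
    (h3 : IntegrableOn (fun τ => F (b + 1 * τ)) (Ici 0)) :
    ∫ t, F t = (∫ τ in Ici 0, F (a + -1 * τ)) + (∫ t in Icc a b, F t) +
      ∫ τ in Ici 0, F (b + 1 * τ) := by
  have m1 := Measure.measurePreserving_sub_left (volume : Measure ℝ) a
  have e1 := (MeasurableEquiv.subLeft a).measurableEmbedding
  have m3 := measurePreserving_add_left (volume : Measure ℝ) b
  have e3 := (MeasurableEquiv.addLeft b).measurableEmbedding
  have p1 : (fun t => a - t) ⁻¹' Iic a = Ici 0 := by ext; simp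
  have p3 : (fun t => b + t) ⁻¹' Ici b = Ici 0 := by ext; simp
  simp only [neg_one_mul, one_mul, ← sub_eq_add_neg] at h1 h3 ⊢
  have i1 : IntegrableOn F (Iic a) := (m1.integrableOn_comp_preimage e1).1 (p1 ▸ h1)
  have i3 : IntegrableOn F (Ici b) := (m3.integrableOn_comp_preimage e3).1 (p3 ▸ h3)
  have j1 := m1.setIntegral_preimage_emb e1 F (Iic a)
  have j3 := m3.setIntegral_preimage_emb e3 F (Ici b)
  rw [p1] at j1
  rw [p3] at j3
  have i2 := h2.mono_set Ioc_subset_Icc_self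
  have i4 := i3.mono_set Ioi_subset_Ici_self
  have u := Ioc_union_Ioi_eq_Ioi hab
  rw [j1, j3, integral_Icc_eq_integral_Ioc, integral_Ici_eq_integral_Ioi, add_assoc,
    ← setIntegral_union (Ioc_disjoint_Ioi le_rfl) measurableSet_Ioi i2 i4, u,
    intervalIntegral.integral_Iic_add_Ioi i1 (u ▸ i2.union i4)]

theorem mem_Iv {s : ℝ → ℝ} {T c t : ℝ} (ht : 0 ≤ t) :
    t ∈ Iv s T c ↔ t < T ∧ ∀ t' ∈ Icc 0 t, c < s t' := by
  rw [Iv, mem_setOf_eq, abs_of_nonneg ht, uIcc_of_le ht]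

theorem meas_Iv (s : ℝ → ℝ) (T c : ℝ) : MeasurableSet (Iv s T c ∩ Ici 0) := by
  refine OrdConnected.measurableSet ⟨fun x hx y hy t ht => ?_⟩
  have h0 : 0 ≤ t := hx.2.trans ht.1
  have h1 := (mem_Iv hy.2).1 hy.1
  exact ⟨(mem_Iv h0).2 ⟨ht.2.trans_lt h1.1, fun t' k => h1.2 t' ⟨k.1, k.2.trans ht.2⟩⟩, h0⟩

theorem ind {F F' : ℝ → ℝ} {S : Set ℝ} {T : ℝ} (hS : MeasurableSet S) (hT : S ⊆ Icc 0 T)
    (hc : ContinuousOn F' (Icc 0 T)) (h1 : ∀ t ∈ S, F t = F' t)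
    (h2 : ∀ t, 0 ≤ t → t ∉ S → F t = 0) :
    IntegrableOn F (Ici 0) ∧ ∫ t in Ici 0, F t = ∫ t in S, F' t := by
  have h3 : S ⊆ Ici 0 := fun t ht => (hT ht).1
  have h4 : IntegrableOn F S :=
    (hc.integrableOn_Icc.mono_set hT).congr_fun (fun t ht => (h1 t ht).symm) hS
  refine ⟨h4.of_forall_diff_eq_zero measurableSet_Ici fun t ht => h2 t ht.1 ht.2, ?_⟩
  rw [setIntegral_eq_of_subset_of_forall_diff_eq_zero measurableSet_Ici h3
    fun t ht => h2 t ht.1 ht.2]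
  exact setIntegral_congr_fun hS h1

theorem psi_nn (col : COL) {ε δ T t : ℝ} {ψ s d q u f : ℝ → ℝ} (h : Ln ε δ T ψ s d q u f)
    (ht : t ∈ Iv s T (-(3 / 4))) (h0 : 0 ≤ t) : 0 ≤ ψ t := by
  rcases h0.eq_or_lt with rfl | k
  · exact h.ψ0.ge
  · obtain ⟨b, hb⟩ := (col ε δ T (-(3 / 4)) ψ s d q u f h (by norm_num) (by norm_num)).1
    have k1 := hb.ps t ht k
    rw [h.th, Real.tanh_eq_sinh_div_cosh, div_pos_iff_of_pos_right (Real.cosh_pos _),
      Real.sinh_pos_iff, div_pos_iff_of_pos_right (by positivity)] at k1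
    exact k1.le

variable {n : ℕ} {C : ℝ} {u M M' : E n → ℝ} {x : E n}

theorem LP_congr (h : M =ᶠ[𝓝 x] M') : LP u M x = LP u M' x := by
  have h1 : gradient M =ᶠ[𝓝 x] gradient M' := h.eventuallyEq_nhds.mono fun y hy => hy.gradient_eq
  rw [LP, LP, Lf, Lf, lap, lap, P366W.dvg_eq, P366W.dvg_eq, h1.fderiv_eq, h1.self_of_nhds,
    h.self_of_nhds]

theorem cont_PP (h : Ok C u) : Continuous (PP u) := by
  have h1 := h.tcf.continuous
  have h2 := h.tcp.continuous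
  unfold PP qq
  fun_prop

theorem cont_LP (h : Ok C u) (hM : ContDiff ℝ 2 M) : Continuous (LP u M) := by
  have h1 := P366W.contDiff_gradient (k := 1) hM
  have h2 : Continuous (lap M) := P366W.continuous_dvg h1
  have h3 := h1.continuous
  have h4 := cont_PP h
  have h5 := h.tcp.continuous
  have h6 := h.sm.continuous
  have h7 := hM.continuous
  unfold LP Lf
  fun_prop

theorem cont_hs (h : Ok C u) : Continuous fun x => hs (SS u x) := by
  have h1 : Continuous (SS u) := h.tcp.continuous_fderiv (by simp)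
  unfold hs
  fun_prop

theorem cont_gn (h : Ok C u) : Continuous (gn u) := by
  have h1 := h.tcf.continuous
  have h2 := cont_PP h
  have h3 := cont_hs h
  unfold gn
  fun_prop

/-- the lower bound for the gain -/
def g1 (l : ℝ) (u : E n → ℝ) (x : E n) : ℝ :=
  ff u x ^ 2 * (l * PP u x + l * (1 - l) * hs (SS u x) / Tq l (qq u x) ^ 2)

/-- the gain with the switch at the slope `s` -/
def H1 (δ₀ : ℝ) (u M₀ M₁ : E n → ℝ) (s : ℝ) (x : E n) : ℝ :=
  ff u x ^ 2 * (st (s / δ₀ + 1 / 2) * M₀ x + (1 - st (s / δ₀ + 1 / 2)) * M₁ x) *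
    (st (s / δ₀ + 1 / 2) * LP u M₀ x + (1 - st (s / δ₀ + 1 / 2)) * LP u M₁ x)

theorem H1_lo {δ₀ s : ℝ} {M₀ M₁ : E n → ℝ} (h0 : 0 < δ₀) (h : s ≤ -(δ₀ / 2)) :
    H1 δ₀ u M₀ M₁ s x = ff u x ^ 2 * (M₁ x * LP u M₁ x) := by
  have : s / δ₀ ≤ -(1 / 2) := by rw [div_le_iff₀ h0]; linarith
  rw [H1, st_zero (by linarith)]
  ring

theorem H1_hi {δ₀ s : ℝ} {M₀ M₁ : E n → ℝ} (h0 : 0 < δ₀) (h : δ₀ / 2 ≤ s) :
    H1 δ₀ u M₀ M₁ s x = ff u x ^ 2 * M₀ x * LP u M₀ x := by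
  have : 1 / 2 ≤ s / δ₀ := by rw [le_div_iff₀ h0]; linarith
  rw [H1, st_one (by linarith)]
  ring

theorem pt (cvq : CVQ) (h : Ok C u) {l δ₀ s K K' d : ℝ} {M₀ M₁ : E n → ℝ} (l0 : 0 < l)
    (l1 : l ≤ 1 / 200) (h0 : 0 < δ₀) (h1 : δ₀ ≤ l) (hK : K ≤ K') (hK' : 0 ≤ K')
    (p1 : ‖pp u x‖ ^ 2 ≤ δ₀ ^ 2 + s ^ 2) (p2 : s ^ 2 ≤ ‖pp u x‖ ^ 2) (hd : d ^ 2 ≤ hs (SS u x))
    (m0 : M₀ =ᶠ[𝓝 x] fun y => Tq l (qq u y))
    (m1 : ‖pp u x‖ < 2 * δ₀ → M₁ =ᶠ[𝓝 x] fun y => Tq l (qq u y))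
    (m2 : -K ≤ M₁ x * LP u M₁ x) (m3 : 4 * δ₀ ≤ ‖pp u x‖ → -(K * l) ≤ M₁ x * LP u M₁ x) :
    0 ≤ g1 l u x ∧ (-(δ₀ / 2) ≤ s → g1 l u x ≤ H1 δ₀ u M₀ M₁ s x) ∧
      (0 ≤ s → s ≤ √l → ff u x ^ 2 * d ^ 2 / 4 ≤ g1 l u x) ∧
      -(K' * ff u x ^ 2) ≤ H1 δ₀ u M₀ M₁ s x ∧
      (s ≤ -(4 * δ₀) → -(K' * l * ff u x ^ 2) ≤ H1 δ₀ u M₀ M₁ s x) := by
  obtain ⟨-, c1, -, c2⟩ := cvq n C u h
  obtain ⟨-, P0, -, s0, -⟩ := c1 x
  obtain ⟨T0, T1, T2, T3⟩ := (c2 l l0 (by linarith)).2 x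
  have f0 := sq_nonneg (ff u x)
  have l2 : 0 ≤ 1 - l := by linarith
  have a1 : 0 ≤ g1 l u x := by unfold g1; positivity
  have a2 : -(δ₀ / 2) ≤ s → g1 l u x ≤ H1 δ₀ u M₀ M₁ s x := fun k => by
    refine (mul_le_mul_of_nonneg_left T3 f0).trans_eq ?_
    rcases le_total (δ₀ / 2) s with k1 | k1
    · rw [H1_hi h0 k1, LP_congr m0, m0.self_of_nhds, mul_assoc]
    · have k2 := m1 (lt_of_pow_lt_pow_left₀ 2 (by linarith) (by nlinarith))
      rw [H1, LP_congr m0, m0.self_of_nhds, LP_congr k2, k2.self_of_nhds]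
      ring
  refine ⟨a1, a2, fun k1 k2 => ?_, ?_, fun k => ?_⟩
  · have k3 : s ^ 2 ≤ l := by
      rw [← Real.sq_sqrt l0.le]; exact pow_le_pow_left₀ k1 k2 2
    have k4 : d ^ 2 / 4 ≤ l * (1 - l) * hs (SS u x) / Tq l (qq u x) ^ 2 := by
      have k5 : Tq l (qq u x) ^ 2 ≤ 3 * l := by nlinarith [sq_nonneg ‖pp u x‖]
      rw [le_div_iff₀ (by positivity)]
      nlinarith [mul_le_mul hd k5 (sq_nonneg _) s0, mul_nonneg l0.le s0]
    rw [g1, mul_div_assoc]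
    exact mul_le_mul_of_nonneg_left (by nlinarith) f0
  · rcases le_total (-(δ₀ / 2)) s with k | k
    · linarith [a2 k, mul_nonneg hK' f0]
    · rw [H1_lo h0 k]
      nlinarith
  · rw [H1_lo h0 (by linarith)]
    have k1 := m3 (le_of_pow_le_pow_left₀ two_ne_zero (norm_nonneg _) (by nlinarith))
    nlinarith [mul_le_mul_of_nonneg_right hK l0.le]

theorem gn_le (cvq : CVQ) (h : Ok C u) {l : ℝ} (l0 : 0 < l) (l1 : l ≤ 1 / 200) (x : E n) :
    0 ≤ gn u x ∧ l / 4 * gn u x ≤ g1 l u x := by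
  obtain ⟨-, c1, -, c2⟩ := cvq n C u h
  obtain ⟨-, P0, -, s0, -⟩ := c1 x
  obtain ⟨T0, T1, -⟩ := (c2 l l0 (by linarith)).2 x
  refine ⟨by unfold gn; positivity, ?_⟩
  have k : l * (1 - l) * hs (SS u x) ≤ l * (1 - l) * hs (SS u x) / Tq l (qq u x) ^ 2 :=
    le_div_self (mul_nonneg (mul_nonneg l0.le (by linarith)) s0) (by positivity)
      (pow_le_one₀ T0.le T1)
  rw [gn, g1, mul_left_comm]
  refine mul_le_mul_of_nonneg_left ?_ (sq_nonneg _)
  nlinarith [mul_nonneg l0.le s0, mul_nonneg l0.le P0]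

theorem side (tgc : TGC) (cvq : CVQ) (col : COL) (h : Ok C u) {e : E n → ℝ} {y : E n}
    {G l δ₀ δ ε T K K' t₁ σ : ℝ} {γ k : ℝ → ℝ} (l0 : 0 < l) (l1 : l ≤ 1 / 200) (hδ : δ ≤ δ₀)
    (h1 : δ₀ ≤ l) (hK : K ≤ K') (hC : C ≤ K') (hy0 : pp u y ≠ 0) (hσ : σ ^ 2 = 1)
    (c0 : ContDiff ℝ 2 (M0 l γ u)) (c1 : ContDiff ℝ 2 (M1 k u))
    (m0 : ∀ x, ps u x < 1 → M0 l γ u =ᶠ[𝓝 x] fun y => Tq l (qq u y))
    (m1 : ∀ x, 0 ≤ M1 k u x ∧ M1 k u x ≤ 1 ∧
      (‖pp u x‖ < 2 * δ₀ → M1 k u =ᶠ[𝓝 x] fun y => Tq l (qq u y)) ∧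
      (1 / 4 ≤ ‖pp u x‖ → M1 k u x = 0) ∧ -K ≤ M1 k u x * LP u (M1 k u) x ∧
      (4 * δ₀ ≤ ‖pp u x‖ → -(K * l) ≤ M1 k u x * LP u (M1 k u) x))
    (far : ∀ (ψ s d q u f a J H g : ℝ → ℝ), Ln ε δ T ψ s d q u f →
      (∀ t, |d t| ≤ K') → AntitoneOn a (Ici 0) → (∀ t, 0 ≤ a t) → ContinuousOn a (Icc 0 T) →
      ContinuousOn J (Icc 0 T) → ContinuousOn H (Icc 0 T) → ContinuousOn g (Icc 0 T) →
      (∀ t ∈ Icc 0 T, 1 / 2 ≤ J t ∧ J t ≤ 2) →
      (∀ t ∈ Iv s T (-(3 / 4)), 0 ≤ t → 0 ≤ g t ∧ (-(δ₀ / 2) ≤ s t → g t ≤ H t) ∧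
        (0 ≤ s t → s t ≤ √l → f t ^ 2 * d t ^ 2 / 4 ≤ g t) ∧ -(K' * f t ^ 2) ≤ H t ∧
        (s t ≤ -(4 * δ₀) → -(K' * l * f t ^ 2) ≤ H t)) →
      (∫ t in Iv s T (-(3 / 4)) ∩ Ici 0, a t ^ 2 * st (2 * s t) * g t * J t) / 2 ≤
        ∫ t in Iv s T (-(3 / 4)) ∩ Ici 0, a t ^ 2 * H t * J t)
    (hL : Lr u y t₁ σ ε δ T)
    (hsv : ∀ τ, 0 ≤ τ → sv u G (y, t₁ + σ * τ) = -σ * sl u (y, t₁ + σ * τ))
    (hW : ∀ τ, 0 ≤ τ → ((y, t₁ + σ * τ) ∈ WW u G ↔
      ∀ τ' ∈ Icc 0 τ, -(3 / 4) < sv u G (y, t₁ + σ * τ')))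
    (ha : AntitoneOn (fun τ => aT u e G (y, t₁ + σ * τ)) (Ici 0))
    (ha0 : ∀ τ, T ≤ τ → aT u e G (y, t₁ + σ * τ) = 0)
    (hJ : ∀ τ ∈ Icc 0 T, (y, t₁ + σ * τ) ∈ UU u ∧ |JJ u (y, t₁ + σ * τ) - 1| ≤ 1 / 2) :
    IntegrableOn (fun τ => gy u e G (y, t₁ + σ * τ)) (Ici 0) ∧
    IntegrableOn (fun τ => hy u e G δ₀ l γ k (y, t₁ + σ * τ)) (Ici 0) ∧
    l / 8 * ∫ τ in Ici 0, gy u e G (y, t₁ + σ * τ) ≤
      ∫ τ in Ici 0, hy u e G δ₀ l γ k (y, t₁ + σ * τ) := by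
  obtain ⟨-, cJ, -, hy1, -⟩ := tgc n C u h
  obtain ⟨n1, -, -, -, -, -, -, n2, -⟩ := hy1 y hy0
  have ln := hL.ln
  have d0 : 0 < δ₀ := ln.d0.trans_le hδ
  have K0 : 0 ≤ K' := by linarith [h.C1]
  obtain ⟨X, hX⟩ : ∃ X : ℝ → E n, X = fun τ => ray u (y, t₁ + σ * τ) := ⟨_, rfl⟩
  obtain ⟨s, hs⟩ : ∃ s : ℝ → ℝ, s = fun τ => -σ * sl u (y, t₁ + σ * τ) := ⟨_, rfl⟩
  obtain ⟨a, hA⟩ : ∃ a : ℝ → ℝ, a = fun τ => aT u e G (y, t₁ + σ * τ) := ⟨_, rfl⟩
  obtain ⟨J, hJ'⟩ : ∃ J : ℝ → ℝ, J = fun τ => JJ u (y, t₁ + σ * τ) := ⟨_, rfl⟩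
  have eX : ∀ τ, ray u (y, t₁ + σ * τ) = X τ := fun τ => by rw [hX]
  have es : ∀ τ, 0 ≤ τ → sv u G (y, t₁ + σ * τ) = s τ := fun τ k => by rw [hs, hsv τ k]
  have ea : ∀ τ, aT u e G (y, t₁ + σ * τ) = a τ := fun τ => by rw [hA]
  have eJ : ∀ τ, JJ u (y, t₁ + σ * τ) = J τ := fun τ => by rw [hJ']
  have s2 : ∀ τ, s τ ^ 2 = ⟪pp u (X τ), nu u y⟫ ^ 2 := fun τ => by
    rw [hs, ← eX]
    change (-σ * _) ^ 2 = _
    rw [mul_pow, neg_sq, hσ, one_mul]
    rfl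
  have p2 : ∀ τ, s τ ^ 2 ≤ ‖pp u (X τ)‖ ^ 2 := fun τ => by
    rw [(n2 _).2.2.2, s2]; exact le_add_of_nonneg_left (sq_nonneg _)
  rw [← hs] at ln
  simp only [eX] at ln
  have cX : Continuous X := by rw [hX]; unfold ray; dsimp only; fun_prop
  have cs : Continuous s := continuous_iff_continuousAt.2 fun τ => (ln.ds τ).continuousAt
  have ca : Continuous a := by rw [hA]; unfold aT; dsimp only; fun_prop
  have cJ' : ContinuousOn J (Icc 0 T) := by
    rw [hJ']; exact cJ.comp (f := fun τ => (y, t₁ + σ * τ)) (by fun_prop) fun τ k => (hJ τ k).1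
  have cf := h.tcf.continuous
  have cH : Continuous fun τ => H1 δ₀ u (M0 l γ u) (M1 k u) (s τ) (X τ) := by
    have k1 := cont_LP h c0
    have k2 := cont_LP h c1
    have k3 := c0.continuous
    have k4 := c1.continuous
    unfold H1
    fun_prop
  have cg : Continuous fun τ => g1 l u (X τ) := by
    obtain ⟨k1, k2⟩ := (cvq n C u h).2.2.2 l l0 (by linarith)
    exact Continuous.comp (g := g1 l u) ((cf.pow 2).mul ((continuous_const.mul (cont_PP h)).add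
      ((continuous_const.mul (cont_hs h)).div (k1.continuous.pow 2) fun x =>
        (pow_pos (k2 x).1 2).ne'))) cX
  have cn := (cont_gn h).comp cX
  have hS := meas_Iv s T (-(3 / 4))
  have hT : Iv s T (-(3 / 4)) ∩ Ici 0 ⊆ Icc 0 T := fun τ k => ⟨k.2, ((mem_Iv k.2).1 k.1).1.le⟩
  have J1 : ∀ τ ∈ Icc 0 T, 1 / 2 ≤ J τ ∧ J τ ≤ 2 := fun τ k => by
    have := abs_le.1 (hJ τ k).2
    rw [eJ] at this
    constructor <;> linarith
  have W1 : ∀ τ ∈ Iv s T (-(3 / 4)) ∩ Ici 0,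
      aa u e G (y, t₁ + σ * τ) = a τ * st (8 * s τ + 5) := fun τ k => by
    rw [aa, aW, indicator_of_mem ((hW τ k.2).2 fun τ' k' => by
      rw [es τ' k'.1]; exact ((mem_Iv k.2).1 k.1).2 τ' k'), ea, es τ k.2]
  have W2 : ∀ τ, 0 ≤ τ → τ ∉ Iv s T (-(3 / 4)) ∩ Ici 0 → aa u e G (y, t₁ + σ * τ) = 0 :=
    fun τ k k' => by
      rcases le_or_gt T τ with k1 | k1
      · rw [aa, ha0 τ k1, zero_mul]
      · rw [aa, aW, indicator_of_notMem fun k2 => k' ⟨(mem_Iv k).2 ⟨k1, fun τ' k3 => by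
          rw [← es τ' k3.1]; exact (hW τ k).1 k2 τ' k3⟩, k⟩, mul_zero]
  obtain ⟨i1, j1⟩ := ind (F := fun τ => gy u e G (y, t₁ + σ * τ))
    (F' := fun τ => a τ ^ 2 * st (2 * s τ) * gn u (X τ) * J τ) hS hT
    (ContinuousOn.mul (Continuous.continuousOn (Continuous.mul (by fun_prop) cn)) cJ')
    (fun τ k => by
      rw [gy, W1 τ k, es τ k.2, eX, eJ]
      rcases le_total (s τ) 0 with k1 | k1
      · rw [st_zero (x := 2 * s τ) (by linarith), mul_zero, mul_zero]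
      · rw [st_one (x := 8 * s τ + 5) (by linarith), mul_one])
    fun τ k k' => by rw [gy, W2 τ k k']; ring
  obtain ⟨i2, j2⟩ := ind (F := fun τ => hy u e G δ₀ l γ k (y, t₁ + σ * τ))
    (F' := fun τ => a τ ^ 2 * H1 δ₀ u (M0 l γ u) (M1 k u) (s τ) (X τ) * J τ) hS hT
    (ContinuousOn.mul (Continuous.continuousOn ((ca.pow 2).mul cH)) cJ')
    (fun τ k' => by
      have e1 : Hg u (th u G δ₀) (M0 l γ u) (M1 k u) (y, t₁ + σ * τ) =
          H1 δ₀ u (M0 l γ u) (M1 k u) (s τ) (X τ) := by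
        rw [Hg, La, th, es τ k'.2, eX, H1]
      rw [hy, W1 τ k', e1, eJ]
      rcases le_total (s τ) (-(1 / 2)) with k1 | k1
      · rw [H1_lo d0 (by linarith), (m1 _).2.2.2.1 (le_of_pow_le_pow_left₀ two_ne_zero
          (norm_nonneg _) (by nlinarith [p2 τ]))]
        ring
      · rw [st_one (x := 8 * s τ + 5) (by linarith), mul_one])
    fun τ k k' => by rw [hy, W2 τ k k']; ring
  refine ⟨i1, i2, ?_⟩
  have hd : ∀ τ, ‖SS u (X τ) (nu u y)‖ ≤ C ∧ |-⟪SS u (X τ) (nu u y), nu u y⟫| ≤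
      ‖SS u (X τ) (nu u y)‖ := fun τ =>
    ⟨((SS u (X τ)).le_opNorm _).trans (by rw [n1, mul_one]; exact h.tS_le _), by
      rw [abs_neg]; exact (abs_real_inner_le_norm _ _).trans_eq (by rw [n1, mul_one])⟩
  have F := far _ _ _ _ _ _ a J (fun τ => H1 δ₀ u (M0 l γ u) (M1 k u) (s τ) (X τ))
    (fun τ => g1 l u (X τ)) ln (fun τ => (hd τ).2.trans ((hd τ).1.trans hC)) (hA ▸ ha)
    (fun τ => by rw [← ea]; exact mul_nonneg (st_nn _) (st_nn _)) ca.continuousOn cJ'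
    cH.continuousOn cg.continuousOn J1 fun τ k k' => by
      have k1 := psi_nn col ln k k'
      have k2 := hL.ti τ k.1.le
      have k3 := ((cvq n C u h).2.1 (X τ)).2.2.2.2.2 (nu u y)
      rw [eX] at k2
      rw [n1, one_pow, mul_one] at k3
      obtain ⟨-, -, q1, -, q2, q3⟩ := m1 (X τ)
      refine pt cvq h l0 l1 d0 h1 hK K0 ?_ (p2 τ) ?_ (m0 _ (by linarith)) q1 q2 q3
      · rw [(n2 _).2.2.2, s2]
        exact add_le_add_left (pow_le_pow_left₀ (norm_nonneg _) (k2.trans hδ) 2) _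
      · exact (sq_le_sq' (abs_le.1 (hd τ).2).1 (abs_le.1 (hd τ).2).2).trans k3
  rw [j1, j2]
  refine le_trans ?_ F
  rw [le_div_iff₀' two_pos, ← mul_assoc, ← integral_const_mul]
  refine setIntegral_mono_on (IntegrableOn.mono_set (ContinuousOn.integrableOn_Icc
    (continuousOn_const.mul (ContinuousOn.mul (Continuous.continuousOn
      (Continuous.mul (by fun_prop) cn)) cJ'))) hT) (IntegrableOn.mono_set
    (ContinuousOn.integrableOn_Icc (ContinuousOn.mul (Continuous.continuousOn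
      (Continuous.mul (by fun_prop) cg)) cJ')) hT) hS fun τ k => ?_
  have k1 := mul_le_mul_of_nonneg_left (gn_le cvq h l0 l1 (X τ)).2
    (mul_nonneg (mul_nonneg (sq_nonneg (a τ)) (st_nn (2 * s τ)))
      (show 0 ≤ J τ by linarith [J1 τ (hT k)]))
  linarith

end Sbb

open Sbb

theorem sbb : rSBB := by
  intro tgc cvq gn0 gn1 col farc regw n C B
  obtain ⟨K₁, K0, hK₁⟩ := gn1 n C B
  obtain ⟨l₀, l0, far⟩ := farc (1 + |C| + K₁) (by linarith [abs_nonneg C])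
  refine ⟨l₀, l0, fun l ℓ hl => ?_⟩
  obtain ⟨q₁, q0, hq⟩ := gn0 n C l ℓ
  refine ⟨q₁, q0, fun K η L δ G δ₀ u e y γ κ Kp k hη h r ce ge ga k1 hδ h1 => ?_⟩
  obtain ⟨_, _, regw⟩ := regw
  obtain ⟨-, -, -, -, -, core, -⟩ := regw n C K η L ℓ δ G u e y h r
  obtain ⟨c0, cY, g0⟩ := hq u γ κ Kp h ga
  obtain ⟨⟨t₀, ht₀, L0⟩, L1⟩ := r.rf
  have d0 : 0 < δ₀ := L0.ln.d0.trans_le hδ
  obtain ⟨c1, g1⟩ := hK₁ u l δ₀ k h ga.l0 d0 k1
  have a1 := r.L1
  have a2 := r.lg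
  have a3 := r.gG
  have a4 := r.rm.1
  have a5 := r.th.G2
  have a6 := abs_le.1 ht₀
  have a7 := r.η1
  have hL : 0 < L := by linarith
  obtain ⟨g, hg⟩ : ∃ g, g = gp u G y := ⟨_, rfl⟩
  obtain ⟨Λ, hΛ⟩ : ∃ Λ, Λ = lg (e y) := ⟨_, rfl⟩
  have eT : ∀ t, aT u e G (y, t) = st (t + 64 * Λ) * st (g + 64 * Λ - t) := fun t => by
    rw [hg, hΛ]; rfl
  have e0 : ∀ t, w0 L ((y, t) : E n × ℝ) = bp (t / L) := fun t => rfl
  have e1 : ∀ t, w1 u G L (y, t) = bp ((t - g) / L) := fun t => by rw [hg]; rfl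
  have es : ∀ t, sv u G (y, t) =
      if t < 2 then sl u (y, t) else if g - 2 < t then -sl u (y, t) else 1 := fun t => by
    rw [hg]; rfl
  have ra := r.ra.2
  have r0 := r.r0.2
  have r1 := r.r1.2
  have rm := r.rm.2.2.1
  rw [← hg] at core a3 a4 L1 r1 rm
  rw [← hΛ] at a2 L0 L1 ra
  have sd := fun t₁ σ hσ => side (e := e) (G := G) (t₁ := t₁) (σ := σ) (γ := γ) (k := k) tgc cvq
    col h ga.l0 ga.l1 hδ h1 (K' := 1 + |C| + K₁) (by linarith [abs_nonneg C])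
    (by linarith [le_abs_self C]) r.r0.1 hσ c0 c1 (fun x => (g0 x).2.2.1) g1
    fun ψ s d q u f a J H g => far l δ₀ (e y) δ (65 * Λ) ψ s d q u f a J H g d0 h1 hl
  have co : ∀ t, -(2 * L) ≤ t → t ≤ g + 2 * L → -(3 / 4) < sv u G (y, t) := fun t k k' => by
    linarith [(core t ⟨k, k'⟩).1]
  have s0 : ∀ τ, 0 ≤ τ → sv u G (y, t₀ + -1 * τ) = - -1 * sl u (y, t₀ + -1 * τ) := fun τ k => by
    rw [es, if_pos (by linarith), neg_neg, one_mul]
  have s1 : ∀ τ, 0 ≤ τ → sv u G (y, g + 1 * τ) = -1 * sl u (y, g + 1 * τ) := fun τ k => by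
    rw [es, if_neg (by linarith), if_pos (by linarith), neg_one_mul]
  obtain ⟨i1, i2, i3⟩ := sd t₀ (-1) (by norm_num) L0 s0
    (fun τ k => ⟨fun k1 τ' k2 => by
      rcases le_total (t₀ + -1 * τ') 0 with k3 | k3
      · exact k1 _ (mem_uIcc.2 (Or.inr ⟨by dsimp only; linarith [k2.2], k3⟩))
      · exact co _ (by linarith) (by linarith [k2.1]),
      fun k1 t k2 => by
        rcases le_total t t₀ with k3 | k3
        · rcases mem_uIcc.1 k2 with k4 | k4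
          · exact co _ (by linarith [k4.1]) (by linarith)
          · simpa using k1 (t₀ - t) ⟨by linarith, by linarith [k4.1]⟩
        · refine co _ (by linarith) ?_
          rcases mem_uIcc.1 k2 with k4 | k4 <;> linarith [k4.2]⟩)
    (fun τ k τ' k' k1 => by
      have k2 : (0 : ℝ) ≤ τ := k
      simp only [eT]
      rw [st_one (x := g + _ - _) (by linarith), st_one (x := g + _ - _) (by linarith), mul_one,
        mul_one]
      exact st_mono (by linarith))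
    (fun τ k => by rw [eT, st_zero (by linarith), zero_mul])
    fun τ k => by
      have := ra (t₀ + -1 * τ) (abs_le.2 ⟨by linarith [k.2], by linarith [k.1]⟩)
      exact ⟨this.1, by linarith [this.2.2.1]⟩
  obtain ⟨j1, j2, j3⟩ := sd g 1 (by norm_num) L1 s1
    (fun τ k => ⟨fun k1 τ' k2 => k1 _ (mem_uIcc.2 (Or.inl
      ⟨by linarith [k2.1], by dsimp only; linarith [k2.2]⟩)), fun k1 t k2 => by
        rw [uIcc_of_le (by dsimp only; linarith)] at k2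
        rcases le_total t g with k3 | k3
        · exact co _ (by linarith [k2.1]) (by linarith)
        · simpa using k1 (t - g) ⟨by linarith, by linarith [k2.2]⟩⟩)
    (fun τ k τ' k' k1 => by
      have k2 : (0 : ℝ) ≤ τ := k
      simp only [eT]
      rw [st_one (x := g + _ + _) (by linarith), st_one (x := g + _ + _) (by linarith)]
      exact mul_le_mul_of_nonneg_left (st_mono (by linarith)) zero_le_one)
    (fun τ k => by rw [eT, st_zero (x := g + _ - _) (by linarith), mul_zero])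
    fun τ k => by
      have := ra (g + 1 * τ) (abs_le.2 ⟨by linarith [k.1], by linarith [k.2]⟩)
      exact ⟨this.1, by linarith [this.2.2.1]⟩
  have out : ∀ t, t ∉ Icc t₀ g → af u G L γ (y, t) = 0 ∧ dv u G L γ (y, t) = 0 := fun t ht => by
    have k : w0 L ((y, t) : E n × ℝ) + w1 u G L (y, t) = 0 ∨ ps u (ray u (y, t)) ≤ 1 := by
      rw [e0, e1]
      rcases le_total t t₀ with k1 | k1
      · rcases le_total t (-(2 * L)) with k2 | k2
        · exact Or.inl (by rw [bp_lo hL k2, bp_lo hL (by linarith), add_zero])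
        · have k3 := psi_nn col L0.ln ((mem_Iv (t := t₀ - t) (by linarith)).2 ⟨by linarith,
            fun τ k => by
              rw [← s0 τ k.1]; exact co _ (by linarith [k.2]) (by linarith [k.1])⟩) (by linarith)
          simp only [neg_one_mul, neg_sub, add_sub_cancel] at k3
          exact Or.inr (by linarith)
      · have k0 : g ≤ t := not_lt.1 fun k => ht ⟨k1, k.le⟩
        rcases le_total (g + 2 * L) t with k2 | k2
        · exact Or.inl (by rw [bp_hi hL (by linarith), bp_hi hL (by linarith), add_zero])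
        · have k3 := psi_nn col L1.ln ((mem_Iv (t := t - g) (by linarith)).2 ⟨by linarith,
            fun τ k => by
              rw [← s1 τ k.1]; exact co _ (by linarith [k.1]) (by linarith [k.2])⟩) (by linarith)
          simp only [one_mul, add_sub_cancel] at k3
          exact Or.inr (by linarith)
    rw [af, dv]
    rcases k with k | k
    · rw [k]; simp
    · rw [(ga.dz _ (Or.inl k)).1, (g0 _).2.2.2.1 (Or.inl k)]; simp
  have cX : Continuous fun t => ray u (y, t) := by unfold ray; dsimp only; fun_prop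
  have hu : ∀ t ∈ Icc t₀ g, (y, t) ∈ UU u ∧ |JJ u (y, t) - 1| ≤ η := fun t k => by
    have := ra t (abs_le.2 ⟨by linarith [k.1], by linarith [k.2]⟩)
    exact ⟨this.1, this.2.2.1⟩
  have cJ : ContinuousOn (fun t => JJ u (y, t)) (Icc t₀ g) :=
    (tgc n C u h).2.1.comp (f := fun t => (y, t)) (by fun_prop) fun t k => (hu t k).1
  have mid : ∀ t ∈ Icc t₀ g, gy u e G (y, t) = gn u (ray u (y, t)) * JJ u (y, t) ∧
      hy u e G δ₀ l γ k (y, t) = ff u (ray u (y, t)) ^ 2 * M0 l γ u (ray u (y, t)) *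
        LP u (M0 l γ u) (ray u (y, t)) * JJ u (y, t) := fun t k' => by
    obtain ⟨k2, k3⟩ := core t ⟨by linarith [k'.1], by linarith [k'.2]⟩
    have k4 : aa u e G (y, t) = 1 := by
      rw [aa, k3, eT, st_one (by linarith [k'.1]), st_one (by linarith [k'.2])]; norm_num
    rw [gy, hy, k4, st_one (by linarith), ← H1_hi (s := sv u G (y, t)) (M₁ := M1 k u) d0
      (by linarith [ga.l1])]
    exact ⟨by ring, by rw [one_pow, one_mul]; rfl⟩
  have cw : Continuous fun t => w0 L ((y, t) : E n × ℝ) + w1 u G L (y, t) := by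
    simp only [e0, e1]
    unfold bp
    fun_prop
  have cE : Continuous (EE u) := (h.tcf.continuous.pow 2).mul (cvq n C u h).1.continuous
  have m1 : IntegrableOn (fun t => af u G L γ (y, t)) (Icc t₀ g) :=
    ((cw.mul ((cE.comp cX).mul ((ga.cγ.continuous_deriv (by norm_num)).comp
      (h.smp.continuous.comp cX)).neg)).continuousOn.mul cJ).integrableOn_Icc
  have m2 : IntegrableOn (fun t => dv u G L γ (y, t)) (Icc t₀ g) :=
    ((cw.mul ((P366W.continuous_dvg cY).comp cX)).continuousOn.mul cJ).integrableOn_Icc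
  have m3 : IntegrableOn (fun t => gy u e G (y, t)) (Icc t₀ g) :=
    ((((cont_gn h).comp cX).continuousOn.mul cJ).integrableOn_Icc).congr_fun
      (fun t k => (mid t k).1.symm) measurableSet_Icc
  have m4 : IntegrableOn (fun t => hy u e G δ₀ l γ k (y, t)) (Icc t₀ g) :=
    ((((((h.tcf.continuous.pow 2).mul c0.continuous).mul (cont_LP h c0)).comp
      cX).continuousOn.mul cJ).integrableOn_Icc).congr_fun
      (fun t k => (mid t k).2.symm) measurableSet_Icc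
  have key : 69 / 50 * (∫ t in Icc t₀ g, af u G L γ (y, t)) +
      l / 8 * (∫ t in Icc t₀ g, gy u e G (y, t)) - (1 - 2 * l) * ∫ t in Icc t₀ g, dv u G L γ (y, t)
      ≤ ∫ t in Icc t₀ g, hy u e G δ₀ l γ k (y, t) := by
    rw [← integral_const_mul, ← integral_const_mul, ← integral_const_mul,
      ← integral_add (m1.const_mul _) (m3.const_mul _),
      ← integral_sub (by exact (m1.const_mul _).add (m3.const_mul _)) (m2.const_mul _)]
    refine setIntegral_mono_on (((m1.const_mul _).add (m3.const_mul _)).sub (m2.const_mul _)) m4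
      measurableSet_Icc fun t k' => ?_
    have J0 : 0 ≤ JJ u (y, t) := by linarith [(abs_le.1 (hu t k').2).1]
    have n0 := mul_nonneg (mul_nonneg ga.l0.le (gn_le cvq h ga.l0 ga.l1 (ray u (y, t))).1) J0
    obtain ⟨-, -, -, z1, z2⟩ := g0 (ray u (y, t))
    rw [(mid t k').1, (mid t k').2, af, dv, e0, e1]
    rcases le_total t L with k2 | k2
    · have k3 := abs_le.2 ⟨(by linarith [k'.1] : -L ≤ t), k2⟩
      rw [bp_one hL k3, bp_lo hL (by linarith)]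
      linarith [mul_le_mul_of_nonneg_right (z2 (Or.inl ((r0 t (by linarith)).2.1.trans hη))) J0]
    rcases le_total t (g - L) with k3 | k3
    · have k4 := Or.inr (a := ps u (ray u (y, t)) ≤ 1) (rm t ⟨k2, k3⟩).le
      have k5 := mul_le_mul_of_nonneg_right (z2 (Or.inr k4)) J0
      rw [(ga.dz _ k4).1, z1 k4] at k5 ⊢
      linarith
    · have k4 : |t - g| ≤ L := abs_le.2 ⟨by linarith, by linarith [k'.2]⟩
      rw [bp_one hL k4, bp_hi hL (by linarith)]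
      linarith [mul_le_mul_of_nonneg_right (z2 (Or.inl ((r1 t (by linarith)).2.1.trans hη))) J0]
  rw [← setIntegral_eq_integral_of_forall_compl_eq_zero fun t k => (out t k).1,
    ← setIntegral_eq_integral_of_forall_compl_eq_zero fun t k => (out t k).2,
    split (F := fun t => gy u e G (y, t)) (by linarith) i1 m3 j1,
    split (F := fun t => hy u e G δ₀ l γ k (y, t)) (by linarith) i2 m4 j2]
  linarith

end Vale.Agent.P134E
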