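import Vale.Agent.P134E.Spec

/-!
# P134E, row SBC: the cross term of the integration by parts
-/

set_option linter.unusedVariables false

open MeasureTheory Metric Filter Topology Set
open scoped ContDiff RealInnerProductSpace
open Vale.Agent.P366.Stmt (E)
open Vale.Agent.P366W (dvg trc)

noncomputable section

namespace Vale.Agent.P134E

open Vale.Agent.P134B

namespace Sbc

variable {n : ℕ}

theorem bp_cont : Continuous bp := by
  unfold bp st
  exact (Real.smoothTransition.continuous.comp (by fun_prop)).mul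
    (Real.smoothTransition.continuous.comp (by fun_prop))

theorem bp_nn (x : ℝ) : 0 ≤ bp x :=
  mul_nonneg (Real.smoothTransition.nonneg _) (Real.smoothTransition.nonneg _)

theorem bp_le (x : ℝ) : bp x ≤ 1 := mul_le_one₀ (Real.smoothTransition.le_one _)
  (Real.smoothTransition.nonneg _) (Real.smoothTransition.le_one _)

theorem bp_zero {x L : ℝ} (hL : 0 < L) (h : ¬|x| ≤ 2 * L) : bp (x / L) = 0 := by
  unfold bp st
  rcases lt_abs.1 (not_le.1 h) with h | h
  · rw [Real.smoothTransition.zero_of_nonpos (x := 2 - x / L), mul_zero]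
    have := (le_div_iff₀ hL).2 h.le
    linarith
  · rw [Real.smoothTransition.zero_of_nonpos (x := x / L + 2), zero_mul]
    have := (div_le_iff₀ hL).2 (show x ≤ -2 * L by linarith)
    linarith

/-- a function which lives on the two windows -/
theorem int_w {L g : ℝ} (hL : 0 < L) (hg : 0 ≤ g) {F : ℝ → ℝ}
    (hF : ContinuousOn F (Icc (-(2 * L)) (g + 2 * L))) :
    Integrable fun t => (bp (t / L) + bp ((t - g) / L)) * F t := by
  refine IntegrableOn.integrable_of_forall_notMem_eq_zero (s := Icc (-(2 * L)) (g + 2 * L))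
    (ContinuousOn.integrableOn_Icc (ContinuousOn.mul (Continuous.continuousOn
      ((bp_cont.comp (by fun_prop)).add (bp_cont.comp (by fun_prop)))) hF)) fun t ht => ?_
  rw [bp_zero hL, bp_zero hL, add_zero, zero_mul] <;> rw [abs_le] <;> rintro ⟨a, b⟩ <;>
    exact ht ⟨by linarith, by linarith⟩

theorem bd_w {L g c : ℝ} (hL : 0 < L) {F : ℝ → ℝ}
    (hF : ∀ t, |t| ≤ 2 * L ∨ |t - g| ≤ 2 * L → |F t| ≤ c) :
    |∫ t, (bp (t / L) + bp ((t - g) / L)) * F t| ≤ 8 * L * c := by
  have i0 : Integrable ((Icc (-(2 * L)) (2 * L)).indicator fun _ : ℝ => c) :=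
    (integrable_indicator_iff measurableSet_Icc).2 continuousOn_const.integrableOn_Icc
  have i1 : Integrable ((Icc (g - 2 * L) (g + 2 * L)).indicator fun _ : ℝ => c) :=
    (integrable_indicator_iff measurableSet_Icc).2 continuousOn_const.integrableOn_Icc
  have key : ∀ (x t a b : ℝ), (|x| ≤ 2 * L → t ∈ Icc a b ∧ |F t| ≤ c) →
      bp (x / L) * |F t| ≤ (Icc a b).indicator (fun _ => c) t := fun x t a b h => by
    by_cases hx : |x| ≤ 2 * L
    · rw [indicator_of_mem (h hx).1]
      exact (mul_le_of_le_one_left (abs_nonneg _) (bp_le _)).trans (h hx).2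
    · rw [bp_zero hL hx, zero_mul]
      exact indicator_nonneg (fun _ _ => (abs_nonneg _).trans
        (hF 0 (Or.inl (by rw [abs_zero]; linarith)))) _
  have := norm_integral_le_of_norm_le (f := fun t => (bp (t / L) + bp ((t - g) / L)) * F t)
    (i0.add i1) (Eventually.of_forall fun t => by
      rw [Real.norm_eq_abs, abs_mul, abs_of_nonneg (add_nonneg (bp_nn _) (bp_nn _)), add_mul]
      exact add_le_add (key _ _ _ _ fun h => ⟨abs_le.1 h, hF t (Or.inl h)⟩)
        (key _ _ _ _ fun h => ⟨⟨by linarith [(abs_le.1 h).1], by linarith [(abs_le.1 h).2]⟩,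
          hF t (Or.inr h)⟩))
  rw [integral_add' i0 i1, integral_indicator_const _ measurableSet_Icc,
    integral_indicator_const _ measurableSet_Icc, Real.volume_real_Icc_of_le (by linarith),
    Real.volume_real_Icc_of_le (by linarith), smul_eq_mul, smul_eq_mul, Real.norm_eq_abs] at this
  linarith

theorem dvg_cont {Y : E n → E n} (h : ContDiff ℝ 1 Y) : Continuous (dvg Y) := by
  have := h.continuous_fderiv one_ne_zero
  unfold dvg
  fun_prop

theorem YY_le {C l ℓ : ℝ} {u : E n → ℝ} {γ κ Kp : ℝ → ℝ} (h : Ok C u) (g : Ga l ℓ γ κ Kp)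
    (x : E n) : ‖YY γ u x‖ ≤ qq u x := by
  have q0 := h.q0 x
  have p1 : ‖pp u x‖ ≤ 1 := by
    have : qq u x = 1 - ‖pp u x‖ ^ 2 := rfl
    by_contra hc
    nlinarith [norm_nonneg (pp u x)]
  have f1 : ff u x ^ 2 ≤ 1 := by
    have a := abs_lt.1 (h.lt x)
    have b : u x ^ 2 ≤ 1 := by nlinarith [a.1, a.2]
    unfold ff
    rw [div_pow, Real.sq_sqrt (by norm_num), div_le_one (by norm_num)]
    nlinarith [sq_nonneg (u x)]
  unfold YY EE
  rw [norm_smul, norm_mul, Real.norm_of_nonneg (by positivity), Real.norm_eq_abs]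
  calc _ ≤ 1 * qq u x * 1 * 1 := by gcongr; exact (g.γ0 _).2.2.2.1
    _ = _ := by ring

end Sbc

open Sbc

theorem sbc : rSBC := by
  intro tgc gn0 n C K L ℓ
  refine ⟨32 * |L| * |K|, by positivity, fun η' hη => ⟨η' / 2, by linarith, ?_⟩⟩
  intro η δ ε G l u y γ κ Kp he h r g
  obtain ⟨q₁, -, hq⟩ := gn0 n C l ℓ
  have cY := (hq u γ κ Kp h g).2.1
  obtain ⟨-, cJ, cA, -⟩ := tgc n C u h
  have hL : 0 < L := by linarith [r.L1]
  have hg : 0 ≤ gp u G y := by linarith [r.rm.1]
  have y0 : ray u (y, 0) = y := by simp [ray]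
  have a0 := (r.r0.2 0 (by rw [abs_zero]; linarith)).2.1
  have a1 := (r.r1.2 (gp u G y) (by rw [sub_self, abs_zero]; linarith)).2.1
  rw [y0] at a0
  have b0 := h.q0 y
  have b1 := h.q0 (ray u (y, gp u G y))
  have hI : ∀ t ∈ Icc (-(2 * L)) (gp u G y + 2 * L), |t| ≤ G + 65 * lg ε := fun t ht =>
    abs_le.2 ⟨by linarith [ht.1, r.lg, r.th.G2], by linarith [ht.2, r.lg, r.gG]⟩
  have cz : Continuous fun t : ℝ => ((y, t) : E n × ℝ) := by fun_prop
  have cr : Continuous fun t : ℝ => ray u (y, t) := by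
    show Continuous fun t : ℝ => y + t • nu u y
    fun_prop
  have cJ' := cJ.comp cz.continuousOn fun t ht => (r.ra.2 t (hI t ht)).1
  have cA' := cA.comp cz.continuousOn fun t ht => (r.ra.2 t (hI t ht)).1
  refine ⟨by unfold QQ; linarith, add_nonneg b0 b1, ?_, fun b => ⟨?_, ?_⟩⟩
  · simp only [dv, w0, w1, mul_assoc]
    exact int_w hL hg (((dvg_cont cY).comp cr).continuousOn.mul cJ')
  · simp only [iy, w0, w1, mul_assoc]
    exact int_w hL hg ((ContinuousOn.inner (𝕜 := ℝ) (cA'.clm_apply continuousOn_const)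
      (cY.continuous.comp cr).continuousOn).mul cJ')
  · simp only [iy, w0, w1, mul_assoc]
    refine (bd_w (c := 4 * (|K| * QQ u G y) * ‖b‖) hL fun t ht => ?_).trans_eq
      (by rw [abs_of_pos hL]; ring)
    have ht' : t ∈ Icc (-(2 * L)) (gp u G y + 2 * L) := by
      rcases ht with ht | ht <;> constructor <;> linarith [(abs_le.1 ht).1, (abs_le.1 ht).2]
    obtain ⟨-, -, j, a, -⟩ := r.ra.2 t (hI t ht')
    have kq : qq u (ray u (y, t)) ≤ |K| * QQ u G y := by
      have k := le_abs_self K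
      have k0 := abs_nonneg K
      unfold QQ
      rcases ht with ht | ht
      · nlinarith [(r.r0.2 t ht).2.2.1]
      · nlinarith [(r.r1.2 t ht).2.2.1]
    have nA : ‖Ai u (y, t) b‖ ≤ 2 * ‖b‖ := by
      have := norm_le_norm_add_norm_sub' (Ai u (y, t) b) b
      nlinarith [a b, r.η1, norm_nonneg b]
    have nJ : |JJ u (y, t)| ≤ 2 := by
      rw [abs_le] at j ⊢
      constructor <;> linarith [j.1, j.2, r.η1]
    rw [abs_mul]
    calc _ ≤ 2 * ‖b‖ * (|K| * QQ u G y) * 2 := by
          have := (h.q0 _).trans kq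
          gcongr
          refine (abs_real_inner_le_norm _ _).trans ?_
          gcongr
          exact (YY_le h g _).trans kq
      _ = _ := by ring

end Vale.Agent.P134E
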