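import Vale.Agent.P134E.Spec
import Vale.Agent.P134R.Tool

/-!
# P134E, row SBD: the gain controls the errors
-/

open MeasureTheory Metric Filter Topology Set
open scoped ContDiff RealInnerProductSpace
open Vale.Agent.P366.Stmt (E)

noncomputable section

namespace Vale.Agent.P134E

open Vale.Agent.P134B

variable {n : ℕ} {C : ℝ} {u : E n → ℝ}

namespace Sbd

theorem st_nn (x : ℝ) : 0 ≤ st x := Real.smoothTransition.nonneg x
theorem st_one {x : ℝ} (h : 1 ≤ x) : st x = 1 := Real.smoothTransition.one_of_one_le h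
theorem st_zero {x : ℝ} (h : x ≤ 0) : st x = 0 := Real.smoothTransition.zero_of_nonpos h
theorem st_cd {k : ℕ∞} : ContDiff ℝ k st := Real.smoothTransition.contDiff

theorem hs_nn (A : E n →L[ℝ] E n) : 0 ≤ hs A := Finset.sum_nonneg fun _ _ => sq_nonneg _

theorem gn_nn (h : Ok C u) (x : E n) : 0 ≤ gn u x :=
  mul_nonneg (sq_nonneg _) (add_nonneg
    (mul_nonneg (mul_nonneg (Real.sqrt_nonneg _) (h.tff_pos x).le) (h.q0 x)) (hs_nn _))

theorem gn_ct (h : Ok C u) : Continuous (gn u) := by
  have h1 := h.tcf.continuous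
  have h2 := (P134R.cd_q h).continuous
  have h3 := (P134R.cd_S h).continuous
  unfold gn PP hs
  fun_prop

theorem gy_nn (h : Ok C u) (e : E n → ℝ) (G : ℝ) (z : E n × ℝ) : 0 ≤ gy u e G z :=
  mul_nonneg (mul_nonneg (mul_nonneg (sq_nonneg _) (st_nn _)) (gn_nn h _))
    (mul_nonneg (norm_nonneg _) (abs_nonneg _))

/-- near a point of small phase the density of the gain controls `qq` -/
theorem gn_ge (h : Ok C u) {x x' : E n} (hx : |ps u x| ≤ 1) (hd : ‖x - x'‖ ≤ 1) :
    qq u x ≤ 2 * Real.exp (C + 9) * gn u x' := by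
  have hC := h.C1
  have s2 : √2 ≤ 3 / 2 := Real.sqrt_le_iff.2 ⟨by norm_num, by norm_num⟩
  have s0 : 0 < √2 := by positivity
  have p2 : |ps u x'| ≤ 2 := by
    have := h.tlip x' x
    linarith [abs_sub_abs_le_abs_sub (ps u x') (ps u x), abs_sub_comm (ps u x') (ps u x)]
  have f1 : Real.exp (-3) ≤ √2 * ff u x' := by
    have := h.flo x'
    rw [div_le_iff₀' s0] at this
    exact le_trans (Real.exp_le_exp.2 (by nlinarith [abs_nonneg (ps u x')])) this
  have f3 : Real.exp (-9) ≤ 2 * (ff u x' ^ 2 * (√2 * ff u x')) := by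
    calc Real.exp (-9) = Real.exp (-3) ^ 3 := by
          rw [← Real.exp_nat_mul]
          norm_num
      _ ≤ (√2 * ff u x') ^ 3 := by gcongr
      _ = √2 ^ 2 * (ff u x' ^ 2 * (√2 * ff u x')) := by ring
      _ = _ := by rw [Real.sq_sqrt (by norm_num)]
  have q1 : qq u x ≤ Real.exp C * qq u x' := (P134R.har_q h x' x).trans
    (mul_le_mul_of_nonneg_right (Real.exp_le_exp.2 (by nlinarith)) (h.q0 _))
  have g1 : ff u x' ^ 2 * (√2 * ff u x') * qq u x' ≤ gn u x' := by
    rw [gn, PP]
    nlinarith [mul_nonneg (sq_nonneg (ff u x')) (hs_nn (SS u x'))]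
  calc qq u x ≤ Real.exp (C + 9) * (Real.exp (-9) * qq u x') := by
        rw [← mul_assoc, ← Real.exp_add]
        simpa using q1
    _ ≤ Real.exp (C + 9) * (2 * (ff u x' ^ 2 * (√2 * ff u x')) * qq u x') := by
        gcongr
        exact h.q0 _
    _ ≤ _ := by nlinarith [Real.exp_pos (C + 9)]

end Sbd

open Sbd in
theorem sbd : rSBD := by
  intro tgc _ ⟨B, _, regw⟩ C
  refine ⟨8 * Real.exp (C + 9), by positivity, fun n K η L ℓ δ G u e y ok ry _ _ => ?_⟩
  obtain ⟨-, -, -, -, hc, h1, h2, -⟩ := regw n C K η L ℓ δ G u e y ok ry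
  obtain ⟨-, cJ, -, hy, -⟩ := tgc n C u ok
  have n1 := (hy y ry.r0.1).1
  set g := gp u G y with hg
  have hL := ry.L1
  have hl := ry.lg
  have gG := ry.gG
  have g8 := ry.rm.1
  have hU : ∀ t ∈ Icc (-(64 * lg (e y))) (g + 64 * lg (e y)), |t| ≤ G + 65 * lg (e y) :=
    fun t ht => abs_le.2 ⟨by linarith [ht.1], by linarith [ht.2]⟩
  have cl : Continuous fun t : ℝ => (y, t) := by fun_prop
  have hi : Integrable fun t => gy u e G (y, t) := by
    refine IntegrableOn.integrable_of_forall_notMem_eq_zero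
      (s := Icc (-(64 * lg (e y))) (g + 64 * lg (e y))) (ContinuousOn.integrableOn_Icc ?_) ?_
    · have c0 := (st_cd (k := 1)).continuous
      have c1 : Continuous fun t => aT u e G (y, t) := by
        simp only [aT]
        fun_prop
      have c2 : Continuous fun t => st (2 * sv u G (y, t)) := continuous_iff_continuousAt.2 fun t =>
        (hc (fun s => st (2 * s)) (st_cd.comp (contDiff_const.mul contDiff_id)) (fun s hs => by
          rw [st_one (by linarith), st_one (by norm_num)]) t).continuousAt.comp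
            (f := fun t : ℝ => (y, t)) cl.continuousAt
      have c3 : Continuous fun t => gn u (ray u (y, t)) := (gn_ct ok).comp (by
        simp only [ray]
        fun_prop)
      refine (((c1.continuousOn.mul fun t ht => ?_).pow 2).mul c2.continuousOn).mul c3.continuousOn
        |>.mul (cJ.comp cl.continuousOn fun t ht => (ry.ra.2 t (hU t ht)).1)
      exact ((h2 t ht).1.continuousAt.comp (f := fun t : ℝ => (y, t))
        cl.continuousAt).continuousWithinAt
    · intro t ht
      have : aT u e G (y, t) = 0 := by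
        rcases not_and_or.1 ht with h | h
        · rw [aT, st_zero (by linarith [not_le.1 h]), zero_mul]
        · rw [aT, st_zero (x := _ - _) (by linarith [not_le.1 h]), mul_zero]
      simp [gy, aa, this]
  have key : ∀ a ∈ Icc 0 g, |ps u (ray u (y, a))| ≤ 1 →
      qq u (ray u (y, a)) ≤ 4 * Real.exp (C + 9) * ∫ t, gy u e G (y, t) := fun a ha hp => by
    have h3 : ∀ t ∈ Icc a (a + 1),
        qq u (ray u (y, a)) ≤ 4 * Real.exp (C + 9) * gy u e G (y, t) := fun t ht => by
      obtain ⟨s1, w1⟩ := h1 t ⟨by linarith [ht.1, ha.1], by linarith [ht.2, ha.2]⟩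
      have a1 : aT u e G (y, t) = 1 := by
        rw [aT, st_one (by linarith [ht.1, ha.1]), st_one (by linarith [ht.2, ha.2]), one_mul]
      have j1 := (abs_le.1 (ry.ra.2 t (hU t ⟨by linarith [ht.1, ha.1],
        by linarith [ht.2, ha.2]⟩)).2.2.1).1
      have d1 : ‖ray u (y, a) - ray u (y, t)‖ ≤ 1 := by
        rw [ray, ray, add_sub_add_left_eq_sub, ← sub_smul, norm_smul, n1, mul_one]
        exact abs_le.2 ⟨by linarith [ht.2], by linarith [ht.1]⟩
      have g1 := gn_ge ok hp d1
      have g0 := mul_nonneg (Real.exp_pos (C + 9)).le (gn_nn ok (ray u (y, t)))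
      rw [gy, aa, a1, w1, st_one (by linarith)]
      nlinarith [ry.η1]
    calc qq u (ray u (y, a)) = ∫ _ in Icc a (a + 1), qq u (ray u (y, a)) := by simp
      _ ≤ ∫ t in Icc a (a + 1), 4 * Real.exp (C + 9) * gy u e G (y, t) :=
        setIntegral_mono_on (by simp) (hi.const_mul _).integrableOn measurableSet_Icc h3
      _ ≤ ∫ t, 4 * Real.exp (C + 9) * gy u e G (y, t) :=
        setIntegral_le_integral (hi.const_mul _) (ae_of_all _ fun t =>
          mul_nonneg (by positivity) (gy_nn ok e G _))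
      _ = _ := integral_const_mul _ _
  have k0 := key 0 ⟨le_rfl, by linarith⟩ (by simpa [ray] using ry.th.ps)
  have k1 := key g ⟨by linarith, le_rfl⟩ (by rw [ok.tps_zero.2 ry.r1.1]; simp)
  rw [show ray u (y, 0) = y by simp [ray]] at k0
  rw [QQ]
  linarith

end Vale.Agent.P134E
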