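import Vale.Agent.P134E.Defs
import Vale.Agent.P134T.Calc

/-!
# P134E: the zeros near a ray
-/

open MeasureTheory Metric Filter Topology Set
open scoped ContDiff RealInnerProductSpace
open Vale.Agent.P366.Stmt (E)
open Vale.Agent.P366W (Fr adj norm_gradient)

noncomputable section

namespace Vale.Agent.P134E

open Vale.Agent.P134B

namespace Slab

variable {n m : ℕ}

theorem ex_fr {e : E (m + 1)} (he : ‖e‖ = 1) : ∃ L : E m →ₗᵢ[ℝ] E (m + 1), Fr e L := by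
  have : Fact (Module.finrank ℝ (E (m + 1)) = m + 1) := ⟨by simp⟩
  have h0 : e ≠ 0 := by rintro rfl; simp at he
  let b := OrthonormalBasis.fromOrthogonalSpanSingleton (𝕜 := ℝ) m h0
  refine ⟨(ℝ ∙ e)ᗮ.subtypeₗᵢ.comp b.repr.symm.toLinearIsometry, he, fun y => ?_⟩
  exact Submodule.mem_orthogonal_singleton_iff_inner_right.1 (b.repr.symm y).2

theorem near {a b ν : E n} {η : ℝ} (h1 : ‖ν‖ = 1) (ha : ‖a - ν‖ ≤ η) (hη : η ≤ 1 / 2)
    (hb : ‖b‖ ≤ 1) (hb' : 1 - η ≤ ‖b‖ ^ 2) (H : ∀ τ, ⟪τ, a⟫ = 0 → |⟪τ, b⟫| ≤ η * ‖τ‖) :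
    ∃ s : ℝ, s * s = 1 ∧ ‖b - s • ν‖ ≤ 10 * η := by
  have η0 := (norm_nonneg _).trans ha
  have νν : ⟪ν, ν⟫ = 1 := by rw [real_inner_self_eq_norm_sq, h1]; norm_num
  set c := ⟪b, ν⟫ with hc
  set τ := b - c • ν with hτ
  have t1 : ⟪τ, ν⟫ = 0 := by rw [hτ, inner_sub_left, inner_smul_left, νν]; simp [hc]
  have t2 : ⟪τ, b⟫ = ‖τ‖ ^ 2 := by
    rw [← real_inner_self_eq_norm_sq]
    conv_rhs => rw [hτ, inner_sub_right, inner_smul_right, ← hτ, t1]
    simp
  have t3 : ‖τ‖ ^ 2 = ‖b‖ ^ 2 - c ^ 2 := by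
    rw [← t2, hτ, inner_sub_left, inner_smul_left, real_inner_self_eq_norm_sq, real_inner_comm]
    simp [hc, sq]
  have a1 : 1 / 2 ≤ ‖a‖ := by linarith [norm_sub_norm_le ν a, norm_sub_rev ν a]
  have t4 : |⟪τ, a⟫| ≤ η * ‖τ‖ := by
    rw [show ⟪τ, a⟫ = ⟪τ, a - ν⟫ by rw [inner_sub_right, t1, sub_zero], mul_comm]
    exact (abs_real_inner_le_norm _ _).trans (by gcongr)
  set k := ⟪τ, a⟫ / ‖a‖ ^ 2 with hk
  have k1 : k * ‖a‖ ^ 2 = ⟪τ, a⟫ := div_mul_cancel₀ _ (by positivity)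
  have t5 := H (τ - k • a) (by
    rw [inner_sub_left, inner_smul_left, real_inner_self_eq_norm_sq]; simp [k1])
  have t6 : ‖τ - k • a‖ ≤ ‖τ‖ := by
    refine abs_le_of_sq_le_sq' ?_ (norm_nonneg _) |>.2
    rw [norm_sub_sq_real, inner_smul_right, norm_smul, mul_pow, Real.norm_eq_abs, sq_abs, ← k1]
    nlinarith [mul_nonneg (sq_nonneg k) (sq_nonneg ‖a‖)]
  have k2 : |k| * ‖a‖ ≤ 2 * η * ‖τ‖ := by
    have : |k| * ‖a‖ * ‖a‖ ≤ η * ‖τ‖ := by
      rw [mul_assoc, ← sq, ← abs_of_nonneg (sq_nonneg ‖a‖), ← abs_mul, k1]; exact t4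
    nlinarith [mul_nonneg (abs_nonneg k) (norm_nonneg a)]
  have k3 : |k * ⟪a, b⟫| ≤ 2 * η * ‖τ‖ := by
    rw [abs_mul]
    refine le_trans ?_ k2
    gcongr
    exact (abs_real_inner_le_norm _ _).trans (by nlinarith)
  rw [inner_sub_left, inner_smul_left, t2] at t5
  simp only [conj_trivial] at t5
  have t7 : ‖τ‖ ≤ 3 * η := by
    by_contra hn
    have := mul_le_mul_of_nonneg_left t6 η0
    nlinarith [(abs_le.1 t5).2, (abs_le.1 k3).2, norm_nonneg τ]
  have c1 : |c| ≤ 1 := (abs_real_inner_le_norm _ _).trans (by rw [h1]; linarith)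
  have c2 : 1 - |c| ≤ 6 * η := by nlinarith [sq_abs c, abs_nonneg c, norm_nonneg τ]
  have fin : ∀ s : ℝ, |c - s| ≤ 6 * η → ‖b - s • ν‖ ≤ 10 * η := fun s hs => by
    rw [show b - s • ν = τ + (c - s) • ν by rw [hτ, sub_smul]; abel]
    refine (norm_add_le _ _).trans ?_
    rw [norm_smul, h1, Real.norm_eq_abs]
    linarith
  rcases abs_cases c with h | h
  · exact ⟨1, by norm_num, fin 1 (abs_le.2 ⟨by linarith, by linarith⟩)⟩
  · exact ⟨-1, by norm_num, fin (-1) (abs_le.2 ⟨by linarith, by linarith⟩)⟩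

end Slab

theorem slab : rSLAB := by
  intro _ greg foot gr gd par m C θ hθ
  by_cases hC : 1 ≤ C
  swap
  · exact ⟨1, one_pos, fun u ε G y z ok => absurd ok.C1 hC⟩
  obtain ⟨K, ε₁, e1, hF⟩ := foot (m + 1) C 1
  set η := min (θ / 40) (1 / 200) with hη
  have η0 : 0 < η := by positivity
  have η1 : η ≤ θ / 40 := min_le_left _ _
  have η2 : η ≤ 1 / 200 := min_le_right _ _
  obtain ⟨β₁, b1, hP⟩ := par m C η η0
  obtain ⟨ε₂, e2, hG⟩ := gr m C
  refine ⟨min (min (min ε₁ ε₂) (β₁ / 11)) (min (η / (5 * C)) (η / (2 * |K| + 2))), by positivity,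
    fun u ε G y z ok th hβ hz hzy => ?_⟩
  simp only [le_min_iff] at hβ
  obtain ⟨⟨⟨a1, a2⟩, a3⟩, a4, a5⟩ := hβ
  have ε0 := th.e0
  have G2 := th.G2
  have εG2 : 2 * ε ≤ G * ε := by gcongr
  have εG : ε ≤ G * ε := by linarith
  rw [le_div_iff₀ (by positivity)] at a4 a5
  have K0 := abs_nonneg K
  have a6 : G * ε ≤ η / 2 := by linarith [mul_nonneg K0 (ε0.le.trans εG)]
  have a7 : |K| * ε ≤ η / 2 - ε := by linarith [mul_le_mul_of_nonneg_left εG K0]
  have a8 : ε ^ 2 ≤ ε / 400 := by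
    linarith [mul_le_mul_of_nonneg_left (show ε ≤ 1 / 400 by linarith) ε0.le]
  have a9 : ‖z - y‖ * ε ≤ 10 * G * ε := by gcongr
  have gd' : ∀ w r, ‖w - y‖ * ε + r * ε ≤ 4 → Gd u ε w r := fun w r h x hx => th.gd x (by
    rw [mem_ball_iff_norm] at hx ⊢
    rw [lt_div_iff₀ ε0]
    linarith [mul_lt_mul_of_pos_right hx ε0,
      mul_le_mul_of_nonneg_right (norm_sub_le_norm_sub_add_norm_sub x w y) ε0.le])
  obtain ⟨z₀, z0, d0, p0⟩ := hF u ε y ok ε0 (by linarith) (gd' _ _ (by simp; linarith)) th.ps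
  have g0 : Gd u ε z₀ (2 / ε) := gd' _ _ (by
    rw [div_mul_cancel₀ _ ε0.ne']; linarith [mul_le_mul_of_nonneg_right d0 ε0.le])
  have q0 := ok.tzero_q (g0 z₀ (mem_ball_self (by positivity))) z0
  have p1 : ‖pp u y - pp u z₀‖ ≤ |K| * ε := p0.trans (by gcongr; exact le_abs_self K)
  have p2 : 1 - ‖pp u y‖ ≤ 2 * ε ^ 2 + |K| * ε := by
    linarith [ok.tpp_ge z₀, norm_sub_norm_le (pp u z₀) (pp u y), norm_sub_rev (pp u z₀) (pp u y)]
  have py : 0 < ‖pp u y‖ := by linarith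
  have n1 : ‖nu u y‖ = 1 := norm_smul_inv_norm (norm_pos_iff.1 py)
  have p3 : ‖pp u y - nu u y‖ = 1 - ‖pp u y‖ := by
    rw [show pp u y - nu u y = (‖pp u y‖ - 1) • nu u y by
      rw [sub_smul, nu, smul_smul, mul_inv_cancel₀ py.ne', one_smul, one_smul], norm_smul, n1,
      Real.norm_eq_abs, abs_of_nonpos (by linarith [ok.tpp_le y])]
    ring
  set r := ‖z - y‖ + 1 with hr
  have r0 : 0 < r := by positivity
  have rε : r * ε ≤ 11 * (G * ε) := by rw [hr]; linarith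
  have g1 : Gd u ε z (|0| + 3 * r + 3) := gd' _ _ (by rw [abs_zero]; linarith)
  have q1 : ∀ x ∈ ball z (|0| + 3 * r + 3), u x = 0 → qq u x ≤ 2 * ε ^ 2 := fun x hx h0 =>
    ok.tzero_q (g1 x hx) h0
  obtain ⟨s, ss, hs⟩ := Slab.near (a := pp u z₀) (b := pp u z) (η := η) n1 (by
    linarith [norm_sub_le_norm_sub_add_norm_sub (pp u z₀) (pp u y) (nu u y),
      norm_sub_rev (pp u z₀) (pp u y)]) (by linarith) (ok.tpp_le z) (by
    have := q1 z (mem_ball_self (by positivity)) hz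
    unfold qq at this
    linarith) fun τ hτ => hP u ε z₀ z τ ok ε0 (by linarith) g0 z0 hz (by
      rw [norm_sub_rev] at d0
      linarith [mul_le_mul_of_nonneg_right (norm_sub_le_norm_sub_add_norm_sub z y z₀) ε0.le,
        mul_le_mul_of_nonneg_right d0 ε0.le]) hτ
  have s1 : |s| = 1 := by
    rw [← sq_eq_sq₀ (abs_nonneg _) zero_le_one, sq_abs, sq, ss]; norm_num
  obtain ⟨L, fr⟩ := Slab.ex_fr (e := s • nu u y) (by rw [norm_smul, n1, Real.norm_eq_abs, s1]; simp)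
  have C0 : 0 ≤ C := by linarith
  have tb : 2 * (2 * C * ε) * r ≤ 10 * η := by linarith [mul_le_mul_of_nonneg_left rε C0]
  obtain ⟨h, h0, hg⟩ := hG u ε 0 r (10 * η) (2 * C * ε) z _ L ok fr ε0 (by linarith) r0
    (by positivity) g1 (fun x hx h0 => (ok.S0 x).trans (by
      have : √(qq u x) ≤ 2 * ε := Real.sqrt_le_iff.2 ⟨by positivity, by linarith [q1 x hx h0, sq_nonneg ε]⟩
      linarith [mul_le_mul_of_nonneg_left this C0])) (by simpa using hz) (by simpa using hs) (by linarith)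
  have hd := gd m C _ r u z _ L h ok hg (by linarith)
  have w1 : ‖adj L (y - z)‖ ≤ ‖z - y‖ := norm_sub_rev y z ▸ fr.norm_adj _
  have w2 : adj L (y - z) ∈ ball (0 : E m) r := mem_ball_zero_iff.2 (by linarith)
  have w0 : ‖adj L (y - z)‖ ≤ ‖Pj u y (z - y)‖ := by
    have e0 : Pj u y (z - y) = z - y - ⟪nu u y, z - y⟫ • nu u y := by simp [Pj]
    have e : adj L (y - z) = adj L (-Pj u y (z - y)) := by
      rw [show -Pj u y (z - y) = (y - z) + (⟪nu u y, z - y⟫ * s) • (s • nu u y) by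
        rw [smul_smul, mul_assoc, ss, mul_one, e0]; abel, map_add, map_smul, fr.adj_e, smul_zero,
        add_zero]
    rw [e, ← norm_neg (Pj u y (z - y))]
    exact fr.norm_adj _
  have w3 : |h (adj L (y - z))| ≤ θ * ‖Pj u y (z - y)‖ := by
    have := (convex_ball (0 : E m) r).norm_image_sub_le_of_norm_fderiv_le (𝕜 := ℝ) (C := θ)
      (fun x _ => hg.sm.differentiable (by simp) x)
      (fun x hx => norm_gradient h x ▸ (hd x hx).2.2.1.trans (by linarith)) (mem_ball_self r0) w2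
    rw [h0, sub_zero, sub_zero] at this
    exact this.trans (by gcongr)
  have w4 : ray u (y, ⟪z - y, nu u y⟫ + h (adj L (y - z)) * s) =
      pt z (s • nu u y) L (adj L (y - z)) (h (adj L (y - z))) := by
    have := fr.dec (y - z)
    rw [inner_smul_left, smul_smul, ← neg_sub z y, inner_neg_right, real_inner_comm, neg_sub] at this
    simp only [conj_trivial] at this
    rw [show s * -⟪z - y, nu u y⟫ * s = -⟪z - y, nu u y⟫ by linear_combination -⟪z - y, nu u y⟫ * ss,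
      ← eq_sub_iff_add_eq] at this
    rw [ray, pt, this, smul_smul, add_smul, neg_smul]
    abel
  have w5 : |h (adj L (y - z)) * s| ≤ θ * ‖Pj u y (z - y)‖ := by rwa [abs_mul, s1, mul_one]
  have w6 := hg.ze _ w2
  rw [← w4] at w6
  rcases lt_or_ge (⟪z - y, nu u y⟫ + h (adj L (y - z)) * s) 2 with k | k
  · left; linarith [(abs_le.1 w5).1]
  · right; linarith [(abs_le.1 w5).2, ((greg _ C G u ok G2).2 y).2.2.2.1 _ k w6.le]

end Vale.Agent.P134E
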