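import Vale.Agent.P134E.Spec
import Vale.Agent.P134T.Calc

/-!
# P134E, row STA: the tilt in the stress identity
-/

open MeasureTheory Metric Filter Topology Set
open scoped ContDiff RealInnerProductSpace
open Vale.Agent.P366.Stmt (E)

noncomputable section

namespace Vale.Agent.P134E

open Vale.Agent.P134B Vale.Agent.P134T

namespace Sta

variable {n : ℕ}

theorem bp_one {x : ℝ} (h : |x| ≤ 1) : bp x = 1 := by
  obtain ⟨a, b⟩ := abs_le.1 h
  rw [bp, st, st, Real.smoothTransition.one_of_one_le (by linarith),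
    Real.smoothTransition.one_of_one_le (by linarith), one_mul]

theorem bp_zero {x : ℝ} (h : 2 ≤ |x|) : bp x = 0 := by
  rcases le_abs.1 h with a | a
  · rw [bp, st, st, Real.smoothTransition.zero_of_nonpos (x := 2 - x) (by linarith), mul_zero]
  · rw [bp, st, Real.smoothTransition.zero_of_nonpos (by linarith), zero_mul]

/-- a window acts as an indicator function -/
theorem win {L c t : ℝ} (F : ℝ → ℝ) (hL : 0 < L) (hk : L ≤ |t - c| → |t - c| ≤ 2 * L → F t = 0) :
    bp ((t - c) / L) * F t = (Icc (c - L) (c + L)).indicator F t := by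
  have e : |(t - c) / L| = |t - c| / L := by rw [abs_div, abs_of_pos hL]
  by_cases h : t ∈ Icc (c - L) (c + L)
  · rw [indicator_of_mem h, bp_one, one_mul]
    rw [e, div_le_one hL, abs_le]
    exact ⟨by linarith [h.1], by linarith [h.2]⟩
  · rw [indicator_of_notMem h]
    have h1 : L ≤ |t - c| := by
      by_contra k
      obtain ⟨a, b⟩ := abs_lt.1 (not_le.1 k)
      exact h ⟨by linarith, by linarith⟩
    rcases le_total |t - c| (2 * L) with h2 | h2
    · rw [hk h1 h2, mul_zero]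
    · rw [bp_zero (by rwa [e, le_div_iff₀ hL]), zero_mul]

theorem kc {l ℓ : ℝ} {γ κ Kp : ℝ → ℝ} (g : Ga l ℓ γ κ Kp) {a b : ℝ} (hab : a ≤ b)
    (h : ∀ x ∈ Icc a b, ℓ ≤ |x|) : Kp b = Kp a :=
  constant_of_has_deriv_right_zero (fun x _ => (g.Kd x).continuousAt.continuousWithinAt)
    (fun x hx => by
      have := (g.Kd x).hasDerivWithinAt (s := Ici x)
      rwa [(g.κz x (h x (Ico_subset_Icc_self hx))).1, zero_mul] at this) b (right_mem_Icc.2 hab)

theorem alg {a a' w w' V : E n} {J η k : ℝ} (η0 : 0 < η) (η1 : η ≤ 1 / 1000) (hk : 0 ≤ k)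
    (h1 : ‖a' - a‖ ≤ η * ‖a‖) (hJ : |J - 1| ≤ η) (hw : ‖w - w'‖ ≤ k + η * ‖w'‖)
    (h2 : ‖w'‖ ≤ 2 * ‖V‖) (h3 : ‖w' - V‖ ≤ 3 * η * ‖V‖) :
    |⟪a', w⟫ * J - ⟪V, a⟫| ≤ (14 * η * ‖V‖ + 2 * k) * ‖a‖ := by
  have na := norm_nonneg a
  have nV := norm_nonneg V
  have e : ⟪a', w⟫ * J - ⟪V, a⟫ = ⟪(J - 1) • a' + (a' - a), w⟫ + ⟪w - V, a⟫ := by
    rw [inner_add_left, inner_sub_left, inner_sub_left, real_inner_smul_left, real_inner_comm a w]
    ring
  have ηa : η * ‖a‖ ≤ ‖a‖ := by nlinarith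
  have ηV : η * ‖V‖ ≤ ‖V‖ / 4 := by nlinarith
  have ηw : η * ‖w'‖ ≤ 2 * (η * ‖V‖) := by nlinarith
  have a1 : ‖a'‖ ≤ 2 * ‖a‖ := by linarith [norm_sub_norm_le a' a]
  have a2 : ‖(J - 1) • a' + (a' - a)‖ ≤ 3 * η * ‖a‖ := by
    refine (norm_add_le _ _).trans ?_
    rw [norm_smul, Real.norm_eq_abs]
    have := mul_le_mul hJ a1 (norm_nonneg _) η0.le
    linarith
  have w1 : ‖w‖ ≤ k + 3 * ‖V‖ := by linarith [norm_sub_norm_le w w']
  have w2 : ‖w - V‖ ≤ k + 5 * η * ‖V‖ := by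
    linarith [norm_sub_le_norm_sub_add_norm_sub w w' V]
  have b1 := (abs_real_inner_le_norm _ _).trans
    (mul_le_mul a2 w1 (norm_nonneg _) (by positivity))
  have b2 := (abs_real_inner_le_norm _ _).trans (mul_le_mul_of_nonneg_right w2 na)
  have b3 : η * (k * ‖a‖) ≤ 1 / 1000 * (k * ‖a‖) := mul_le_mul_of_nonneg_right η1 (by positivity)
  have b4 : 0 ≤ k * ‖a‖ := by positivity
  rw [e]
  refine (abs_add_le _ _).trans ?_
  linarith

theorem vv {w b V : E n} {s η : ℝ} (η1 : η ≤ 1 / 1000) (hs : s ≤ -(1 - η)) (hs' : -1 ≤ s)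
    (hb : ‖b‖ ≤ η * ‖w‖) (hV : V = -s⁻¹ • (w + b)) : ‖w‖ ≤ 2 * ‖V‖ ∧ ‖w - V‖ ≤ 3 * η * ‖V‖ := by
  have s0 : s ≠ 0 := by linarith [hs, η1] |> fun h : s < 0 => h.ne
  have η0 : 0 ≤ η := by linarith
  have nV := norm_nonneg V
  have nw := norm_nonneg w
  have e : w - V = (-s - 1) • V - b := by
    rw [hV, smul_smul, show (-s - 1) * -s⁻¹ = 1 + s⁻¹ by field_simp; ring]
    module
  have k : ‖w - V‖ ≤ η * ‖V‖ + η * ‖w‖ := by
    rw [e]
    refine (norm_sub_le _ _).trans (add_le_add ?_ hb)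
    rw [norm_smul, Real.norm_eq_abs]
    exact mul_le_mul_of_nonneg_right (abs_le.2 ⟨by linarith, by linarith⟩) nV
  have k1 : η * ‖V‖ ≤ 1 / 1000 * ‖V‖ := mul_le_mul_of_nonneg_right η1 nV
  have k2 : η * ‖w‖ ≤ 1 / 1000 * ‖w‖ := mul_le_mul_of_nonneg_right η1 nw
  have k3 : ‖w‖ ≤ 2 * ‖V‖ := by linarith [norm_sub_norm_le w V]
  exact ⟨k3, by linarith [mul_le_mul_of_nonneg_left k3 η0]⟩

/-- the integral over a window -/
theorem core {c L b M : ℝ} {h A : ℝ → ℝ} (hL : 0 < L) (ch : Continuous h) (h1 : ∀ t, |h t| ≤ 1)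
    (cA : ContinuousOn A (Icc (c - L) (c + L))) (hA : ∀ t ∈ Icc (c - L) (c + L), |A t - b| ≤ M) :
    Integrable ((Icc (c - L) (c + L)).indicator fun t => h t * A t) ∧
    |(∫ t, (Icc (c - L) (c + L)).indicator (fun t => h t * A t) t) -
      (∫ t in (c - L)..(c + L), h t) * b| ≤ 2 * L * M := by
  have le : c - L ≤ c + L := by linarith
  have c1 : ContinuousOn (fun t => h t * A t) (Icc (c - L) (c + L)) := ch.continuousOn.mul cA
  refine ⟨c1.integrableOn_Icc.integrable_indicator measurableSet_Icc, ?_⟩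
  rw [integral_indicator measurableSet_Icc, integral_Icc_eq_integral_Ioc,
    ← intervalIntegral.integral_of_le le, ← intervalIntegral.integral_mul_const,
    ← intervalIntegral.integral_sub (c1.intervalIntegrable_of_Icc le)
      ((ch.intervalIntegrable _ _).mul_const b)]
  rw [← Real.norm_eq_abs]
  refine (intervalIntegral.norm_integral_le_of_norm_le_const (C := M) fun t ht => ?_).trans_eq ?_
  · rw [uIoc_of_le le] at ht
    rw [Real.norm_eq_abs, ← mul_sub, abs_mul]
    have := mul_le_mul (h1 t) (hA t (Ioc_subset_Icc_self ht)) (abs_nonneg _) zero_le_one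
    rwa [one_mul] at this
  · rw [show c + L - (c - L) = 2 * L by ring, abs_of_pos (by linarith), mul_comm]

theorem pj_add (u : E n → ℝ) (y v : E n) : v = Pj u y v + ⟪nu u y, v⟫ • nu u y := by
  simp [Pj]

theorem f0_ps {C : ℝ} {u : E n → ℝ} (h : Ok C u) (x : E n) : f0 (ps u x) = ff u x := by
  rw [f0, ff, ← h.th]

theorem d_ps {C : ℝ} {u : E n → ℝ} (h : Ok C u) (y : E n) (t : ℝ) :
    HasDerivAt (fun t => ps u (ray u (y, t))) (sl u (y, t)) t := by
  have hl : HasDerivAt (fun t : ℝ => ray u (y, t)) (nu u y) t := by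
    simpa [ray] using ((hasDerivAt_id t).smul_const (nu u y)).const_add y
  have := ((h.smp.differentiable (by simp)) (ray u (y, t))).hasFDerivAt.comp_hasDerivAt t hl
  rwa [← Vale.Agent.P366W.inner_grad] at this

end Sta

open Sta in
/-- row STA -/
theorem sta : rSTA := by
  intro tgc n C K L ℓ
  refine ⟨4 * |L| * |K|, by positivity, fun η' hη' => ⟨η' / (28 * |L| + 1), by positivity, ?_⟩⟩
  intro η δ ε G l u y γ κ Kp hη ok R g
  refine ⟨Kp ℓ - Kp (-ℓ), g.Klo, g.Khi, fun a ha => ?_⟩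
  obtain ⟨-, cJ, cA, T1, T2, -⟩ := tgc n C u ok
  obtain ⟨n1, -, -, -, -, B0, -⟩ := T1 y R.r0.1
  obtain ⟨g8, -, m1, m2⟩ := R.rm
  have r1 := R.r1.2
  have r0 := R.r0.2
  have gG := R.gG
  have ra := R.ra.2
  have hL : 0 < L := by linarith [R.L1]
  have lg := R.lg
  rw [abs_of_pos hL] at hη ⊢
  rw [QQ]
  generalize hg : gp u G y = g₁ at *
  have cr : Continuous fun t : ℝ => ray u (y, t) :=
    continuous_const.add (continuous_id.smul (continuous_const (y := nu u y)))
  have cp : Continuous fun t : ℝ => pp u (ray u (y, t)) := ok.tcp.continuous.comp cr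
  set h : ℝ → ℝ := fun t => κ (ps u (ray u (y, t))) * ff u (ray u (y, t)) ^ 2 * sl u (y, t)
    with hh
  set A : ℝ → ℝ := fun t => ⟪Ai u (y, t) a, pp u (ray u (y, t))⟫ * JJ u (y, t) with hA
  have s1 : ∀ t, |sl u (y, t)| ≤ 1 := fun t => (abs_real_inner_le_norm _ _).trans (by
    rw [n1, mul_one]; exact ok.tpp_le _)
  have ch : Continuous h :=
    ((g.cκ.continuous.comp (ok.smp.continuous.comp cr)).mul
      ((ok.tcf.continuous.comp cr).pow 2)).mul (cp.inner (continuous_const (y := nu u y)))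
  have h1 : ∀ t, |h t| ≤ 1 := fun t => by
    have f1 := pow_le_one₀ (n := 2) (ok.tff_pos (ray u (y, t))).le (ff_le u _)
    obtain ⟨k0, k1, -⟩ := g.κ0 (ps u (ray u (y, t)))
    rw [hh, abs_mul, abs_of_nonneg (by positivity)]
    exact mul_le_one₀ (mul_le_one₀ k1 (sq_nonneg _) f1) (abs_nonneg _) (s1 t)
  have rg : ∀ t, -L ≤ t → t ≤ g₁ + L → |t| ≤ G + 65 * P134B.lg ε := fun t h1 h2 =>
    abs_le.2 ⟨by linarith, by linarith⟩
  have cA' : ContinuousOn A (Icc (-L) (g₁ + L)) := by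
    have m : MapsTo (fun t : ℝ => (y, t)) (Icc (-L) (g₁ + L)) (UU u) := fun t ht =>
      (ra t (rg t ht.1 ht.2)).1
    have c : ContinuousOn (fun t : ℝ => (y, t)) (Icc (-L) (g₁ + L)) := by fun_prop
    exact (((cA.comp c m).clm_apply continuousOn_const).inner cp.continuousOn).mul (cJ.comp c m)
  have eA : ∀ t, -L ≤ t → t ≤ g₁ + L →
      A t = ⟪Ai u (y, t) a, Pj u y (pp u (ray u (y, t)))⟫ * JJ u (y, t) := fun t h1 h2 => by
    have := ((T2 _ (ra t (rg t h1 h2)).1).1 a).2.2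
    rw [ha] at this
    rw [hA]
    simp only
    rw [pj_add u y (pp u _), inner_add_right, inner_smul_right, this, mul_zero, add_zero,
      ← pj_add]
  have q0 := ok.q0 y
  have q1 := ok.q0 (ray u (y, g₁))
  obtain ⟨i0, e0⟩ := core (c := 0) (b := 0) (M := 2 * (|K| * qq u y) * ‖a‖) hL ch h1
    (cA'.mono (Icc_subset_Icc (by linarith) (by linarith))) fun t ht => by
      have t1 : -L ≤ t := by linarith [ht.1]
      have t2 : t ≤ L := by linarith [ht.2]
      obtain ⟨-, -, hJ, hi, -⟩ := ra t (rg t t1 (by linarith))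
      have := alg (w := Pj u y (pp u (ray u (y, t)))) (w' := 0) (V := 0) (k := |K| * qq u y)
        R.η0 R.η1 (by positivity) (hi a) hJ (by
          rw [sub_zero, norm_zero, mul_zero, add_zero]
          exact (r0 t (abs_le.2 ⟨by linarith, by linarith⟩)).2.2.2.trans
            (mul_le_mul_of_nonneg_right (le_abs_self K) q0)) (by simp) (by simp)
      rw [eA t t1 (by linarith)]
      simpa using this
  obtain ⟨v1, v2⟩ := vv (w := Pj u y (pp u (ray u (y, g₁)))) (V := Vg u y g₁)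
    (b := g₁ • BB u y (pp u (ray u (y, g₁)))) R.η1 (r1 g₁ (by rw [sub_self, abs_zero]; linarith)).1
    (abs_le.1 (s1 g₁)).1 (by
      rw [pj_add u y (pp u _), map_add, map_smul, B0, smul_zero, add_zero, ← pj_add]
      exact ((g₁ • BB u y).le_opNorm _).trans (mul_le_mul_of_nonneg_right
        (ra g₁ (rg g₁ (by linarith) (by linarith))).2.1 (norm_nonneg _))) rfl
  obtain ⟨i1, e1⟩ := core (c := g₁) (b := ⟪Vg u y g₁, a⟫)
    (M := (14 * η * ‖Vg u y g₁‖ + 2 * (|K| * qq u (ray u (y, g₁)))) * ‖a‖) hL ch h1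
    (cA'.mono (Icc_subset_Icc (by linarith) le_rfl)) fun t ht => by
      have t1 : g₁ - L ≤ t := ht.1
      have t2 : t ≤ g₁ + L := ht.2
      obtain ⟨-, -, hJ, hi, -⟩ := ra t (rg t (by linarith) t2)
      rw [eA t (by linarith) t2]
      exact alg R.η0 R.η1 (by positivity) (hi a) hJ
        ((r1 t (abs_le.2 ⟨by linarith, by linarith⟩)).2.2.2.2.trans
          (add_le_add (mul_le_mul_of_nonneg_right (le_abs_self K) q1) le_rfl)) v1 v2
  have ℓ0 : 0 < ℓ := by linarith [g.ℓ1]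
  have ft : ∫ t in (g₁ - L)..(g₁ + L), h t = -(Kp ℓ - Kp (-ℓ)) := by
    have p1 := m1 (g₁ - L) ⟨by linarith, le_rfl⟩
    have p2 := (m2 L ⟨le_rfl, by linarith⟩).2
    rw [intervalIntegral.integral_eq_sub_of_hasDerivAt (f := fun t => Kp (ps u (ray u (y, t))))
      (fun t _ => by
        have := (g.Kd _).comp t (d_ps ok y t)
        rwa [f0_ps ok] at this) (ch.intervalIntegrable _ _),
      kc g p1.le fun x hx => hx.1.trans (le_abs_self x),
      ← kc g p2.le fun x hx => (le_neg.1 hx.2).trans (neg_le_abs x), neg_sub]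
  have z : ∀ t, ℓ ≤ |ps u (ray u (y, t))| → h t * A t = 0 := fun t ht => by
    rw [hh]
    simp only
    rw [(g.κz _ ht).1, zero_mul, zero_mul, zero_mul]
  have eq : (fun t => ia u G L κ a (y, t)) = fun t =>
      (Icc (g₁ - L) (g₁ + L)).indicator (fun t => h t * A t) t -
      (Icc (0 - L) (0 + L)).indicator (fun t => h t * A t) t := by
    funext t
    rw [← win _ hL, ← win _ hL]
    · simp only [ia, w0, w1, hg, hh, hA, sub_zero]
      ring
    · rw [sub_zero]
      intro h1 h2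
      rcases le_abs.1 h1 with k | k
      · exact z t ((m1 t ⟨k, by linarith [(abs_le.1 h2).2]⟩).le.trans (le_abs_self _))
      · have := (m2 (-t) ⟨k, by linarith [(abs_le.1 h2).1]⟩).1
        rw [neg_neg] at this
        exact z t ((le_neg.1 this.le).trans (neg_le_abs _))
    · intro h1 h2
      rcases le_abs.1 h1 with k | k
      · have := (m2 (t - g₁) ⟨k, (abs_le.1 h2).2⟩).2
        rw [add_sub_cancel] at this
        exact z t ((le_neg.1 this.le).trans (neg_le_abs _))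
      · exact z t ((m1 t ⟨by linarith [(abs_le.1 h2).1], by linarith⟩).le.trans (le_abs_self _))
  rw [eq]
  refine ⟨i1.sub i0, ?_⟩
  rw [integral_sub i1 i0]
  rw [ft] at e1
  rw [mul_zero, sub_zero] at e0
  have b : 28 * L * η ≤ η' := by
    rw [le_div_iff₀ (by positivity)] at hη
    linarith [R.η0]
  have b' := mul_le_mul_of_nonneg_right b
    (mul_nonneg (norm_nonneg (Vg u y g₁)) (norm_nonneg a))
  obtain ⟨x0, x1⟩ := abs_le.1 e0
  obtain ⟨x2, x3⟩ := abs_le.1 e1
  exact abs_le.2 ⟨by linarith only [x1, x2, b'], by linarith only [x0, x3, b']⟩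

end Vale.Agent.P134E
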