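import Vale.Agent.P134E.Lib

/-!
# P134E: the flux and the curvature in the stress identity
-/

set_option linter.unusedVariables false

open MeasureTheory Metric Filter Topology Set
open scoped ContDiff RealInnerProductSpace
open Vale.Agent.P366.Stmt (E)
open Vale.Agent.P366W (dvg trc)

noncomputable section

namespace Vale.Agent.P134E

open Vale.Agent.P134B

namespace Stb

theorem mul_lo {w d T : ℝ} (w0 : 0 ≤ w) (w1 : w ≤ 1) (h : |d| ≤ T) : -T ≤ w * d := by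
  have := abs_le.1 h
  nlinarith [abs_nonneg d]

theorem abs_mul_le {a b A B : ℝ} (ha : |a| ≤ A) (hb : |b| ≤ B) : |a * b| ≤ A * B := by
  rw [abs_mul]
  exact mul_le_mul ha hb (abs_nonneg _) ((abs_nonneg _).trans ha)

theorem core0 {w k f κ' γ' e s J a q τ t b H L η T A : ℝ} (w0 : 0 ≤ w) (w1 : w ≤ 1)
    (h0 : 0 ≤ k * f) (h1 : k * f ≤ 1) (hκ : γ' ≤ κ') (hγ : γ' ≤ 0) (e0 : 0 ≤ e)
    (s0 : 1 - η ≤ s) (s1 : s ≤ 1) (hJ : |J - 1| ≤ η) (q0 : 0 ≤ q) (q1 : q ≤ η) (hτ : |τ| ≤ T)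
    (ht : |t| ≤ 2 * L) (H0 : 0 ≤ H) (b0 : (1 - η) * H ≤ b) (b1 : b ≤ (1 + η) * H)
    (ha : |a| ≤ A) (η1 : η ≤ 1 / 1000) :
    -((w + 0) * (e * -γ') * J / 2) + (τ - 4 * L * H) * ((w + 0) * (k * f * s)) -
      (3 * η * T + 2 * A) ≤
      (0 - w) * (-(κ' * e * s / 2) + k * (f * (a - (1 - q / 2) * (τ - t * b)))) * J := by
  obtain ⟨J0, J1⟩ := abs_le.1 hJ
  have η0 : 0 ≤ η := q0.trans q1
  have L0 : 0 ≤ L := by linarith [abs_nonneg t]
  have v0 : 0 ≤ w * (k * f) := mul_nonneg w0 h0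
  have v1 : w * (k * f) ≤ 1 := mul_le_one₀ w1 h0 h1
  have P0 : 1 - 2 * η ≤ J * (1 - q / 2) := by nlinarith
  have P1 : J * (1 - q / 2) ≤ 1 + η := by nlinarith
  have i1 : 0 ≤ w * e * J * (κ' * s - γ') :=
    mul_nonneg (mul_nonneg (mul_nonneg w0 e0) (by linarith)) (by nlinarith)
  have i2 := mul_lo v0 v1 (abs_mul_le (a := -J) (A := 2) (abs_le.2 ⟨by linarith, by linarith⟩) ha)
  have i3 := mul_lo v0 v1 (abs_mul_le (a := J * (1 - q / 2) - s) (A := 3 * η)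
    (abs_le.2 ⟨by linarith, by linarith⟩) hτ)
  have bn : 0 ≤ b := le_trans (mul_nonneg (by linarith) H0) b0
  have LH : 0 ≤ L * H := mul_nonneg L0 H0
  have tb : |t * b| ≤ 2 * L * ((1 + η) * H) := abs_mul_le ht (by rwa [abs_of_nonneg bn])
  have ptb := (abs_le.1 (abs_mul_le (a := J * (1 - q / 2)) (A := 1 + η)
    (abs_le.2 ⟨by linarith, P1⟩) tb)).2
  have i4 : 0 ≤ w * (k * f) * (4 * L * H * s - J * (1 - q / 2) * (t * b)) := by
    refine mul_nonneg v0 ?_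
    have : 0 ≤ L * H * (4 * s - 2 * (1 + η) * (1 + η)) := mul_nonneg LH (by nlinarith)
    linarith
  linarith

theorem core1 {w k f κ' γ' e s J a q τ t b H L η T A : ℝ} (w0 : 0 ≤ w) (w1 : w ≤ 1)
    (h0 : 0 ≤ k * f) (h1 : k * f ≤ 1) (hκ : γ' ≤ κ') (hγ : γ' ≤ 0) (e0 : 0 ≤ e)
    (s0 : s ≤ -(1 - η)) (s1 : -1 ≤ s) (hJ : |J - 1| ≤ η) (q0 : 0 ≤ q) (q1 : q ≤ η) (hτ : |τ| ≤ T)
    (L0 : 0 ≤ L) (ht : 6 * L ≤ t) (H0 : 0 ≤ H) (b0 : (1 - η) * H ≤ b)
    (ha : |a| ≤ A) (η1 : η ≤ 1 / 1000) :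
    -((0 + w) * (e * -γ') * J / 2) + (τ - 4 * L * H) * ((0 + w) * (k * f * s)) -
      (3 * η * T + 2 * A) ≤
      (w - 0) * (-(κ' * e * s / 2) + k * (f * (a - (1 - q / 2) * (τ - t * b)))) * J := by
  obtain ⟨J0, J1⟩ := abs_le.1 hJ
  have η0 : 0 ≤ η := q0.trans q1
  have v0 : 0 ≤ w * (k * f) := mul_nonneg w0 h0
  have v1 : w * (k * f) ≤ 1 := mul_le_one₀ w1 h0 h1
  have P0 : 1 - 2 * η ≤ J * (1 - q / 2) := by nlinarith
  have P1 : J * (1 - q / 2) ≤ 1 + η := by nlinarith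
  have i1 : 0 ≤ w * e * J * (κ' * -s - γ') :=
    mul_nonneg (mul_nonneg (mul_nonneg w0 e0) (by linarith)) (by nlinarith)
  have i2 := mul_lo v0 v1 (abs_mul_le (a := J) (A := 2) (abs_le.2 ⟨by linarith, by linarith⟩) ha)
  have i3 := mul_lo v0 v1 (abs_mul_le (a := -(J * (1 - q / 2)) - s) (A := 3 * η)
    (abs_le.2 ⟨by linarith, by linarith⟩) hτ)
  have LH : 0 ≤ L * H := mul_nonneg L0 H0
  have bn : 0 ≤ (1 - η) * H := mul_nonneg (by linarith) H0
  have tb : 6 * L * ((1 - η) * H) ≤ t * b := mul_le_mul ht b0 bn (by linarith)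
  have ptb : (1 - 2 * η) * (6 * L * ((1 - η) * H)) ≤ J * (1 - q / 2) * (t * b) :=
    mul_le_mul P0 tb (by positivity) (by linarith)
  have i4 : 0 ≤ w * (k * f) * (4 * L * H * s + J * (1 - q / 2) * (t * b)) := by
    refine mul_nonneg v0 ?_
    have : 0 ≤ L * H * (4 * s + 6 * (1 - 2 * η) * (1 - η)) := mul_nonneg LH (by nlinarith)
    linarith
  linarith

theorem integ {F : ℝ → ℝ} {a b : ℝ} (hc : ∀ t ∈ Icc a b, ContinuousAt F t)
    (hz : ∀ t, t ∉ Icc a b → F t = 0) : Integrable F :=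
  (integrableOn_iff_integrable_of_support_subset
    (fun t ht => by_contra fun h => ht (hz t h))).1
    (ContinuousOn.integrableOn_Icc fun t ht => (hc t ht).continuousWithinAt)

theorem kp_const {l ℓ : ℝ} {γ κ Kp : ℝ → ℝ} (ga : Ga l ℓ γ κ Kp) {a b : ℝ} (ha : a < -ℓ)
    (hb : b < -ℓ) : Kp b - Kp a = 0 := by
  have z : ∀ s ∈ uIcc a b, κ s * f0 s ^ 2 = 0 := fun s hs => by
    have : s ≤ max a b := hs.2
    have : s ≤ -ℓ := this.trans (max_le ha.le hb.le)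
    rw [(ga.κz s (by linarith [neg_le_abs s])).1, zero_mul]
  have := intervalIntegral.integral_eq_sub_of_hasDerivAt (f := Kp) (f' := fun _ => (0 : ℝ))
    (a := a) (b := b) (fun s hs => z s hs ▸ ga.Kd s) (by simp)
  simpa using this.symm

theorem ind_int (a L c : ℝ) (L0 : 0 ≤ L) :
    Integrable ((Icc (a - 2 * L) (a + 2 * L)).indicator fun _ : ℝ => c) ∧
      ∫ t, (Icc (a - 2 * L) (a + 2 * L)).indicator (fun _ : ℝ => c) t = 4 * L * c := by
  refine ⟨(integrable_indicator_iff measurableSet_Icc).2 continuous_const.integrableOn_Icc, ?_⟩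
  rw [integral_indicator measurableSet_Icc, setIntegral_const, Real.volume_real_Icc_of_le
    (by linarith), smul_eq_mul]
  ring

theorem fin {η η' L K g q0 q1 V : ℝ} (η0 : 0 < η)
    (hη : η ≤ η' / ((8 * |L| + 1) * (3 * |K| + 8 * K ^ 2 + 128))) (L0 : 0 ≤ L) (g1 : 1 ≤ g)
    (a0 : 0 ≤ q0) (a1 : q0 ≤ 1) (b0 : 0 ≤ q1) (b1 : q1 ≤ 1) :
    8 * L * (3 * η * (K * q0) + 2 * (2 * (η / g) * ((K * q0) ^ 2 + 32 * V ^ 2 + 2 * (K * q1) ^ 2)))
      ≤ η' * (q0 + q1) + η' / g * V ^ 2 := by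
  rw [le_div_iff₀ (by positivity), abs_of_nonneg L0] at hη
  have K0 := abs_nonneg K
  have K2 := sq_nonneg K
  have i0 : 0 ≤ g⁻¹ := by positivity
  have i1 : g⁻¹ ≤ 1 := inv_le_one_of_one_le₀ g1
  have m0 : K * q0 ≤ |K| * q0 := mul_le_mul_of_nonneg_right (le_abs_self K) a0
  have m1 : g⁻¹ * (K * q0) ^ 2 ≤ K ^ 2 * q0 := by
    have : g⁻¹ * q0 ≤ 1 := mul_le_one₀ i1 a0 a1
    nlinarith [mul_nonneg K2 a0]
  have m2 : g⁻¹ * (K * q1) ^ 2 ≤ K ^ 2 * q1 := by
    have : g⁻¹ * q1 ≤ 1 := mul_le_one₀ i1 b0 b1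
    nlinarith [mul_nonneg K2 b0]
  have v0 : 0 ≤ g⁻¹ * V ^ 2 := by positivity
  have m3 : 3 * (K * q0) + 4 * (g⁻¹ * (K * q0) ^ 2) + 128 * (g⁻¹ * V ^ 2) +
      8 * (g⁻¹ * (K * q1) ^ 2) ≤ (3 * |K| + 8 * K ^ 2 + 128) * (q0 + q1 + g⁻¹ * V ^ 2) := by
    nlinarith [mul_nonneg K2 a0, mul_nonneg K0 b0, mul_nonneg K0 v0, mul_nonneg K2 v0]
  have m4 := mul_le_mul_of_nonneg_left m3 (by positivity : 0 ≤ 8 * L * η)
  have m5 : 8 * L * η * (3 * |K| + 8 * K ^ 2 + 128) ≤ η' := by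
    nlinarith [mul_nonneg η0.le (by positivity : 0 ≤ 3 * |K| + 8 * K ^ 2 + 128)]
  have m6 := mul_le_mul_of_nonneg_right m5 (by positivity : 0 ≤ q0 + q1 + g⁻¹ * V ^ 2)
  simp only [div_eq_mul_inv]
  linarith

variable {n : ℕ} {C K η L ℓ δ ε G l : ℝ} {u : E n → ℝ} {y : E n} {γ κ Kp : ℝ → ℝ}

/-- the term with mean zero -/
def ZZ (u : E n → ℝ) (G L : ℝ) (κ : ℝ → ℝ) (y : E n) (t : ℝ) : ℝ :=
  (w0 L ((y, t) : E n × ℝ) + w1 u G L (y, t)) *
    (κ (ps u (ray u (y, t))) * ff u (ray u (y, t)) ^ 2 * sl u (y, t))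

theorem win (u : E n → ℝ) (G : ℝ) (y : E n) (L0 : 0 < L) :
    (∀ t, 2 * L ≤ |t| → w0 L ((y, t) : E n × ℝ) = 0) ∧
    (∀ t, 2 * L ≤ |t - gp u G y| → w1 u G L (y, t) = 0) ∧
    (∀ t, |t| ≤ L → w0 L ((y, t) : E n × ℝ) = 1) ∧
    ∀ t, |t - gp u G y| ≤ L → w1 u G L (y, t) = 1 :=
  ⟨fun t ht => bp_zero (by rw [abs_div, abs_of_pos L0, le_div_iff₀ L0]; exact ht),
    fun t ht => bp_zero (by rw [abs_div, abs_of_pos L0, le_div_iff₀ L0]; exact ht),
    fun t ht => bp_one (by rw [abs_div, abs_of_pos L0, div_le_one L0]; exact ht),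
    fun t ht => bp_one (by rw [abs_div, abs_of_pos L0, div_le_one L0]; exact ht)⟩

theorem ints (tgc : TGC) (ok : Ok C u) (ry : Ry C K η L ℓ δ u ε G y) (ga : Ga l ℓ γ κ Kp) :
    Integrable (fun t => ib u G L κ (y, t)) ∧ Integrable (fun t => af u G L γ (y, t)) ∧
      Integrable (ZZ u G L κ y) ∧ ∫ t, ZZ u G L κ y t = 0 := by
  obtain ⟨oU, cJ, cA, T1, T2, -⟩ := tgc n C u ok
  obtain ⟨η0, η1, L1, hlg, th, gG, ⟨hτ, ra⟩, ⟨hp, r0⟩, ⟨-, r1⟩, ⟨g8, -, m1, m2⟩, -⟩ := ry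
  obtain ⟨n1, -, -, -, -, -, -, P1, P2, -, -⟩ := T1 y hp
  set g := gp u G y with hg
  have L0 : 0 < L := by linarith
  have g0 : 0 < g := by linarith
  have rg : ∀ t ∈ Icc (-(2 * L)) (g + 2 * L), |t| ≤ G + 65 * lg ε := fun t ht =>
    abs_le.2 ⟨by linarith [ht.1], by linarith [ht.2]⟩
  obtain ⟨W0, W1, W0', W1'⟩ := win u G y L0
  rw [← hg] at W1 W1'
  have Wz : ∀ t, t ≤ -(2 * L) ∨ g + 2 * L ≤ t →
      w0 L ((y, t) : E n × ℝ) = 0 ∧ w1 u G L (y, t) = 0 := fun t ht => by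
    rcases ht with ht | ht
    · exact ⟨W0 t (by linarith [neg_le_abs t]), W1 t (by linarith [neg_le_abs (t - g)])⟩
    · exact ⟨W0 t (by linarith [le_abs_self t]), W1 t (by linarith [le_abs_self (t - g)])⟩
  have Wo : ∀ t, t ∉ Icc (-(2 * L)) (g + 2 * L) →
      w0 L ((y, t) : E n × ℝ) = 0 ∧ w1 u G L (y, t) = 0 := fun t ht => Wz t (by
    by_contra h
    push Not at h
    exact ht ⟨h.1.le, h.2.le⟩)
  have cr : Continuous fun t : ℝ => ray u (y, t) :=
    (by fun_prop : Continuous fun t : ℝ => y + t • nu u y)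
  have cy : Continuous fun t : ℝ => ((y, t) : E n × ℝ) := by fun_prop
  have cu : Continuous fun t : ℝ => u (ray u (y, t)) := ok.sm.continuous.comp cr
  have cψ : Continuous fun t : ℝ => ps u (ray u (y, t)) := ok.smp.continuous.comp cr
  have cp : Continuous fun t : ℝ => pp u (ray u (y, t)) :=
    (P366W.smooth_gradient ok.smp).continuous.comp cr
  have cf : Continuous fun t : ℝ => ff u (ray u (y, t)) :=
    (continuous_const.sub (cu.pow 2)).div_const _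
  have cq : Continuous fun t : ℝ => qq u (ray u (y, t)) := by unfold qq; fun_prop
  have cE : Continuous fun t : ℝ => EE u (ray u (y, t)) := by unfold EE; fun_prop
  have cs : Continuous fun t : ℝ => sl u (y, t) := cp.inner (continuous_const (y := nu u y))
  have c0 : Continuous fun t : ℝ => w0 L ((y, t) : E n × ℝ) :=
    bp_cont.comp (continuous_id.div_const L)
  have c1 : Continuous fun t : ℝ => w1 u G L (y, t) :=
    bp_cont.comp ((continuous_id.sub (continuous_const (y := g))).div_const L)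
  have cκ : Continuous fun t : ℝ => κ (ps u (ray u (y, t))) := ga.cκ.continuous.comp cψ
  have cκ' : Continuous fun t : ℝ => deriv κ (ps u (ray u (y, t))) :=
    (ga.cκ.continuous_deriv le_rfl).comp cψ
  have cγ' : Continuous fun t : ℝ => deriv γ (ps u (ray u (y, t))) :=
    (ga.cγ.continuous_deriv (by norm_num)).comp cψ
  have cJ' : ∀ t ∈ Icc (-(2 * L)) (g + 2 * L), ContinuousAt (fun t => JJ u (y, t)) t := fun t ht =>
    (cJ.continuousAt (oU.mem_nhds (ra t (rg t ht)).1)).comp (f := fun t : ℝ => ((y, t) : E n × ℝ))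
      cy.continuousAt
  have cA' : ∀ t ∈ Icc (-(2 * L)) (g + 2 * L), ContinuousAt (fun t => Ai u (y, t)) t := fun t ht =>
    (cA.continuousAt (oU.mem_nhds (ra t (rg t ht)).1)).comp (f := fun t : ℝ => ((y, t) : E n × ℝ))
      cy.continuousAt
  have cC : ∀ t ∈ Icc (-(2 * L)) (g + 2 * L), ContinuousAt (fun t => Cu u (y, t)) t := fun t ht =>
    (cf.continuousAt.pow 2).mul ((((cA' t ht).clm_apply
      ((BB u y).continuous.comp cp).continuousAt).inner cp.continuousAt).sub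
      ((continuousAt_const.sub (cq.continuousAt.div_const 2)).mul
        (P366W.continuous_trc.continuousAt.comp ((cA' t ht).clm_comp continuousAt_const))))
  have Ib : Integrable fun t => ib u G L κ (y, t) := integ (fun t ht =>
    (((c1.sub c0).continuousAt).mul ((((cκ'.mul cE).mul cs).div_const 2).neg.continuousAt.add
      (cκ.continuousAt.mul (cC t ht)))).mul (cJ' t ht))
    fun t ht => by simp only [ib, (Wo t ht).1, (Wo t ht).2, sub_self, zero_mul]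
  have Ia : Integrable fun t => af u G L γ (y, t) := integ (fun t ht =>
    (((c0.add c1).mul (cE.mul cγ'.neg)).continuousAt).mul (cJ' t ht))
    fun t ht => by simp only [af, (Wo t ht).1, (Wo t ht).2, add_zero, zero_mul]
  set D : ℝ → ℝ := fun t => κ (ps u (ray u (y, t))) * ff u (ray u (y, t)) ^ 2 * sl u (y, t) with hD
  set Z : ℝ → ℝ := fun t => (w0 L ((y, t) : E n × ℝ) + w1 u G L (y, t)) * D t with hZ
  have cD : Continuous D := (cκ.mul (cf.pow 2)).mul cs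
  have IZ : Integrable Z := integ (a := -(2 * L)) (b := g + 2 * L)
    (fun t _ => ((c0.add c1).mul cD).continuousAt)
    fun t ht => by simp only [hZ, (Wo t ht).1, (Wo t ht).2, add_zero, zero_mul]
  have dD : ∀ t, HasDerivAt (fun t => Kp (ps u (ray u (y, t)))) (D t) t := fun t => by
    have h1 : HasDerivAt (fun t : ℝ => ray u (y, t)) (nu u y) t := by
      simpa [ray] using ((hasDerivAt_id t).smul_const (nu u y)).const_add y
    have h2 := (ok.smp.differentiable (by simp) (ray u (y, t))).hasFDerivAt.comp_hasDerivAt t h1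
    rw [← P366W.inner_grad] at h2
    have h3 := (ga.Kd (ps u (ray u (y, t)))).comp t h2
    have h4 : f0 (ps u (ray u (y, t))) = ff u (ray u (y, t)) := by rw [f0, ← ok.th, ff]
    rw [h4] at h3
    exact h3
  have Z0 : ∫ t, Z t = 0 := by
    have e : Z = (Ioc (-(2 * L)) (g + 2 * L)).indicator D := by
      ext t
      by_cases ht : t ∈ Ioc (-(2 * L)) (g + 2 * L)
      · rw [indicator_of_mem ht]
        by_cases h0 : |t| ≤ L
        · simp only [hZ, W0' t h0, W1 t (by linarith [neg_le_abs (t - g), le_abs_self t]),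
            add_zero, one_mul]
        by_cases h1 : |t - g| ≤ L
        · simp only [hZ, W1' t h1, W0 t (by linarith [neg_le_abs (t - g), le_abs_self t]),
            zero_add, one_mul]
        have hk : ℓ ≤ |ps u (ray u (y, t))| := by
          rcases lt_abs.1 (not_le.1 h0) with h0 | h0
          · rcases lt_abs.1 (not_le.1 h1) with h1 | h1
            · have := (m2 (t - g) ⟨h1.le, by linarith [ht.2]⟩).2
              rw [add_sub_cancel] at this
              linarith [neg_le_abs (ps u (ray u (y, t)))]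
            · exact (m1 t ⟨h0.le, by linarith⟩).le.trans (le_abs_self _)
          · have := (m2 (-t) ⟨h0.le, by linarith [ht.1]⟩).1
            rw [neg_neg] at this
            linarith [neg_le_abs (ps u (ray u (y, t)))]
        simp only [hZ, hD, (ga.κz _ hk).1, zero_mul, mul_zero]
      · rw [indicator_of_notMem ht]
        have := Wz t (by
          by_contra h
          push Not at h
          exact ht ⟨h.1, h.2.le⟩)
        simp only [hZ, this.1, this.2, add_zero, zero_mul]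
    rw [e, integral_indicator measurableSet_Ioc,
      ← intervalIntegral.integral_of_le (by linarith),
      intervalIntegral.integral_eq_sub_of_hasDerivAt (fun t _ => dD t) (cD.intervalIntegrable _ _)]
    exact kp_const ga (m2 (2 * L) ⟨by linarith, le_rfl⟩).1 (m2 (2 * L) ⟨by linarith, le_rfl⟩).2
  exact ⟨Ib, Ia, IZ, Z0⟩

theorem sl_le (ok : Ok C u) (n1 : ‖nu u y‖ = 1) (t : ℝ) : |sl u (y, t)| ≤ 1 := by
  refine (abs_real_inner_le_norm _ _).trans ?_
  have := ok.q0 (ray u (y, t))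
  unfold qq at this
  rw [n1, mul_one]
  nlinarith [norm_nonneg (pp u (ray u (y, t)))]

theorem lin (tgc : TGC) (ok : Ok C u) (ry : Ry C K η L ℓ δ u ε G y) :
    (∀ t ∈ Icc (-(2 * L)) (gp u G y + 2 * L), ∀ v N, ‖Pj u y v‖ ^ 2 ≤ N →
      |⟪Ai u (y, t) (BB u y v), v⟫| ≤ 2 * (η / gp u G y) * N) ∧
    ‖Pj u y (pp u (ray u (y, gp u G y)))‖ ≤ 2 * ‖Vg u y (gp u G y)‖ := by
  obtain ⟨oU, cJ, cA, T1, T2, -⟩ := tgc n C u ok
  obtain ⟨η0, η1, L1, hlg, th, gG, ⟨hτ, ra⟩, ⟨hp, r0⟩, ⟨-, r1⟩, ⟨g8, -, m1, m2⟩, -⟩ := ry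
  obtain ⟨n1, -, -, -, -, -, -, P1, P2, -, -⟩ := T1 y hp
  set g := gp u G y with hg
  have L0 : 0 < L := by linarith
  have g0 : 0 < g := by linarith
  have rg : ∀ t ∈ Icc (-(2 * L)) (g + 2 * L), |t| ≤ G + 65 * lg ε := fun t ht =>
    abs_le.2 ⟨by linarith [ht.1], by linarith [ht.2]⟩
  have s1 := sl_le ok n1
  have BP : ∀ v, BB u y (Pj u y v) = BB u y v ∧ Pj u y (BB u y v) = BB u y v := fun v => by
    simp only [BB, smul_apply, ContinuousLinearMap.comp_apply, map_smul,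
      (P1 _).2.2.1, and_self]
  have gI : g ∈ Icc (-(2 * L)) (g + 2 * L) := ⟨by linarith, by linarith⟩
  have gB : ‖g • BB u y‖ ≤ η := (ra g (rg g gI)).2.1
  have nB : ‖BB u y‖ ≤ η / g := by
    rw [norm_smul, Real.norm_of_nonneg g0.le] at gB
    rw [le_div_iff₀ g0]; linarith
  have hA : ∀ t ∈ Icc (-(2 * L)) (g + 2 * L), ∀ v N, ‖Pj u y v‖ ^ 2 ≤ N →
      |⟪Ai u (y, t) (BB u y v), v⟫| ≤ 2 * (η / g) * N := fun t ht v N hN => by
    obtain ⟨hU, -, -, hn, -⟩ := ra t (rg t ht)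
    have e1 : ⟪Ai u (y, t) (BB u y v), nu u y⟫ = 0 := by
      have := ((T2 _ hU).1 (BB u y v)).2.2
      rwa [(BP v).2] at this
    have e2 : ⟪Ai u (y, t) (BB u y v), v⟫ = ⟪Ai u (y, t) (BB u y (Pj u y v)), Pj u y v⟫ := by
      rw [(BP v).1]
      simp only [Pj, sub_apply, one_apply_eq_self,
        ContinuousLinearMap.smulRight_apply, inner_sub_right, real_inner_smul_right, e1, mul_zero,
        sub_zero]
    have e3 : ‖BB u y (Pj u y v)‖ ≤ η / g * ‖Pj u y v‖ :=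
      ((BB u y).le_opNorm _).trans (mul_le_mul_of_nonneg_right nB (norm_nonneg _))
    have e4 : ‖Ai u (y, t) (BB u y (Pj u y v))‖ ≤ 2 * ‖BB u y (Pj u y v)‖ := by
      have := norm_sub_norm_le (Ai u (y, t) (BB u y (Pj u y v))) (BB u y (Pj u y v))
      nlinarith [hn (BB u y (Pj u y v)), norm_nonneg (BB u y (Pj u y v))]
    rw [e2]
    refine (abs_real_inner_le_norm _ _).trans ?_
    have e5 : 0 ≤ η / g := by positivity
    nlinarith [norm_nonneg (Pj u y v), mul_le_mul_of_nonneg_left hN e5,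
      mul_le_mul_of_nonneg_right (e4.trans (mul_le_mul_of_nonneg_left e3 zero_le_two))
        (norm_nonneg (Pj u y v))]
  have hV : ‖Pj u y (pp u (ray u (y, g)))‖ ≤ 2 * ‖Vg u y g‖ := by
    have sg' := (r1 g (by simp; linarith)).1
    have e1 : ‖g • BB u y (pp u (ray u (y, g)))‖ ≤ η * ‖Pj u y (pp u (ray u (y, g)))‖ := by
      rw [← (BP _).1]
      exact ((g • BB u y).le_opNorm _).trans (mul_le_mul_of_nonneg_right gB (norm_nonneg _))
    have e2 : Pj u y (pp u (ray u (y, g))) + g • BB u y (pp u (ray u (y, g))) =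
        -sl u (y, g) • Vg u y g := by
      rw [Vg, smul_smul, neg_mul_neg, mul_inv_cancel₀ (by linarith), one_smul]
    have e3 := norm_sub_le (Pj u y (pp u (ray u (y, g))) + g • BB u y (pp u (ray u (y, g))))
      (g • BB u y (pp u (ray u (y, g))))
    rw [add_sub_cancel_right, e2, norm_smul, Real.norm_eq_abs, abs_neg] at e3
    nlinarith [s1 g, norm_nonneg (Vg u y g), norm_nonneg (Pj u y (pp u (ray u (y, g))))]
  exact ⟨hA, hV⟩

theorem key (tgc : TGC) (ok : Ok C u) (ry : Ry C K η L ℓ δ u ε G y) (ga : Ga l ℓ γ κ Kp)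
    {N c : ℝ} (hN : N = (K * qq u y) ^ 2 + 32 * ‖Vg u y (gp u G y)‖ ^ 2 +
      2 * (K * qq u (ray u (y, gp u G y))) ^ 2)
    (hc : c = 3 * η * (K * qq u y) + 2 * (2 * (η / gp u G y) * N)) (t : ℝ) :
    -(af u G L γ (y, t) / 2) + (trc (BB u y) - 4 * L * hs (BB u y)) * ZZ u G L κ y t -
      (Icc (0 - 2 * L) (0 + 2 * L)).indicator (fun _ => c) t -
      (Icc (gp u G y - 2 * L) (gp u G y + 2 * L)).indicator (fun _ => c) t ≤
      ib u G L κ (y, t) := by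
  obtain ⟨hA, hV⟩ := lin tgc ok ry
  obtain ⟨oU, cJ, cA, T1, T2, -⟩ := tgc n C u ok
  obtain ⟨η0, η1, L1, hlg, th, gG, ⟨hτ, ra⟩, ⟨hp, r0⟩, ⟨-, r1⟩, ⟨g8, -, m1, m2⟩, -⟩ := ry
  obtain ⟨n1, -, -, -, -, -, -, P1, P2, -, -⟩ := T1 y hp
  set g := gp u G y with hg
  have L0 : 0 < L := by linarith
  have g0 : 0 < g := by linarith
  have rg : ∀ t ∈ Icc (-(2 * L)) (g + 2 * L), |t| ≤ G + 65 * lg ε := fun t ht =>
    abs_le.2 ⟨by linarith [ht.1], by linarith [ht.2]⟩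
  obtain ⟨W0, W1, -, -⟩ := win u G y L0
  rw [← hg] at W1
  have s1 := sl_le ok n1
  have E0 : ∀ x, 0 ≤ EE u x := fun x => mul_nonneg (sq_nonneg _) (ok.q0 x)
  have H0 : 0 ≤ hs (BB u y) := Finset.sum_nonneg fun _ _ => sq_nonneg _
  have k0 : ∀ x, 0 ≤ κ (ps u x) * ff u x ^ 2 ∧ κ (ps u x) * ff u x ^ 2 ≤ 1 := fun x => by
    refine ⟨mul_nonneg (ga.κ0 _).1 (sq_nonneg _), mul_le_one₀ (ga.κ0 _).2.1 (sq_nonneg _) ?_⟩
    have := sq_lt_one_iff_abs_lt_one (u x) |>.2 (ok.lt x)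
    rw [ff, div_pow, Real.sq_sqrt zero_le_two]
    nlinarith [sq_nonneg (u x)]
  by_cases h0 : t ∈ Icc (0 - 2 * L) (0 + 2 * L)
  · have ht : |t| ≤ 2 * L := abs_le.2 ⟨by linarith [h0.1], by linarith [h0.2]⟩
    have tI : t ∈ Icc (-(2 * L)) (g + 2 * L) := ⟨by linarith [h0.1], by linarith [h0.2]⟩
    obtain ⟨-, -, hJ, -, b, b0, b1, hb⟩ := ra t (rg t tI)
    obtain ⟨x1, x2, -, x4⟩ := r0 t ht
    rw [indicator_of_mem h0, indicator_of_notMem (fun h => by linarith [h.1, h0.2]), sub_zero]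
    have ha := hA t tI (pp u (ray u (y, t))) N ((pow_le_pow_left₀ (norm_nonneg _) x4 2).trans
      (by rw [hN]; nlinarith [sq_nonneg ‖Vg u y g‖, sq_nonneg (K * qq u (ray u (y, g)))]))
    subst hc
    simp only [ib, af, ZZ, Cu, hb, W1 t (by linarith [neg_le_abs (t - g), h0.2])]
    exact core0 (bp_nn _) (bp_le _) (k0 _).1 (k0 _).2 (ga.κ0 _).2.2 (ga.γ0 _).2.2.1 (E0 _) x1
      (abs_le.1 (s1 t)).2 hJ (ok.q0 _) x2 hτ ht H0 b0 b1 ha η1
  rw [indicator_of_notMem h0, sub_zero]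
  have z0 := W0 t (by
    by_contra h
    have := abs_lt.1 (not_le.1 h)
    exact h0 ⟨by linarith, by linarith⟩)
  by_cases h1 : t ∈ Icc (g - 2 * L) (g + 2 * L)
  · have ht : |t - g| ≤ 2 * L := abs_le.2 ⟨by linarith [h1.1], by linarith [h1.2]⟩
    have tI : t ∈ Icc (-(2 * L)) (g + 2 * L) := ⟨by linarith [h1.1], h1.2⟩
    obtain ⟨-, -, hJ, -, b, b0, b1, hb⟩ := ra t (rg t tI)
    obtain ⟨x1, x2, -, -, x5⟩ := r1 t ht
    rw [indicator_of_mem h1]
    have x6 : ‖Pj u y (pp u (ray u (y, t)))‖ ≤ 4 * ‖Vg u y g‖ + K * qq u (ray u (y, g)) := by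
      have := norm_sub_norm_le (Pj u y (pp u (ray u (y, t)))) (Pj u y (pp u (ray u (y, g))))
      nlinarith [norm_nonneg (Pj u y (pp u (ray u (y, g))))]
    have ha := hA t tI (pp u (ray u (y, t))) N ((pow_le_pow_left₀ (norm_nonneg _) x6 2).trans
      (by rw [hN]; nlinarith [sq_nonneg (4 * ‖Vg u y g‖ - K * qq u (ray u (y, g))),
        sq_nonneg (K * qq u y)]))
    subst hc
    simp only [ib, af, ZZ, Cu, hb, z0]
    exact core1 (bp_nn _) (bp_le _) (k0 _).1 (k0 _).2 (ga.κ0 _).2.2 (ga.γ0 _).2.2.1 (E0 _) x1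
      (abs_le.1 (s1 t)).1 hJ (ok.q0 _) x2 hτ L0.le (by linarith [h1.1]) H0 b0 ha η1
  have z1 := W1 t (by
    by_contra h
    have := abs_lt.1 (not_le.1 h)
    exact h1 ⟨by linarith, by linarith⟩)
  simp [ib, af, ZZ, z0, z1, indicator_of_notMem h1]

end Stb

open Stb

theorem stb : rSTB := by
  intro tgc n C K L ℓ
  refine ⟨0, le_rfl, fun η' hη' =>
    ⟨η' / ((8 * |L| + 1) * (3 * |K| + 8 * K ^ 2 + 128)), by positivity, ?_⟩⟩
  intro η δ ε G l u y γ κ Kp hη ok ry ga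
  obtain ⟨Ib, Ia, IZ, Z0⟩ := ints tgc ok ry ga
  have key := key tgc ok ry ga rfl rfl
  have L0 : 0 ≤ L := by linarith [ry.L1]
  have g1 : 1 ≤ gp u G y := by linarith [ry.L1, ry.rm.1]
  have a0 : ∀ t, 0 ≤ af u G L γ (y, t) := fun t =>
    mul_nonneg (mul_nonneg (add_nonneg (bp_nn _) (bp_nn _))
      (mul_nonneg (mul_nonneg (sq_nonneg _) (ok.q0 _)) (neg_nonneg.2 (ga.γ0 _).2.2.1)))
      (mul_nonneg (norm_nonneg _) (abs_nonneg _))
  refine ⟨Ib, Ia, integral_nonneg a0, ?_⟩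
  have q1 : ∀ x, qq u x ≤ 1 := fun x => by unfold qq; nlinarith [sq_nonneg ‖pp u x‖]
  have := fin (K := K) (V := ‖Vg u y (gp u G y)‖) ry.η0 hη L0 g1 (ok.q0 y) (q1 y)
    (ok.q0 (ray u (y, gp u G y))) (q1 _)
  generalize 3 * η * (K * qq u y) + _ = c at key this
  obtain ⟨j0, j0'⟩ := ind_int 0 L c L0
  obtain ⟨j1, j1'⟩ := ind_int (gp u G y) L c L0
  have i1 := (Ia.div_const 2).neg
  have i2 := IZ.const_mul (trc (BB u y) - 4 * L * hs (BB u y))
  have mono := integral_mono (((i1.add i2).sub j0).sub j1) Ib key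
  have e1 := integral_sub ((i1.add i2).sub j0) j1
  have e2 := integral_sub (i1.add i2) j0
  have e3 := integral_add i1 i2
  simp only [Pi.add_apply, Pi.sub_apply, Pi.neg_apply] at mono e1 e2 e3
  rw [e1, e2, e3, j0', j1', integral_const_mul, Z0, integral_neg, integral_div] at mono
  simp only [QQ]
  linarith

end Vale.Agent.P134E
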