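import Vale.Agent.P134E.Defs

/-!
# P134E, row STI: the identity for the stress tensor in the tube
-/

open MeasureTheory Metric Filter Topology Set
open scoped ContDiff RealInnerProductSpace
open Vale.Agent.P366.Stmt (E)
open Vale.Agent.P366W (dvg trc map_eq_sum inner_eq_sum)

noncomputable section

namespace Vale.Agent.P134E

open Vale.Agent.P134B

theorem tg_zero {n : ℕ} (u : E n → ℝ) {φ : E n × ℝ → ℝ} {z : E n × ℝ} (hz : z ∉ tsupport φ) :
    tg u φ z = 0 := by
  have h1 : φ =ᶠ[𝓝 z] fun _ => 0 := notMem_tsupport_iff_eventuallyEq.1 hz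
  have h2 : (fun y => φ (y, z.2)) =ᶠ[𝓝 z.1] fun _ => 0 :=
    (Continuous.prodMk_left z.2).continuousAt.eventually h1
  rw [tg, h1.fderiv_eq, h2.gradient_eq]
  simp

theorem sti_alg {n : ℕ} (M : E n →L[ℝ] E n) (p ν g : E n) (a f c : ℝ) :
    ⟪g, f • (⟪p, ν⟫ • p - c • ν)⟫ + a * (f * (⟪M p, p⟫ - c * trc M)) =
      ∑ i, ⟪a • M (EuclideanSpace.single i 1) + ⟪ν, EuclideanSpace.single i 1⟫ • g,
        f • (⟪p, EuclideanSpace.single i 1⟫ • p - c • EuclideanSpace.single i 1)⟫ := by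
  have h1 : ⟪M p, p⟫ = ∑ i, p i * ⟪M (EuclideanSpace.single i 1), p⟫ := by
    conv_lhs => rw [map_eq_sum M p, sum_inner]
    simp only [real_inner_smul_left]
  simp only [inner_smul_right, inner_sub_right, inner_add_left, real_inner_smul_left, h1, trc,
    EuclideanSpace.inner_single_right, inner_eq_sum p ν, inner_eq_sum g ν, Finset.mul_sum,
    Finset.sum_mul, mul_sub, ← Finset.sum_sub_distrib, ← Finset.sum_add_distrib]
  exact Finset.sum_congr rfl fun i _ => by simp; ring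

theorem sti : rSTI := by
  intro tgc divt pb n C u φ ok hφ
  obtain ⟨oU, cJ, -, h1, h2, h3⟩ := tgc n C u ok
  set e : Fin n → E n := fun i => EuclideanSpace.single i 1 with he
  set ψ : Fin n → E n × ℝ → ℝ := fun i z => φ z * ⟪nu u z.1, e i⟫ with hψ
  have su : ∀ i, tsupport (ψ i) ⊆ tsupport φ := fun i => tsupport_mul_subset_left
  have cn : ∀ i, ∀ z ∈ UU u, ContDiffAt ℝ 1 (fun z : E n × ℝ => ⟪nu u z.1, e i⟫) z := fun i z hz =>
    (((h1 z.1 hz.1).2.1.of_le (by simp)).comp z contDiffAt_fst).inner ℝ contDiffAt_const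
  have tu : ∀ i, Tu u (ψ i) := fun i => ⟨contDiff_iff_contDiffAt.2 fun z => by
    by_cases hz : z ∈ tsupport (ψ i)
    · exact hφ.c1.contDiffAt.mul (cn i z (hφ.su (su i hz)))
    · exact contDiffAt_const.congr_of_eventuallyEq (notMem_tsupport_iff_eventuallyEq.1 hz),
    hφ.cs.mul_right, (su i).trans hφ.su⟩
  have I : ∀ i, Integrable fun z => ⟪tg u (ψ i) z, Te u (e i) (ray u z)⟫ * JJ u z := fun i =>
    h3 _ _ hφ.cs (fun z hz => by
      have hU := hφ.su hz
      exact (((h2 z hU).2.2.2.2.2.2.2.2.2.2 _ (tu i).c1.contDiffAt).inner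
        ((divt n C u (e i) ok).1.continuous.continuousAt.comp
          ((h1 z.1 hU.1).2.2.2.2.1 z.2).continuousAt)).mul (cJ.continuousAt (oU.mem_nhds hU)))
      fun z hz => by rw [tg_zero u fun h => hz (su i h), inner_zero_left, zero_mul]
  have P : ∀ i, ∫ z, ⟪tg u (ψ i) z, Te u (e i) (ray u z)⟫ * JJ u z = 0 := fun i => by
    simpa only [(divt n C u (e i) ok).2, mul_zero, zero_add] using
      pb n C u _ _ ok (divt n C u (e i) ok).1 (tu i)
  rw [← Finset.sum_eq_zero fun i (_ : i ∈ Finset.univ) => P i,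
    ← integral_finsetSum _ fun i _ => I i]
  refine integral_congr_ae (Eventually.of_forall fun z => ?_)
  beta_reduce
  rw [← Finset.sum_mul]
  congr 1
  by_cases hz : z ∈ tsupport φ
  · have hU := hφ.su hz
    obtain ⟨-, -, t1, -, -, -, -, t2, -⟩ := h2 z hU
    have t3 : ∀ i, tg u (ψ i) z = φ z • Ai u z (BB u z.1 (e i)) + ⟪nu u z.1, e i⟫ • tg u φ z :=
      fun i => by
        rw [hψ, (t1 φ _ (hφ.c1.differentiable one_ne_zero z)
          ((cn i z hU).differentiableAt one_ne_zero)).1, t2]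
    simp only [t3]
    exact sti_alg (Ai u z ∘L BB u z.1) _ _ _ _ _ _
  · simp [tg_zero u hz, tg_zero u fun h => hz (su _ h), image_eq_zero_of_notMem_tsupport hz]

end Vale.Agent.P134E
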