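import Vale.Agent.P134E.Defs
import Vale.Agent.P134T.Calc

/-!
# P134E: the calculus in the tube
-/

open MeasureTheory Metric Filter Topology Set
open scoped ContDiff RealInnerProductSpace
open Vale.Agent.P366.Stmt (E)
open Vale.Agent.P366W (dvg trc inner_grad)

noncomputable section

namespace Vale.Agent.P134E

open Vale.Agent.P134B Vale.Agent.P134T

variable {n : ℕ} {C : ℝ} {u : E n → ℝ} {y : E n} {z : E n × ℝ}

namespace Tg

theorem Pj_apply (u : E n → ℝ) (y v : E n) : Pj u y v = v - ⟪nu u y, v⟫ • nu u y := by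
  simp [Pj]

theorem BB_apply (u : E n → ℝ) (y v : E n) :
    BB u y v = ‖pp u y‖⁻¹ • Pj u y (SS u y (Pj u y v)) := by
  simp [BB]

theorem nu_norm (hy : pp u y ≠ 0) : ‖nu u y‖ = 1 := by
  rw [nu, norm_smul, norm_inv, norm_norm, inv_mul_cancel₀ (norm_ne_zero_iff.2 hy)]

theorem nu_sq (hy : pp u y ≠ 0) : ⟪nu u y, nu u y⟫ = 1 := by
  rw [real_inner_self_eq_norm_sq, nu_norm hy, one_pow]

theorem Pj_nu (hy : pp u y ≠ 0) : Pj u y (nu u y) = 0 := by
  rw [Pj_apply, nu_sq hy, one_smul, sub_self]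

theorem Pj_orth (hy : pp u y ≠ 0) (v : E n) : ⟪Pj u y v, nu u y⟫ = 0 := by
  rw [Pj_apply, inner_sub_left, real_inner_smul_left, nu_sq hy, real_inner_comm, mul_one, sub_self]

theorem Pj_Pj (hy : pp u y ≠ 0) (v : E n) : Pj u y (Pj u y v) = Pj u y v := by
  rw [Pj_apply u y (Pj u y v), real_inner_comm, Pj_orth hy, zero_smul, sub_zero]

theorem Pj_sym (u : E n → ℝ) (y v w : E n) : ⟪Pj u y v, w⟫ = ⟪v, Pj u y w⟫ := by
  rw [Pj_apply, Pj_apply, inner_sub_left, inner_sub_right, real_inner_smul_left,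
    real_inner_smul_right, real_inner_comm v (nu u y), mul_comm]

theorem Pj_pyth (hy : pp u y ≠ 0) (v : E n) : ‖v‖ ^ 2 = ‖Pj u y v‖ ^ 2 + ⟪v, nu u y⟫ ^ 2 := by
  rw [← real_inner_self_eq_norm_sq (Pj u y v), Pj_sym, Pj_Pj hy, Pj_apply, inner_sub_right,
    real_inner_smul_right, real_inner_self_eq_norm_sq, real_inner_comm v (nu u y)]
  ring

theorem Pj_le (hy : pp u y ≠ 0) (v : E n) : ‖Pj u y v‖ ≤ ‖v‖ := by
  have h := Pj_pyth hy v
  refine (sq_le_sq₀ (norm_nonneg _) (norm_nonneg _)).1 ?_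
  nlinarith [sq_nonneg ⟪v, nu u y⟫]

theorem BB_nu (hy : pp u y ≠ 0) : BB u y (nu u y) = 0 := by
  rw [BB_apply, Pj_nu hy, map_zero, map_zero, smul_zero]

theorem BB_sym (h : Ok C u) (y v w : E n) : ⟪BB u y v, w⟫ = ⟪v, BB u y w⟫ := by
  rw [BB_apply, BB_apply, real_inner_smul_left, real_inner_smul_right, Pj_sym, h.sy, Pj_sym]

theorem BB_le (hy : pp u y ≠ 0) : ‖BB u y‖ ≤ ‖pp u y‖⁻¹ * ‖SS u y‖ := by
  refine ContinuousLinearMap.opNorm_le_bound _ (by positivity) fun v => ?_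
  rw [BB_apply, norm_smul, norm_inv, norm_norm, mul_assoc]
  gcongr
  refine (Pj_le hy _).trans (((SS u y).le_opNorm _).trans ?_)
  gcongr
  exact Pj_le hy v

theorem cd_r (h : Ok C u) (hy : pp u y ≠ 0) : ContDiffAt ℝ ∞ (fun y => ‖pp u y‖) y :=
  h.tcp.contDiffAt.norm ℝ hy

theorem cd_ri (h : Ok C u) (hy : pp u y ≠ 0) : ContDiffAt ℝ ∞ (fun y => ‖pp u y‖⁻¹) y :=
  (cd_r h hy).inv (norm_ne_zero_iff.2 hy)

theorem cd_nu (h : Ok C u) (hy : pp u y ≠ 0) : ContDiffAt ℝ ∞ (nu u) y :=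
  (cd_ri h hy).smul h.tcp.contDiffAt

theorem cd_Pj (h : Ok C u) (hy : pp u y ≠ 0) : ContDiffAt ℝ ∞ (Pj u) y := by
  have h1 : ContDiffAt ℝ ∞ (fun y => innerSL ℝ (nu u y)) y :=
    (innerSL ℝ : E n →L[ℝ] E n →L[ℝ] ℝ).contDiff.contDiffAt.comp y (cd_nu h hy)
  exact contDiffAt_const.sub (h1.smulRight (cd_nu h hy))

theorem cd_S (h : Ok C u) : ContDiff ℝ ∞ (SS u) := h.tcp.fderiv_right (m := ∞) (by simp)

theorem cd_BB (h : Ok C u) (hy : pp u y ≠ 0) : ContDiffAt ℝ ∞ (BB u) y :=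
  (cd_ri h hy).smul ((cd_Pj h hy).clm_comp ((cd_S h).contDiffAt.clm_comp (cd_Pj h hy)))

theorem cd_nu1 (h : Ok C u) (hz : pp u z.1 ≠ 0) :
    ContDiffAt ℝ ∞ (fun w : E n × ℝ => nu u w.1) z := (cd_nu h hz).comp z contDiffAt_fst

theorem cd_ray (h : Ok C u) (hz : pp u z.1 ≠ 0) : ContDiffAt ℝ ∞ (ray u) z :=
  contDiffAt_fst.add (contDiffAt_snd.smul (cd_nu1 h hz))

theorem ev_ne (h : Ok C u) (hy : pp u y ≠ 0) : ∀ᶠ w in 𝓝 y, pp u w ≠ 0 :=
  h.tcp.continuous.continuousAt.eventually_ne hy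

theorem fd_nu (h : Ok C u) (hy : pp u y ≠ 0) :
    fderiv ℝ (nu u) y = ‖pp u y‖⁻¹ • (Pj u y ∘L SS u y) := by
  have hν := ((cd_nu h hy).differentiableAt (by simp)).hasFDerivAt
  have hr := ((cd_r h hy).differentiableAt (by simp)).hasFDerivAt
  have hp : HasFDerivAt (pp u) (SS u y) y :=
    (h.tcp.differentiable (by simp) y).hasFDerivAt
  have e1 : pp u =ᶠ[𝓝 y] fun w => ‖pp u w‖ • nu u w := by
    filter_upwards [ev_ne h hy] with w hw
    rw [nu, smul_smul, mul_inv_cancel₀ (norm_ne_zero_iff.2 hw), one_smul]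
  have e2 := hp.unique ((hr.smul hν).congr_of_eventuallyEq e1)
  have e3 : (fun _ => (1 : ℝ)) =ᶠ[𝓝 y] fun w => ⟪nu u w, nu u w⟫ := by
    filter_upwards [ev_ne h hy] with w hw
    rw [nu_sq hw]
  have e4 := (hasFDerivAt_const (1 : ℝ) y).unique ((hν.inner ℝ hν).congr_of_eventuallyEq e3)
  ext1 v
  have e5 : ⟪nu u y, fderiv ℝ (nu u) y v⟫ = 0 := by
    have := congrArg (fun A : E n →L[ℝ] ℝ => A v) e4
    simp only [zero_apply, ContinuousLinearMap.comp_apply,
      ContinuousLinearMap.prod_apply, fderivInnerCLM_apply] at this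
    rw [real_inner_comm (nu u y) (fderiv ℝ (nu u) y v)] at this
    linarith
  have e6 : Pj u y (fderiv ℝ (nu u) y v) = fderiv ℝ (nu u) y v := by
    rw [Pj_apply, e5, zero_smul, sub_zero]
  rw [e2]
  simp only [smul_apply, ContinuousLinearMap.comp_apply,
    add_apply, ContinuousLinearMap.smulRight_apply, map_add, map_smul, e6,
    Pj_nu hy, smul_zero, add_zero]
  rw [smul_smul, inv_mul_cancel₀ (norm_ne_zero_iff.2 hy), one_smul]

theorem cd_A (h : Ok C u) (hz : pp u z.1 ≠ 0) :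
    ContDiffAt ℝ ∞ (fun w : E n × ℝ => w.2 • BB u w.1) z :=
  contDiffAt_snd.smul ((cd_BB h hz).comp z contDiffAt_fst)

theorem isOpen_UU (h : Ok C u) : IsOpen (UU u) := by
  refine isOpen_iff_mem_nhds.2 fun z hz => ?_
  have h1 : ∀ᶠ w in 𝓝 z, pp u w.1 ≠ 0 := continuous_fst.continuousAt.eventually (ev_ne h hz.1)
  have h2 : ∀ᶠ w in 𝓝 z, ‖w.2 • BB u w.1‖ < 1 / 2 :=
    (cd_A h hz.1).continuousAt.norm.eventually_lt continuousAt_const hz.2
  exact h1.and h2

theorem inv_A (hz : z ∈ UU u) : (1 + z.2 • BB u z.1).IsInvertible := by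
  have h1 : ‖-(z.2 • BB u z.1)‖ < 1 := by
    rw [norm_neg]
    linarith [hz.2]
  refine ⟨ContinuousLinearEquiv.ofUnit (Units.oneSub _ h1), ?_⟩
  ext1 v
  change (1 - -(z.2 • BB u z.1)) v = _
  rw [sub_neg_eq_add]

theorem cd_Ai (h : Ok C u) (hz : z ∈ UU u) : ContDiffAt ℝ ∞ (Ai u) z :=
  (inv_A hz).contDiffAt_map_inverse.comp z (contDiffAt_const.add (cd_A h hz.1))

theorem Ai_l (hz : z ∈ UU u) (v : E n) : Ai u z (v + z.2 • BB u z.1 v) = v :=
  (inv_A hz).inverse_apply_eq.2 rfl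

theorem Ai_r (hz : z ∈ UU u) (v : E n) : Ai u z v + z.2 • BB u z.1 (Ai u z v) = v :=
  ((inv_A hz).inverse_apply_eq.1 rfl).symm

theorem Ai_sym (h : Ok C u) (hz : z ∈ UU u) (v w : E n) : ⟪Ai u z v, w⟫ = ⟪v, Ai u z w⟫ := by
  conv_lhs => rw [← Ai_r hz w]
  conv_rhs => rw [← Ai_r hz v]
  rw [inner_add_left, inner_add_right, real_inner_smul_left, real_inner_smul_right, BB_sym h]

theorem Ai_nu (hz : z ∈ UU u) : Ai u z (nu u z.1) = nu u z.1 := by
  have := Ai_l hz (nu u z.1)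
  rwa [BB_nu hz.1, smul_zero, add_zero] at this

theorem fd_slice {φ : E n × ℝ → ℝ} (hφ : DifferentiableAt ℝ φ z) (v : E n) :
    ⟪gradient (fun y => φ (y, z.2)) z.1, v⟫ = fderiv ℝ φ z (v, 0) := by
  have := (HasFDerivAt.comp (f := fun x => (x, z.2)) z.1 hφ.hasFDerivAt
    (hasFDerivAt_prodMk_left z.1 z.2)).fderiv
  rw [inner_grad, show fderiv ℝ (fun y => φ (y, z.2)) z.1 = _ from this]
  simp

/-- the vector of the tube above `w` -/
def lf (u : E n → ℝ) (z : E n × ℝ) (w : E n) : E n × ℝ := (Pj u z.1 (Ai u z w), ⟪nu u z.1, w⟫)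

theorem tg_inner (h : Ok C u) (hz : z ∈ UU u) {φ : E n × ℝ → ℝ} (hφ : DifferentiableAt ℝ φ z)
    (w : E n) : ⟪tg u φ z, w⟫ = fderiv ℝ φ z (lf u z w) := by
  have e : lf u z w = ⟪nu u z.1, w⟫ • ((0 : E n), (1 : ℝ)) + (Pj u z.1 (Ai u z w), 0) := by
    simp [lf]
  rw [tg, inner_add_left, real_inner_smul_left, Ai_sym h hz, Pj_sym, fd_slice hφ, e, map_add,
    map_smul, smul_eq_mul, mul_comm]

theorem nu_lf (h : Ok C u) (hz : z ∈ UU u) (w : E n) :
    fderiv ℝ (nu u) z.1 (lf u z w).1 = BB u z.1 (Ai u z w) := by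
  rw [fd_nu h hz.1, BB_apply]
  simp [lf]

theorem hd_nu1 (h : Ok C u) (hz : pp u z.1 ≠ 0) : HasFDerivAt (fun w : E n × ℝ => nu u w.1)
    (fderiv ℝ (nu u) z.1 ∘L ContinuousLinearMap.fst ℝ (E n) ℝ) z :=
  ((cd_nu h hz).differentiableAt (by simp)).hasFDerivAt.comp z hasFDerivAt_fst

theorem ray_lf (h : Ok C u) (hz : z ∈ UU u) (w : E n) : fderiv ℝ (ray u) z (lf u z w) = w := by
  have h1 := (hasFDerivAt_fst (𝕜 := ℝ) (p := z)).add
    ((hasFDerivAt_snd (𝕜 := ℝ) (p := z)).smul (hd_nu1 h hz.1))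
  rw [show fderiv ℝ (ray u) z = _ from h1.fderiv]
  simp only [add_apply, smul_apply,
    ContinuousLinearMap.comp_apply, ContinuousLinearMap.smulRight_apply,
    ContinuousLinearMap.coe_fst', ContinuousLinearMap.coe_snd', nu_lf h hz]
  have e : ⟪nu u z.1, Ai u z w⟫ = ⟪nu u z.1, w⟫ := by rw [← Ai_sym h hz, Ai_nu hz]
  simp only [lf]
  rw [Pj_apply, e]
  conv_rhs => rw [← Ai_r hz w]
  abel

theorem tg_cont (h : Ok C u) (hz : z ∈ UU u) {φ : E n × ℝ → ℝ} (hφ : ContDiffAt ℝ 1 φ z) :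
    ContinuousAt (tg u φ) z := by
  have h1 : ContinuousAt (fderiv ℝ φ) z :=
    (hφ.fderiv_right (m := 0) (by simp)).continuousAt
  have h2 : ContinuousAt (fun w : E n × ℝ => (InnerProductSpace.toDual ℝ (E n)).symm
      (fderiv ℝ φ w ∘L ContinuousLinearMap.inl ℝ (E n) ℝ)) z :=
    (InnerProductSpace.toDual ℝ (E n)).symm.continuous.continuousAt.comp
      (h1.clm_comp continuousAt_const)
  have h3 : (fun w : E n × ℝ => (InnerProductSpace.toDual ℝ (E n)).symm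
      (fderiv ℝ φ w ∘L ContinuousLinearMap.inl ℝ (E n) ℝ)) =ᶠ[𝓝 z]
      fun w => gradient (fun y => φ (y, w.2)) w.1 := by
    filter_upwards [hφ.eventually (by simp)] with w hw
    refine ext_inner_right ℝ fun v => ?_
    rw [fd_slice (hw.differentiableAt (by simp)), InnerProductSpace.toDual_symm_apply]
    simp
  have h4 : ContinuousAt (fun w : E n × ℝ => Pj u w.1) z :=
    ((cd_Pj h hz.1).comp z contDiffAt_fst).continuousAt
  exact ((h1.clm_apply continuousAt_const).smul (cd_nu1 h hz.1).continuousAt).add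
    ((cd_Ai h hz).continuousAt.clm_apply (h4.clm_apply (h2.congr h3)))

end Tg

open Tg

theorem tgc : TGC := by
  intro n C u h
  refine ⟨isOpen_UU h, fun z hz => ?_, fun z hz => (cd_Ai h hz).continuousAt.continuousWithinAt,
    fun y hy => ⟨nu_norm hy, cd_nu h hy, cd_BB h hy, cd_Pj h hy, fun t => cd_ray h hy, BB_nu hy,
      Pj_nu hy, fun v => ⟨Pj_le hy v, Pj_orth hy v, Pj_Pj hy v, Pj_pyth hy v⟩,
      fun v w => ⟨Pj_sym u y v w, BB_sym h y v w⟩, BB_le hy, fd_nu h hy⟩,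
    fun z hz => ⟨fun v => ⟨Ai_l hz v, Ai_r hz v, ?_⟩, Ai_sym h hz, fun φ φ' hφ hφ' => ⟨?_, ?_, ?_⟩,
      fun φ k k' hφ hk => ?_, fun a ha => ?_, fun a ha => ?_, ?_, fun e => ?_,
      fun φ φ' hφ => ?_, fun c => ?_, fun φ hφ => tg_cont h hz hφ⟩, fun F K hK hF h0 => ?_⟩
  · refine ContinuousAt.continuousWithinAt ?_
    exact (h.tcp.continuous.comp continuous_fst).norm.continuousAt.mul
      ((ContinuousLinearMap.continuous_det.continuousAt.comp
        (continuousAt_const.add (cd_A h hz.1).continuousAt)).abs)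
  · rw [Ai_sym h hz, Ai_nu hz, Pj_orth hz.1]
  · refine ext_inner_right ℝ fun w => ?_
    rw [tg_inner h hz (hφ.fun_mul hφ'), fderiv_fun_mul hφ hφ', inner_add_left,
      real_inner_smul_left, real_inner_smul_left, tg_inner h hz hφ, tg_inner h hz hφ']
    simp
  · refine ext_inner_right ℝ fun w => ?_
    rw [tg_inner h hz (hφ.fun_add hφ'), fderiv_fun_add hφ hφ', inner_add_left, tg_inner h hz hφ,
      tg_inner h hz hφ']
    simp
  · refine ext_inner_right ℝ fun w => ?_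
    rw [tg_inner h hz (hφ.fun_sub hφ'), fderiv_fun_sub hφ hφ', inner_sub_left, tg_inner h hz hφ,
      tg_inner h hz hφ']
    simp
  · refine ext_inner_right ℝ fun w => ?_
    have h1 : HasFDerivAt (fun w => k (φ w)) _ z := hk.comp_hasFDerivAt z hφ.hasFDerivAt
    rw [tg_inner h hz h1.differentiableAt, h1.fderiv, real_inner_smul_left, tg_inner h hz hφ]
    simp
  · refine ext_inner_right ℝ fun w => ?_
    have h1 : HasFDerivAt (fun w => a (ray u w)) _ z :=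
      ha.hasFDerivAt.comp z ((cd_ray h hz.1).differentiableAt (by simp)).hasFDerivAt
    rw [tg_inner h hz h1.differentiableAt, h1.fderiv, ContinuousLinearMap.comp_apply,
      ray_lf h hz, inner_grad]
  · refine ext_inner_right ℝ fun w => ?_
    have h1 : HasFDerivAt (fun w : E n × ℝ => a w.1) _ z :=
      ha.hasFDerivAt.comp z (hasFDerivAt_fst (𝕜 := ℝ) (p := z))
    rw [tg_inner h hz h1.differentiableAt, h1.fderiv, Ai_sym h hz, Pj_sym, inner_grad]
    simp [lf]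
  · refine ext_inner_right ℝ fun w => ?_
    rw [tg_inner h hz differentiableAt_snd, (hasFDerivAt_snd (𝕜 := ℝ) (p := z)).fderiv]
    simp [lf]
  · refine ext_inner_right ℝ fun w => ?_
    have h1 := (hd_nu1 h hz.1).inner ℝ (hasFDerivAt_const e z)
    rw [tg_inner h hz h1.differentiableAt, h1.fderiv, Ai_sym h hz, BB_sym h, ← nu_lf h hz,
      real_inner_comm]
    simp
  · have h1 : (fun y => φ (y, z.2)) =ᶠ[𝓝 z.1] fun y => φ' (y, z.2) :=
      (continuous_id.prodMk continuous_const).continuousAt.eventually hφ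
    rw [tg, tg, hφ.fderiv_eq, h1.gradient_eq]
  · simp [tg]
  · have : (volume : Measure (E n × ℝ)).IsAddHaarMeasure :=
      Measure.prod.instIsAddHaarMeasure volume volume
    have h1 : ContinuousOn F K := fun z hz => (hF z hz).continuousWithinAt
    exact (h1.integrableOn_compact hK).integrable_of_forall_notMem_eq_zero h0

end Vale.Agent.P134E
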