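import Vale.Agent.P134E.ALG
import Vale.Agent.P134E.ALR
import Vale.Agent.P134E.AR
import Vale.Agent.P134E.CVQ
import Vale.Agent.P134E.FARC
import Vale.Agent.P134E.GN0
import Vale.Agent.P134E.GN1
import Vale.Agent.P134E.Greg
import Vale.Agent.P134E.JT
import Vale.Agent.P134E.LOW
import Vale.Agent.P134E.PB
import Vale.Agent.P134E.PRG
import Vale.Agent.P134E.PRK
import Vale.Agent.P134E.PRS
import Vale.Agent.P134E.PS
import Vale.Agent.P134E.Par2
import Vale.Agent.P134E.RAY
import Vale.Agent.P134E.RAY0
import Vale.Agent.P134E.RAY1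
import Vale.Agent.P134E.RAYA
import Vale.Agent.P134E.RAYF
import Vale.Agent.P134E.RAYM
import Vale.Agent.P134E.REGW
import Vale.Agent.P134E.RG1
import Vale.Agent.P134E.RG2
import Vale.Agent.P134E.RG3
import Vale.Agent.P134E.SBA
import Vale.Agent.P134E.SBB
import Vale.Agent.P134E.SBC
import Vale.Agent.P134E.SBD
import Vale.Agent.P134E.SLAB
import Vale.Agent.P134E.STA
import Vale.Agent.P134E.STB
import Vale.Agent.P134E.STI
import Vale.Agent.P134E.TGC
import Vale.Agent.P134B.Toda6

/-!
# P134E: the tools of the test in the tube without hypotheses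
-/

namespace Vale.Agent.P134E.All0

open Vale.Agent.P134B

theorem foot' : FOOT := foot seg
theorem greg' : GREG := greg tgc
theorem par2' : PAR2 := par2 gr gd
theorem slab' : SLAB := slab tgc greg' foot' gr gd par2'
theorem pb' : PB := pb tgc
theorem ar' : AR := ar tgc
theorem jt' : JT := jt tgc pb' (ps0 tgc)
theorem sti' : STI := sti tgc divt pb'
theorem gn0' : GN0 := gn0 cvq
theorem gn1' : GN1 := gn1 cvq
theorem farc' : FARC := farc col
theorem raya' : RAYA := raya tgc (alg tgc)
theorem ray0' : RAY0 := ray0 tgc seg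
theorem ray1' : RAY1 := ray1 tgc seg foot' greg' par2' ray0'
theorem low' : LOW := low tgc foot' tl' zt greg' ray0' ray1'
theorem raym' : RAYM := raym tgc greg' slab' ray0' ray1' low'
theorem rayf' : RAYF := rayf tgc sym seg tl' zt ln0 ray0' ray1'
theorem ray' : RAY := ray_ raya' ray0' ray1' raym' rayf'
theorem regw' : REGW := regw tgc greg' col

/-- all the rows are fed into a statement of the shape of `rTE0` -/
theorem feed {P : Prop}
    (h : TGC → PB → JT → STI → GREG → PRG → PRK → CVQ → GN0 → GN1 → RAY → REGW → RG1 → RG2 → RG3 →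
      STA → STB → SBC → SBA → SBB → SBD → ALR → P) : P :=
  h tgc pb' jt' sti' greg' prg prk cvq gn0' gn1' ray' regw' (rg1 tgc greg' cvq gn0' gn1' regw')
    (rg2 tgc greg' regw') (rg3 tgc greg' regw') (sta tgc) (stb tgc) (sbc tgc gn0')
    (sba tgc gn0' gn1' regw') (sbb tgc cvq gn0' gn1' col farc' regw') (sbd tgc cvq regw') alr

end Vale.Agent.P134E.All0
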