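import Vale.Agent.P134E.Spec2

/-!
# P134E, row COVI: the left-hand side of `TE1`
-/

set_option linter.unusedVariables false

open MeasureTheory Metric Filter Topology Set
open scoped ContDiff RealInnerProductSpace
open Vale.Agent.P366.Stmt (E)

noncomputable section

namespace Vale.Agent.P134E

open Vale.Agent.P134B
open Vale.Agent.P134C (Wt Bad Xi Rt dd Bd CNT CNR)

namespace Covi

variable {n : ℕ} {C : ℝ} {u : E n → ℝ}

theorem side (tgc : TGC) (ar : AR) (hu : Ok C u) {e ζ ζ' : E n → ℝ} {G c : ℝ} {F : ℝ → ℝ}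
    (hc : 0 ≤ c) (hζ : Continuous ζ) (hg : ∀ x, 0 ≤ gn u x)
    (hW : Continuous fun z => xi u e ζ' G F z ^ 2 * st (2 * sv u G z))
    (hI : Integrable fun z => et u ζ' G F z.1 ^ 2 * gy u e G z) {S : Set (E n × ℝ)}
    (hS : ∀ w ∈ S, ∃ z ∈ UU u, ray u z = w.1 ∧ ps u z.1 = w.2 ∧
      ζ w.1 ^ 2 ≤ c * (xi u e ζ' G F z ^ 2 * st (2 * sv u G z))) :
    0 ≤ ∫ z, et u ζ' G F z.1 ^ 2 * gy u e G z ∧
    ∫⁻ w in S, ENNReal.ofReal (gn u w.1 * ζ w.1 ^ 2) ≤
      ENNReal.ofReal (c * ∫ z, et u ζ' G F z.1 ^ 2 * gy u e G z) := by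
  obtain ⟨t1, -, -, t2, -⟩ := tgc n C u hu
  have hr : ContinuousOn (ray u) (UU u) := fun z hz =>
    ((t2 z.1 hz.1).2.2.2.2.1 z.2).continuousAt.continuousWithinAt
  have ho : IsOpen (UU u ∩ (fun z => c * (xi u e ζ' G F z ^ 2 * st (2 * sv u G z)) -
      ζ (ray u z) ^ 2) ⁻¹' Iio 0) := ((continuousOn_const.mul hW.continuousOn).sub
    ((hζ.comp_continuousOn hr).pow 2)).isOpen_inter_preimage t1 isOpen_Iio
  have hJ : ∀ z, 0 ≤ JJ u z := fun z => mul_nonneg (norm_nonneg _) (abs_nonneg _)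
  have e1 : ∀ z, et u ζ' G F z.1 ^ 2 * gy u e G z =
      xi u e ζ' G F z ^ 2 * st (2 * sv u G z) * (gn u (ray u z) * JJ u z) := fun z => by
    unfold gy xi; ring
  have n1 : ∀ z, 0 ≤ et u ζ' G F z.1 ^ 2 * gy u e G z := fun z => by
    rw [e1]; exact mul_nonneg (mul_nonneg (sq_nonneg _) (st_nn _)) (mul_nonneg (hg _) (hJ _))
  refine ⟨integral_nonneg n1, (ar n C u (fun x => gn u x * ζ x ^ 2) _ S hu
    (t1.measurableSet.diff ho.measurableSet) sdiff_subset fun w hw => ?_).trans ?_⟩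
  · obtain ⟨z, z1, z2, z3, z4⟩ := hS w hw
    exact ⟨z, ⟨z1, fun h => absurd h.2 (by rw [mem_preimage, z2, mem_Iio]; linarith)⟩, z2, z3⟩
  · rw [← integral_const_mul, ofReal_integral_eq_lintegral_ofReal (hI.const_mul c)
      (Eventually.of_forall fun z => mul_nonneg hc (n1 z))]
    refine (setLIntegral_mono' (t1.measurableSet.diff ho.measurableSet) fun z hz =>
      ENNReal.ofReal_le_ofReal ?_).trans (setLIntegral_le_lintegral _ _)
    have h1 : ζ (ray u z) ^ 2 ≤ c * (xi u e ζ' G F z ^ 2 * st (2 * sv u G z)) :=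
      sub_nonneg.1 (not_lt.1 fun h => hz.2 ⟨hz.1, h⟩)
    rw [e1]
    nlinarith [mul_le_mul_of_nonneg_right h1 (mul_nonneg (hg (ray u z)) (hJ z))]

theorem pt (tgc : TGC) (hu : Ok C u) {e ζ D : E n → ℝ} {B : Set (E n)} {G a S T τ l R R₁ k : ℝ}
    {Kf ι g₀ : ℝ} {F Θ : ℝ → ℝ} {x : E n} (hD : Ds B D) (hζ : Wt l ζ) (hl : 0 < l)
    (hP : Pf Kf ι g₀ S G F Θ) (h : Cov u e G a S T x τ) (hτ : |τ| ≤ 1 / 2) (ha : 2 ≤ a)
    (hk : 0 < k) (hS : S = k * a) (h1 : 0 < R₁) (h2 : 2 * R₁ + S + 1 ≤ infDist x B)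
    (h3 : ‖x‖ + S + 2 ≤ R) (h4 : l * (S + 2) ≤ 1) : ∃ z ∈ UU u, ray u z = x ∧ ps u z.1 = τ ∧
      ζ x ^ 2 ≤ 9 * k * (xi u e (zt u D ζ R₁ R) G F z ^ 2 * st (2 * sv u G z)) := by
  obtain ⟨y, t, c1, c2, -, c3, c4, c5, c6, c7, c8⟩ := h
  refine ⟨(y, t), c4, c1, c2, ?_⟩
  have d1 : ‖x - y‖ ≤ S + 2 := by
    rw [← c1, ray, add_sub_cancel_left, norm_smul, ((tgc n C u hu).2.2.2.1 y c4.1).1, mul_one]
    exact c3
  have S0 : 0 < S := by linarith
  have d2 : 2 ≤ D y / R₁ := by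
    rw [le_div_iff₀ h1]
    linarith [hD.lo y, infDist_le_infDist_add_dist (x := x) (y := y) (s := B), dist_eq_norm x y]
  have d3 : ‖y‖ ≤ R := by linarith [norm_sub_norm_le y x, norm_sub_rev x y]
  have d4 : ‖y‖ ^ 2 / R ^ 2 ≤ 1 := div_le_one_of_le₀ (by gcongr) (sq_nonneg _)
  have d5 : zt u D ζ R₁ R y = ζ y := by
    rw [zt, c2, bp_one (by rw [abs_mul, abs_two]; linarith), st_one (by linarith),
      st_one (by linarith)]
    ring
  have d6 : ζ x ≤ 3 * ζ y := (hζ.ex x y).trans (mul_le_mul_of_nonneg_right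
    ((Real.exp_le_exp.2 ((mul_le_mul_of_nonneg_left d1 hl.le).trans h4)).trans
      (by linarith [Real.exp_one_lt_d9])) (hζ.pos y).le)
  have d7 : gp u G y / S ≤ F (gp u G y) ^ 2 := by
    refine le_trans ?_ (hP.lo _ (by linarith) c6)
    nth_rw 1 [← Real.rpow_one (gp u G y / S)]
    exact Real.rpow_le_rpow_of_exponent_ge (div_pos (by linarith) S0) ((div_le_one S0).2 c6)
      (by norm_num)
  have d8 : 1 ≤ k * F (gp u G y) ^ 2 := by
    rw [div_le_iff₀ S0, hS] at d7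
    exact le_of_mul_le_mul_right (by linarith) (show 0 < a by linarith)
  rw [xi, et, c7, st_one (by linarith), d5]
  have d9 : ζ x ^ 2 ≤ (3 * ζ y) ^ 2 := pow_le_pow_left₀ (hζ.pos x).le d6 2
  nlinarith [mul_le_mul_of_nonneg_right d8 (sq_nonneg (ζ y))]

theorem slab {φ : E n → ENNReal} (hφ : Measurable φ) (B : Set (E n)) {P Q : Set (E n × ℝ)}
    (h : ∀ x ∈ B, ∀ τ : ℝ, |τ| ≤ 1 / 2 → (x, τ) ∈ P ∨ (x, -τ) ∈ Q) :
    ∫⁻ x in B, φ x ≤ (∫⁻ w in P, φ w.1) + ∫⁻ w in Q, φ w.1 := by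
  have e1 : ∫⁻ w in B ×ˢ Icc (-(1 / 2) : ℝ) (1 / 2), φ w.1 = ∫⁻ x in B, φ x := by
    rw [Measure.volume_eq_prod, setLIntegral_prod (fun w : E n × ℝ => φ w.1)
      (hφ.comp measurable_fst).aemeasurable]
    simp
    norm_num
  have mp : MeasurePreserving (Prod.map id Neg.neg : E n × ℝ → E n × ℝ) :=
    (MeasurePreserving.id _).prod (Measure.measurePreserving_neg _)
  have e2 := mp.setLIntegral_comp_preimage_emb
    ((MeasurableEquiv.refl _).prodCongr (MeasurableEquiv.neg ℝ)).measurableEmbedding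
    (fun w => φ w.1) Q
  rw [← e1, ← e2]
  exact (lintegral_mono_set fun w hw => h w.1 hw.1 w.2 (abs_le.2 hw.2)).trans
    (lintegral_union_le _ _ _)

theorem ex_s (a : ℝ) : ∃ s', ∀ s ≥ s', 1 ≤ s ∧ a ≤ s ∧ a * s ≤ s ^ (41 / 40 : ℝ) := by
  obtain ⟨s', h⟩ := eventually_atTop.1 ((eventually_ge_atTop 1).and ((eventually_ge_atTop a).and
    ((tendsto_rpow_atTop (show (0 : ℝ) < 1 / 40 by norm_num)).eventually_ge_atTop a)))
  refine ⟨s', fun s hs => ?_⟩
  obtain ⟨h1, h2, h3⟩ := h s hs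
  refine ⟨h1, h2, ?_⟩
  rw [show (41 / 40 : ℝ) = 1 / 40 + 1 by norm_num, Real.rpow_add_one (by linarith)]
  gcongr

end Covi

open Covi

theorem covi : rCOVI := by
  intro tgc sym ar thn cnt cov C δ M A₁ hM hA
  obtain ⟨K₀, k0, β, b0, d₀, cov⟩ := cov C δ
  obtain ⟨C₁, c0, cnt⟩ := cnt 7
  obtain ⟨s', hs'⟩ := ex_s (|d₀| + 3000 * M / β + 62 * M + 2 * A₁)
  refine ⟨9 * (60 * M ^ 2) + C₁ * K₀, by positivity, s', fun s hs => ?_⟩
  obtain ⟨s1, s2, s3⟩ := hs' s hs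
  have p0 : 0 < 3000 * M / β := by positivity
  have p1 := abs_nonneg d₀
  have p2 : s ≤ M * s := le_mul_of_one_le_left (by linarith) hM
  have p3 : s ≤ A₁ * s := le_mul_of_one_le_left (by linarith) hA
  refine ⟨1 / (60 * M * s + 2), by positivity, 2 * (60 * M * s + 2),
    fun u D ζ l Kf ι g₀ R F Θ A hu hD hl hl0 hζ hR hP hA' hb hv => ?_⟩
  obtain ⟨-, -, -, r1, r2, r3, r4, r5, r6⟩ := thn 7 C δ u D hu hD
  have g0 : ∀ x, 0 ≤ gn u x := fun x => (r6 x).1
  have a2 : 2 ≤ s / M := by rw [le_div_iff₀ (by linarith)]; linarith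
  have eS : 60 * M * s = 60 * M ^ 2 * (s / M) := by field_simp
  have l1 : l * (60 * M * s + 2) ≤ 1 := (le_div_iff₀ (by positivity)).1 hl0
  have cζ := hζ.sm.continuous
  set N := {x | gn u x * (1 + infDist x (Bad δ u)) ^ 40 ≤ K₀} with hN
  have mN : MeasurableSet N :=
    (isClosed_le (r5.mul ((continuous_const.add (continuous_infDist_pt _)).pow 40))
      continuous_const).measurableSet
  have cφ : Continuous fun x => gn u x * ζ x ^ 2 := r5.mul (cζ.pow 2)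
  have key : ∀ {v : E 7 → ℝ} {x τ}, Ok C v → x ∈ A ∩ ball 0 (R / 2) → |τ| ≤ 1 / 2 →
      Cov v (ee C D) (3000 * M * s) (s / M) (60 * M * s) (21 * Real.log (dd δ u x)) x τ → _ :=
    fun {v x τ} hv hx hτ hc => pt (R := R) (R₁ := A₁ * s) tgc hv hD hζ hl hP hc hτ a2
      (by positivity) eS (by linarith) (by
        have : _ ≤ infDist x (Bad δ u) := (hb x hx.1).1
        nlinarith) (by linarith [mem_ball_zero_iff.1 hx.2]) l1
  obtain ⟨i1, i2⟩ := side tgc ar hu.ok (c := 9 * (60 * M ^ 2)) (by positivity) cζ g0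
    (hv u (.inl rfl)).1 (hv u (.inl rfl)).2 (S := {w | _}) fun w hw => hw
  obtain ⟨j1, j2⟩ := side tgc ar r1.ok (c := 9 * (60 * M ^ 2)) (by positivity) cζ (r4 ▸ g0)
    (hv (-u) (.inr rfl)).1 (hv (-u) (.inr rfl)).2 (S := {w | _}) fun w hw => hw
  rw [r4] at j2
  have m1 := (slab (ENNReal.measurable_ofReal.comp cφ.measurable) ((A ∩ ball 0 (R / 2)) \ N)
    fun x hx τ hτ => ?_).trans (add_le_add i2 j2)
  · obtain ⟨m2, m3⟩ := cnt (Bad δ u) l K₀ ζ (N.indicator (gn u)) hu.ne hζ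
      (indicator_nonneg fun x _ => g0 x) (r5.aestronglyMeasurable.indicator mN)
      (Eventually.of_forall fun x => by
        by_cases hx : x ∈ N
        · rw [indicator_of_mem hx]; exact hx
        · rw [indicator_of_notMem hx, zero_mul]; exact k0)
    have m4 : ∫⁻ x in N, ENNReal.ofReal (gn u x * ζ x ^ 2) ≤
        ENNReal.ofReal (C₁ * K₀ * Xi (Bad δ u) ζ) := by
      refine le_trans (le_of_eq ?_) (ENNReal.ofReal_le_ofReal m3)
      rw [ofReal_integral_eq_lintegral_ofReal m2 (Eventually.of_forall fun x =>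
        mul_nonneg (indicator_nonneg (fun x _ => g0 x) x) (sq_nonneg _)),
        ← lintegral_indicator mN]
      refine lintegral_congr fun x => ?_
      by_cases hx : x ∈ N <;> simp [hx]
    have x0 : 0 ≤ Xi (Bad δ u) ζ := integral_nonneg fun _ => sq_nonneg _
    have m5 := ((lintegral_mono_set (subset_sdiff_union (A ∩ ball 0 (R / 2)) N)).trans
      (lintegral_union_le _ _ _)).trans (add_le_add m1 m4)
    rw [← ENNReal.ofReal_add (by positivity) (by positivity),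
      ← ENNReal.ofReal_add (by positivity) (by positivity)] at m5
    rw [integral_eq_lintegral_of_nonneg_ae
      (Eventually.of_forall fun x => mul_nonneg (g0 x) (sq_nonneg _)) cφ.aestronglyMeasurable]
    refine (ENNReal.toReal_le_of_le_ofReal (by positivity) m5).trans ?_
    linarith [mul_nonneg (mul_nonneg c0.le k0) (add_nonneg i1 j1),
      mul_nonneg (show 0 ≤ 9 * (60 * M ^ 2) by positivity) x0]
  · obtain ⟨h1, h2⟩ := hb x hx.1.1
    have h3 : 3000 * M * s ≤ β * dd δ u x := by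
      rw [← div_le_iff₀' b0, mul_div_right_comm]; nlinarith
    rcases cov u D x τ (s / M) (M * s) (60 * M * s) (3000 * M * s) hu hD
      (by nlinarith [le_abs_self d₀]) hτ a2 ((div_le_self (by linarith) hM).trans p2)
      (by linarith) (by linarith) h3 h2 with h | h | h
    · exact absurd h hx.2
    · exact .inl (key hu.ok hx.1 hτ h)
    · exact .inr (key r1.ok hx.1 (by rwa [abs_neg]) h)

end Vale.Agent.P134E
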