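import Vale.Agent.P134E.Spec2

/-!
# P134E: the row DST (helper83)
-/

open MeasureTheory Metric Set ContinuousLinearMap
open scoped Convolution
open Vale.Agent.P366.Stmt (E)

namespace Vale.Agent.P134E

theorem dst : DST := by
  intro n B
  let φ : ContDiffBump (0 : E n) := ⟨1 / 2, 1, by norm_num, by norm_num⟩
  have hg : Continuous fun x : E n => infDist x B := continuous_infDist_pt B
  have c1 : ContDiff ℝ 1 (φ.normed volume ⋆[lsmul ℝ ℝ, volume] fun x : E n => infDist x B) :=
    φ.hasCompactSupport_normed.contDiff_convolution_left _ φ.contDiff_normed hg.locallyIntegrable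
  have ds := fun x => φ.dist_normed_convolution_le (μ := volume) (x₀ := x) (ε := 1) hg.aestronglyMeasurable
    fun y hy => ((lipschitz_infDist_pt B).dist_le_mul y x).trans (by simpa using (mem_ball.1 hy).le)
  have ex := fun x => (φ.hasCompactSupport_normed (μ := volume)).convolutionExists_left (μ := volume) (lsmul ℝ ℝ)
    φ.continuous_normed hg.locallyIntegrable x
  have lp : LipschitzWith 1 (φ.normed volume ⋆[lsmul ℝ ℝ, volume] fun x : E n => infDist x B) := by
    refine LipschitzWith.of_le_add fun x y => ?_
    have e : dist x y = ∫ t, φ.normed volume t * dist x y := by rw [integral_mul_const, φ.integral_normed, one_mul]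
    rw [e, convolution_def, convolution_def, ← integral_add (ex y) (φ.integrable_normed.mul_const _)]
    refine integral_mono (ex x) ((ex y).add (φ.integrable_normed.mul_const _)) fun t => ?_
    simp only [lsmul_apply, smul_eq_mul]
    rw [← mul_add, ← dist_sub_right x y t]
    exact mul_le_mul_of_nonneg_left infDist_le_infDist_add_dist (φ.nonneg_normed t)
  refine ⟨fun x => (φ.normed volume ⋆[lsmul ℝ ℝ, volume] fun x : E n => infDist x B) x + 2,
    c1.add contDiff_const, fun x => ?_, fun x => ?_, fun x => ?_⟩
  · linarith [(abs_le.1 (ds x)).1]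
  · linarith [(abs_le.1 (ds x)).2]
  · rw [gradient, LinearIsometryEquiv.norm_map, fderiv_add_const]
    exact norm_fderiv_le_of_lipschitz ℝ lp

end Vale.Agent.P134E
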