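import Vale.Agent.P134E.Spec2

/-!
# P134E, row NRP: the nearest point of a level set
-/

open MeasureTheory Metric Filter Topology Set
open scoped ContDiff RealInnerProductSpace
open Vale.Agent.P366.Stmt (E)

namespace Vale.Agent.P134E

open Vale.Agent.P134B
open Vale.Agent.P134C (Rt dd)

theorem nrp : rNRP := by
  intro seg m C δ
  obtain ⟨K, K1, hK⟩ := seg (m + 1) C 2
  refine ⟨4 * K * C + 1, fun u x τ r h hτ r0 hd hf => ?_⟩
  have ok := h.ok
  have C1 := ok.C1
  set ε := 1 / (4 * K) with hε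
  have e0 : 0 < ε := by positivity
  have e1 : K * ε = 1 / 4 := by rw [hε]; field_simp
  have e2 : K * ε ^ 2 ≤ 1 / 4 := by nlinarith
  have gd : ∀ w, ‖x - w‖ ≤ r + 1 → EE u w ≤ ε ^ 2 := fun w hw => by
    have a : dd δ u x ≤ dd δ u w + dist x w := infDist_le_infDist_add_dist
    rw [dist_eq_norm] at a
    have b : C ≤ ε * dd δ u w := by nlinarith
    by_contra! c
    have d0 : 0 < dd δ u w := (mul_pos_iff_of_pos_left e0).1 (by linarith)
    have := mul_lt_mul_of_pos_right c (pow_pos d0 2)
    nlinarith [h.rt w]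
  have dp := ok.smp.differentiable (by simp)
  have lev : ∀ z, u z = 0 → ‖x - z‖ ≤ r → ∃ w, ps u w = τ ∧ ‖x - w‖ ≤ ‖x - z‖ + 1 := by
    intro z z0 hz
    have p0 : ps u z = 0 := by simp [ps, z0]
    obtain ⟨σ, s1, s2⟩ : ∃ σ : ℝ, |σ| = 1 ∧ σ * τ = |τ| := by
      rcases le_total 0 τ with h | h
      exacts [⟨1, by simp, by rw [abs_of_nonneg h]; ring⟩,
        ⟨-1, by simp, by rw [abs_of_nonpos h]; ring⟩]
    have s3 : σ * σ = 1 := by rw [← abs_mul_abs_self, s1, one_mul]
    have p1 : ‖pp u z‖ ≤ 1 := (sq_le_one_iff₀ (norm_nonneg _)).1 (sub_nonneg.1 (ok.q0 z))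
    have v1 : ‖σ • pp u z‖ ≤ 1 := by rwa [norm_smul, Real.norm_eq_abs, s1, one_mul]
    have nz : ∀ t ∈ Icc (0 : ℝ) 1, ‖x - (z + t • σ • pp u z)‖ ≤ ‖x - z‖ + 1 := fun t ht => by
      rw [← sub_sub]
      refine (norm_sub_le _ _).trans (add_le_add le_rfl ?_)
      rw [norm_smul, Real.norm_of_nonneg ht.1]
      exact mul_le_one₀ ht.2 (norm_nonneg _) v1
    have sg := hK u ε z (σ • pp u z) 1 ok e0 v1 zero_le_one
      (fun t ht => gd _ ((nz t ht).trans (by linarith))) (by
        have : |pe u (σ • pp u z) z| ≤ 1 :=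
          (abs_real_inner_le_norm _ _).trans (mul_le_one₀ p1 (norm_nonneg _) v1)
        rw [p0, abs_zero]
        linarith)
    have dg : ∀ t, HasDerivAt (fun t : ℝ => σ * ps u (z + t • σ • pp u z))
        (σ * ⟪pp u (z + t • σ • pp u z), σ • pp u z⟫) t := fun t => by
      have h1 : HasDerivAt (fun t : ℝ => z + t • σ • pp u z) (σ • pp u z) t := by
        simpa using ((hasDerivAt_id t).smul_const (σ • pp u z)).const_add z
      exact ((dp _).hasGradientAt.hasFDerivAt.comp_hasDerivAt t h1).const_mul σ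
    have cg : Continuous fun t : ℝ => σ * ps u (z + t • σ • pp u z) :=
      continuous_iff_continuousAt.2 fun t => (dg t).continuousAt
    have mv := (convex_Icc 0 1).mul_sub_le_image_sub_of_le_deriv (C := 1 / 2) cg.continuousOn
      (fun t _ => (dg t).differentiableAt.differentiableWithinAt) (fun t ht => by
        have ht := interior_subset ht
        have q0 := (sg 0 (left_mem_Icc.2 zero_le_one)).2
        have h1 := (sg t ht).1
        rw [zero_smul, add_zero, qq] at q0
        rw [(dg t).deriv, real_inner_smul_right, ← mul_assoc, s3, one_mul,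
          ← sub_add_cancel (pp u (z + _)) (pp u z), inner_add_left, real_inner_self_eq_norm_sq]
        have h2 := (abs_le.1 ((abs_real_inner_le_norm _ (pp u z)).trans
          ((mul_le_of_le_one_right (norm_nonneg _) p1).trans h1))).1
        rw [e1] at h2
        linarith [ht.2])
      0 (left_mem_Icc.2 zero_le_one) 1 (right_mem_Icc.2 zero_le_one) zero_le_one
    simp only [zero_smul, add_zero, p0] at mv
    obtain ⟨t, ht, h0⟩ := intermediate_value_Icc zero_le_one cg.continuousOn
      (show σ * τ ∈ _ from ⟨by simp only [zero_smul, add_zero, s2, p0]; simp, by linarith⟩)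
    exact ⟨_, mul_left_cancel₀ (by rintro rfl; simp at s1) h0, nz t ht⟩
  obtain ⟨z, hz, z0⟩ : ∃ z ∈ ball x r, u z = 0 := by
    by_contra! hn
    linarith [ok.dec x r r0 hn]
  rw [mem_ball_iff_norm'] at hz
  obtain ⟨w, w0, w1⟩ := lev z z0 hz.le
  obtain ⟨y, y0, hy⟩ := (isClosed_eq dp.continuous continuous_const).exists_infDist_eq_dist
    ⟨w, w0⟩ x
  have y1 : ps u y = τ := y0
  have hm : ∀ w, ps u w = τ → ‖x - y‖ ≤ ‖x - w‖ := fun w hw => by
    rw [← dist_eq_norm, ← dist_eq_norm, ← hy]
    exact infDist_le_dist_of_mem hw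
  have y2 : ‖x - y‖ ≤ r + 1 := by linarith [hm w w0]
  have p0 : pp u y ≠ 0 := fun e => by
    have := (hK u ε y 0 0 ok e0 (by simp) le_rfl (fun t _ => by simpa using gd y y2)
      (by rw [y1]; linarith) 0 (left_mem_Icc.2 le_rfl)).2
    simp only [zero_smul, add_zero, qq, e] at this
    norm_num at this
    linarith
  have n1 : ‖P134C.nu u y‖ = 1 := norm_smul_inv_norm p0
  obtain ⟨t, ht⟩ : ∃ t : ℝ, x = y + t • P134C.nu u y := by
    have ex : IsLocalExtrOn (fun w => ‖w - x‖ ^ 2) {w | ps u w = ps u y} y :=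
      Or.inl (IsMinOn.localize fun w hw => by
        have := hm w (hw.trans y1)
        simp only [mem_ofPred_eq, norm_sub_rev _ x]
        gcongr)
    obtain ⟨a, b, ab, e⟩ := ex.exists_multipliers_of_hasStrictFDerivAt_1d
      (ok.smp.contDiffAt.hasStrictFDerivAt' (dp y).hasGradientAt.hasFDerivAt (by simp))
      ((hasStrictFDerivAt_norm_sq (y - x)).comp y ((hasStrictFDerivAt_id y).sub_const x))
    have e' : a • pp u y + (2 * b) • (y - x) = 0 := by
      refine ext_inner_right ℝ fun v => ?_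
      have := congrArg (fun L => L v) e
      simp only [inner_add_left, inner_smul_left, inner_zero_left]
      simpa [pp, mul_assoc, mul_left_comm, inner_sub_left] using this
    have b0 : b ≠ 0 := by
      rintro rfl
      simp [p0] at e' ab
      exact ab e'
    refine ⟨a / (2 * b) * ‖pp u y‖, ?_⟩
    rw [P134C.nu, mul_smul, smul_inv_smul₀ (norm_ne_zero_iff.2 p0), div_eq_inv_mul, mul_smul,
      eq_neg_of_add_eq_zero_left e', smul_neg, inv_smul_smul₀ (by positivity)]
    abel
  have nt : ∀ s : ℝ, ‖x - (y + s • P134C.nu u y)‖ = |t - s| := fun s => by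
    rw [ht, add_sub_add_left_eq_sub, ← sub_smul, norm_smul, n1, mul_one, Real.norm_eq_abs]
  have t0 : ‖x - y‖ = |t| := by simpa using nt 0
  refine ⟨y, t, y1, ⟨ht, y1 ▸ hτ, by linarith, fun s hs e => ?_⟩, ?_⟩
  · have := hm _ (e.trans y1)
    rw [nt, t0] at this
    rw [uIoo_eq_union] at hs
    rcases hs with c | c
    · rw [abs_of_pos (by linarith [c.1, c.2]), abs_of_pos (by linarith [c.2])] at this
      linarith [c.1]
    · rw [abs_of_neg (by linarith [c.1, c.2]), abs_of_neg (by linarith [c.1])] at this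
      linarith [c.2]
  · refine (ok.dec x (max (|t| - 2) 0) (le_max_right _ _) fun z hz z0 => ?_).trans ?_
    · rw [mem_ball_iff_norm', lt_max_iff] at hz
      have hz := hz.resolve_right (norm_nonneg _).not_gt
      obtain ⟨w, w0, w1⟩ := lev z z0 (by linarith)
      linarith [hm w w0]
    · gcongr
      exact le_max_left _ _

end Vale.Agent.P134E
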