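import Vale.Agent.P134E.Spec2

/-!
# P134E, row RET: below a long gap the slope is large
-/

open Set

noncomputable section

namespace Vale.Agent.P134E

open Vale.Agent.P134B

/-- a linear barrier -/
theorem Ret.fence {f f' : ℝ → ℝ} {a b c k : ℝ} (hf : ∀ x, HasDerivAt f (f' x) x) (ha : f a ≤ c)
    (h : ∀ x ∈ Ico a b, f x = c + k * (x - a) → f' x < k) :
    ∀ x ∈ Icc a b, f x ≤ c + k * (x - a) :=
  image_le_of_deriv_right_lt_deriv_boundary (B := fun x => c + k * (x - a)) (B' := fun _ => k)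
    (fun x _ => (hf x).continuousAt.continuousWithinAt) (fun x _ => (hf x).hasDerivWithinAt)
    (by simpa using ha)
    (fun x => by simpa using (((hasDerivAt_id x).sub_const a).const_mul k).const_add c) h

/-- row RET -/
theorem ret : rRET := by
  intro col ε δ T t₁ ψ s d q u f L h0 hT hu t ht
  by_contra hs
  have hs := (not_le.1 hs).le
  have d1 := L.d1
  have t0 : 0 < t := ht.1.lt_of_ne fun e => by
    rw [← e] at hs
    linarith [L.s0]
  have r : ∀ x, t ≤ x → x ≤ 3 * t₁ + 100 → |s x| ≤ 19 / 20 → d x < -(1 / 20) := fun x h1 h2 h3 => by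
    obtain ⟨a, -, -, b⟩ := (col ε δ T 0 ψ s d q u f L (by norm_num) (by norm_num)).2.1 x
      (abs_le.2 ⟨by linarith, by linarith⟩) h3
    have b := b (hu x ⟨by linarith, h2⟩)
    have c : (13 / 10 : ℝ) ≤ √2 := Real.le_sqrt_of_sq_le (by norm_num)
    nlinarith
  have t1 := ht.2
  have a1 := Ret.fence (a := t) (b := t + 28) (k := -(1 / 20)) L.ds hs (fun x hx e =>
    r x hx.1 (by linarith [hx.2]) (abs_le.2 ⟨by linarith [hx.2], by linarith [hx.1]⟩)) (t + 28)
    ⟨by linarith, le_rfl⟩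
  have a2 := Ret.fence (a := t + 28) (b := 3 * t₁ + 100) (c := -(9 / 10)) (k := 0) L.ds
    (by linarith) fun x hx e => (r x (by linarith [hx.1]) hx.2.le
      (abs_le.2 ⟨by linarith, by linarith⟩)).trans (by norm_num)
  have a3 := Ret.fence (a := 0) (b := t + 28) (k := 11 / 10) L.dψ L.ψ0.le (fun x _ _ => by
    nlinarith [L.sq x, L.q0 x]) (t + 28) ⟨by linarith, le_rfl⟩
  have a4 := Ret.fence (a := t + 28) (b := 3 * t₁ + 100) (k := -(4 / 5)) L.dψ a3
    (fun x hx _ => by linarith [a2 x (Ico_subset_Icc_self hx)]) (3 * t₁ + 100)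
    ⟨by linarith, le_rfl⟩
  have a5 : ψ (3 * t₁ + 100) / √2 < 0 := div_neg_of_neg_of_pos (by linarith) (by positivity)
  have a6 := hu (3 * t₁ + 100) ⟨by linarith, le_rfl⟩
  rw [L.th, Real.tanh_eq_sinh_div_cosh] at a6
  exact a6.not_gt (div_neg_of_neg_of_pos (Real.sinh_neg_iff.2 a5) (Real.cosh_pos _))

end Vale.Agent.P134E
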