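import Vale.Agent.P134E.Spec2
import Vale.Agent.P134E.TE0

/-!
# P134E: the inequality in the tube, with the continuity of the weight
-/

namespace Vale.Agent.P134E

theorem te1 : rTE1 := te01

end Vale.Agent.P134E
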