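import Vale.Agent.P134E.Spec2

/-!
# P134E: the statement `P134C.TE` from the inequality in the tube
-/

set_option linter.unusedVariables false

open MeasureTheory Metric Filter Topology Set
open scoped ContDiff RealInnerProductSpace
open Vale.Agent.P366.Stmt (E)

noncomputable section

namespace Vale.Agent.P134E

open Vale.Agent.P134B
open Vale.Agent.P134C (Wt Bad Xi Rt dd Bd CNT CNR)

namespace TEFx

theorem ff_sq {n : ℕ} {C : ℝ} {u : E n → ℝ} (h : Ok C u) (x : E n) : ff u x ^ 2 ≤ 1 := by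
  have h1 : u x ^ 2 ≤ 1 := (sq_le_one_iff_abs_le_one _).2 (h.lt x).le
  rw [ff, div_pow, Real.sq_sqrt zero_le_two, div_le_one two_pos]
  nlinarith [sq_nonneg (u x)]

theorem int {n : ℕ} {g ζ : E n → ℝ} {l B : ℝ} (hζ : Wt l ζ) (hg : Continuous g)
    (hb : ∀ x, 0 ≤ g x ∧ g x ≤ B) : Integrable fun x => g x * ζ x ^ 2 := by
  refine (hζ.int.const_mul B).mono' (hg.mul (hζ.sm.continuous.pow 2)).aestronglyMeasurable
    (Eventually.of_forall fun x => ?_)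
  have h1 := hζ.pos x
  rw [Real.norm_of_nonneg (mul_nonneg (hb x).1 (sq_nonneg _))]
  exact mul_le_mul (hb x).2 (by nlinarith [hζ.le x]) (sq_nonneg _) ((hb x).1.trans (hb x).2)

/-- the limit of large balls -/
theorem lim {n : ℕ} {f : E n → ℝ} {A : Set (E n)} (hf : Integrable f) (hA : MeasurableSet A)
    {a b R₀ : ℝ} (h : ∀ R, R₀ ≤ R → ∫ x in A ∩ ball 0 (R / 2), f x ≤ a + b / R ^ 2) :
    ∫ x in A, f x ≤ a := by
  have h1 := tendsto_setIntegral_of_monotone (μ := volume) (f := f)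
    (s := fun R : ℝ => A ∩ ball 0 (R / 2)) (fun R => hA.inter measurableSet_ball)
    (fun R R' hR => inter_subset_inter_right _ (ball_subset_ball (by linarith))) hf.integrableOn
  have h2 : ⋃ R : ℝ, A ∩ ball (0 : E n) (R / 2) = A := by
    refine Subset.antisymm (iUnion_subset fun R => inter_subset_left) fun x hx => ?_
    exact mem_iUnion.2 ⟨2 * (‖x‖ + 1), hx, mem_ball_zero_iff.2 (by linarith)⟩
  rw [h2] at h1
  have h3 : Tendsto (fun R : ℝ => a + b / R ^ 2) atTop (𝓝 (a + 0)) :=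
    ((tendsto_pow_atTop two_ne_zero).const_div_atTop b).const_add a
  rw [add_zero] at h3
  exact le_of_tendsto_of_tendsto h1 h3 ((eventually_ge_atTop R₀).mono h)

theorem pw {K s : ℝ} (hK : 0 ≤ K) (h1 : 1 ≤ s) (h : K ^ 5 ≤ s) :
    1 ≤ s ^ (21 / 5 : ℝ) ∧ K * s ^ (21 / 5 : ℝ) ≤ s ^ (22 / 5 : ℝ) := by
  have s0 : 0 < s := by linarith
  refine ⟨Real.one_le_rpow h1 (by norm_num), ?_⟩
  rw [show (22 / 5 : ℝ) = ((5 : ℕ) : ℝ)⁻¹ + 21 / 5 by norm_num, Real.rpow_add s0]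
  refine mul_le_mul_of_nonneg_right ?_ (by positivity)
  rw [← Real.pow_rpow_inv_natCast hK (by norm_num : (5 : ℕ) ≠ 0)]
  exact Real.rpow_le_rpow (by positivity) h (by positivity)

end TEFx

open TEFx

theorem tef : rTEF := by
  intro prs dst thn te1 cost covi C δ u hu
  refine ⟨21, by norm_num, fun M hM => ?_⟩
  obtain ⟨Kf, hKf, g₀, -, hP⟩ := prs
  obtain ⟨K1, hK1, β, hβ, T⟩ := te1 6 C Kf g₀ hKf
  obtain ⟨A, hA, K2, hK2, s2, Co⟩ := cost C δ Kf M β hKf hM hβ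
  obtain ⟨K3, hK3, s3, Cv⟩ := covi C δ M A hM hA
  obtain ⟨D, hD⟩ := dst 7 (Bad δ u)
  refine ⟨max (max s2 s3) (max 1 ((K3 * (2 * K1 * K2 + 1)) ^ 5)), fun s hs => ?_⟩
  simp only [ge_iff_le, max_le_iff] at hs
  obtain ⟨⟨hs2, hs3⟩, hs1, hs5⟩ := hs
  obtain ⟨l2, hl2, Co⟩ := Co s hs2
  obtain ⟨l3, hl3, R₀, Cv⟩ := Cv s hs3
  refine ⟨min l2 l3, lt_min hl2 hl3, fun l ζ B hl hl0 hζ hB hBd => ?_⟩
  have hMs : 1 ≤ M * s := one_le_mul_of_one_le_of_one_le hM hs1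
  obtain ⟨F, Θ, hF⟩ := hP (60 * M * s) (3000 * M * s) (by linarith) (by linarith)
  obtain ⟨-, -, -, hu', hb', -, -, gc, gb⟩ := thn 7 C δ u D hu hD
  obtain ⟨p1, p2⟩ := pw (K := K3 * (2 * K1 * K2 + 1)) (by positivity) hs1 hs5
  have X0 : 0 ≤ Xi (Bad δ u) ζ := integral_nonneg fun x => sq_nonneg _
  have io0 : 0 ≤ io Kf (60 * M * s) (3000 * M * s) := by
    unfold io
    positivity
  have key : ∀ v, Rt C δ v → Bad δ v = Bad δ u → ∀ R, 1 ≤ R →
      Continuous (fun z => xi v (ee C D) (zt v D ζ (A * s) R) (3000 * M * s) F z ^ 2 *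
        st (2 * sv v (3000 * M * s) z)) ∧
      Integrable (fun z => et v (zt v D ζ (A * s) R) (3000 * M * s) F z.1 ^ 2 *
        gy v (ee C D) (3000 * M * s) z) ∧
      ∫ z, et v (zt v D ζ (A * s) R) (3000 * M * s) F z.1 ^ 2 * gy v (ee C D) (3000 * M * s) z ≤
        K1 * (K2 * (s ^ (21 / 5 : ℝ) * Xi (Bad δ u) ζ + (∫ y, ζ y) / R ^ 2)) := by
    intro v hv hb R hR
    obtain ⟨c1, c2⟩ := Co v D ζ l g₀ R F Θ hv (hb ▸ hD) hl (hl0.trans (min_le_left _ _)) hζ hR hF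
    obtain ⟨t1, t2, t3⟩ := T v _ _ _ _ _ F Θ hv.ok hv.st (by linarith) io0 hF c1
    rw [hb] at c2
    exact ⟨t1, t2, t3.trans (mul_le_mul_of_nonneg_left c2 hK1)⟩
  refine le_trans (lim (f := fun x => gn u x * ζ x ^ 2) (R₀ := max 1 R₀)
    (a := K3 * (2 * K1 * K2 * s ^ (21 / 5 : ℝ) + 1) * Xi (Bad δ u) ζ)
    (b := K3 * (2 * K1 * K2 * ∫ y, ζ y))
    (int (B := 1 + (7 : ℕ) * C ^ 2) hζ gc fun x => ⟨(gb x).1, (gb x).2.trans
      (mul_le_of_le_one_right (by positivity) (ff_sq hu.ok x))⟩) hB fun R hR => ?_) ?_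
  · obtain ⟨a1, a2, a3⟩ := key u hu rfl R ((le_max_left _ _).trans hR)
    obtain ⟨b1, b2, b3⟩ := key (-u) hu' hb' R ((le_max_left _ _).trans hR)
    refine (Cv u D ζ l Kf _ g₀ R F Θ B hu hD hl (hl0.trans (min_le_right _ _)) hζ
      ((le_max_right _ _).trans hR) hF hB hBd fun v hv => ?_).trans ?_
    · rcases hv with rfl | rfl
      exacts [⟨a1, a2⟩, ⟨b1, b2⟩]
    · refine (mul_le_mul_of_nonneg_left (add_le_add_left (add_le_add a3 b3) _) hK3).trans_eq ?_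
      ring
  · refine mul_le_mul_of_nonneg_right (le_trans ?_ p2) X0
    nlinarith [mul_le_mul_of_nonneg_left p1 hK3]

end Vale.Agent.P134E
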