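import Vale.Agent.P134E.Spec2

/-!
# P134E: the rate gives the thin region
-/

set_option linter.unusedVariables false

open MeasureTheory Metric Filter Topology Set
open scoped ContDiff RealInnerProductSpace
open Vale.Agent.P366.Stmt (E)

noncomputable section

namespace Vale.Agent.P134E

open Vale.Agent.P134B
open Vale.Agent.P134C (Bad Rt dd)

theorem thn : rTHN := by
  intro sym cvq n C δ u D h hD
  obtain ⟨⟨-, s2, -, s4, s5, s6⟩, s7, s8, -⟩ := sym.1 n u
  obtain ⟨c1, c2, -⟩ := cvq n C u h.ok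
  have C1 := h.ok.C1
  have D1 : ∀ y, 1 ≤ D y := fun y => by linarith [hD.lo y, infDist_nonneg (x := y) (s := Bad δ u)]
  have D0 : ∀ y, 0 < D y := fun y => one_pos.trans_le (D1 y)
  have e0 : ∀ y, 0 < ee C D y := fun y => div_pos (by linarith) (D0 y)
  have b : Bad δ (-u) = Bad δ u := by unfold Bad; rw [s6]
  have d : dd δ (-u) = dd δ u := by unfold dd; rw [b]
  refine ⟨contDiff_const.div hD.c1 fun y => (D0 y).ne', fun y => ⟨e0 y, ?_⟩,
    fun G y hG hy h3 => ⟨e0 y, fun w hw => ?_, hy, hG⟩,
    ⟨s7 C h.ok, s8 h.st, h.d0, b ▸ h.ne, fun x => by rw [s6, d]; exact h.rt x⟩, b, d,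
    funext fun x => by simp [gn, PP, hs, s2, s4, s5], ?_, fun x => ?_⟩
  · have k := (((hasDerivAt_inv (D0 y).ne').const_mul (16 * C)).comp_hasFDerivAt y
      (hD.c1.differentiable one_ne_zero y).hasFDerivAt).fderiv
    have g := hD.gr y
    rw [gradient, LinearIsometryEquiv.norm_map] at g ⊢
    rw [show ee C D = (fun t => 16 * C * t⁻¹) ∘ D from rfl, k, norm_smul, Real.norm_eq_abs,
      mul_neg, abs_neg, abs_of_nonneg (by positivity)]
    refine (mul_le_of_le_one_right (by positivity) g).trans ?_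
    exact mul_le_mul_of_nonneg_left (inv_anti₀ (D0 y) (by nlinarith [D1 y])) (by linarith)
  · have h1 : D y ≤ 2 * dd δ u y := by linarith [hD.hi y, show dd δ u y = infDist y _ from rfl]
    have h2 : 4 / ee C D y ≤ dd δ u y / 2 := by
      rw [ee, div_div_eq_mul_div, div_le_iff₀ (by linarith)]
      nlinarith
    have h4 : D y / 4 ≤ dd δ u w := by
      have := infDist_le_infDist_add_dist (x := y) (y := w) (s := Bad δ u)
      rw [mem_ball, dist_comm] at hw
      unfold dd at *
      linarith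
    have E0 : 0 ≤ EE u w := mul_nonneg (sq_nonneg _) (h.ok.q0 w)
    have h5 := mul_le_mul_of_nonneg_left (pow_le_pow_left₀ (by linarith [D0 y]) h4 2) E0
    rw [ee, div_pow, le_div_iff₀ (pow_pos (D0 y) 2)]
    nlinarith [h.rt w]
  · have p : ContDiff ℝ ∞ (pp u) := (InnerProductSpace.toDual ℝ (E n)).symm.contDiff.comp
      (h.ok.smp.fderiv_right (m := ∞) (by simp))
    have S : Continuous (SS u) := p.continuous_fderiv (by simp)
    have := h.ok.sm.continuous
    have := c1.continuous
    unfold gn PP hs ff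
    fun_prop
  · obtain ⟨q1, p0, p1, h0, h1, -⟩ := c2 x
    refine ⟨mul_nonneg (sq_nonneg _) (add_nonneg p0 h0), ?_⟩
    rw [mul_comm]
    exact mul_le_mul_of_nonneg_left (add_le_add p1 (h1.trans
      (mul_le_of_le_one_right (by positivity) q1))) (sq_nonneg _)

end Vale.Agent.P134E
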