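import Vale.Agent.P134E.All0
import Vale.Agent.P134E.TE1
import Vale.Agent.P134E.TEF
import Vale.Agent.P134E.COVI
import Vale.Agent.P134E.DST
import Vale.Agent.P134E.NRP
import Vale.Agent.P134E.RET
import Vale.Agent.P134E.THN
import Vale.Agent.P134C.Ker

/-!
# P134E: the test on the tubes from the last rows
-/

namespace Vale.Agent.P134E

open Vale.Agent.P134B All0

theorem thn' : THN := thn sym cvq

theorem te_of (pck : rPCK) (cost : rCOST) (cov : rCOV) : P134C.TE :=
  tef prs dst thn' (feed te1)
    (cost tgc greg' ray0' ray1' low' thn' (pck tgc greg' foot' slab') P134C.cnt P134C.cnr)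
    (covi tgc sym ar' thn' P134C.cnt
      (cov tgc sym greg' ray' raya' ray0' rayf' low' regw' thn' (ret col) (nrp seg)))

end Vale.Agent.P134E
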