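import Vale.Agent.P134E.Spec2
import Vale.Agent.P134T.Calc

/-!
# P134E: the right-hand side of the inequality in the tube
-/

set_option linter.unusedVariables false

open MeasureTheory Metric Filter Topology Set
open scoped ContDiff RealInnerProductSpace
open Vale.Agent.P366.Stmt (E)

noncomputable section

namespace Vale.Agent.P134E

open Vale.Agent.P134B Vale.Agent.P134T
open Vale.Agent.P134C (Wt Bad Xi Rt dd Bd CNT CNR)

namespace Cost

variable {n : ℕ} {C R₁ R l : ℝ} {u D ζ : E n → ℝ} {B : Set (E n)}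

theorem pj (tgc : TGC) (h : Ok C u) (y : E n) :
    (∀ v, ‖Pj u y v‖ ≤ ‖v‖) ∧ Pj u y (pp u y) = 0 := by
  by_cases hp : pp u y = 0
  · refine ⟨fun v => ?_, by rw [hp, map_zero]⟩
    simp [Pj, nu, hp]
  · obtain ⟨-, -, -, -, -, -, h0, h1, -⟩ := (tgc n C u h).2.2.2.1 y hp
    refine ⟨fun v => (h1 v).1, ?_⟩
    have e : pp u y = ‖pp u y‖ • nu u y := by
      unfold nu
      rw [smul_smul, mul_inv_cancel₀ (norm_ne_zero_iff.2 hp), one_smul]
    rw [e, map_smul, h0, smul_zero]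

/-- the closed set which carries the cut-off -/
def TT (u D : E n → ℝ) (R₁ R : ℝ) : Set (E n) :=
  {y | |ps u y| ≤ 1 ∧ R₁ ≤ D y ∧ ‖y‖ ≤ 2 * R}

theorem TT_cl (h : Ok C u) (d : Ds B D) : IsClosed (TT u D R₁ R) :=
  (isClosed_le h.smp.continuous.abs continuous_const).inter
    ((isClosed_le continuous_const d.c1.continuous).inter
      (isClosed_le continuous_norm continuous_const))

theorem far (hR : 0 < R) {y : E n} (hy : 2 * R ≤ ‖y‖) : 2 - ‖y‖ ^ 2 / R ^ 2 ≤ 0 := by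
  rw [sub_nonpos, le_div_iff₀ (by positivity)]
  nlinarith

theorem zt_zero (h1 : 0 < R₁) (hR : 0 < R) {y : E n} (hy : y ∉ TT u D R₁ R) :
    zt u D ζ R₁ R y = 0 := by
  unfold zt
  rcases not_and_or.1 hy with a | a
  · rw [bp_zero (by rw [abs_mul, abs_two]; linarith [not_le.1 a])]; ring
  rcases not_and_or.1 a with a | a
  · have : D y / R₁ ≤ 1 := (div_le_one h1).2 (not_le.1 a).le
    rw [st_zero (show D y / R₁ - 1 ≤ 0 by linarith)]; ring
  · rw [st_zero (far hR (not_le.1 a).le)]; ring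

theorem ts (h : Ok C u) (d : Ds B D) (h1 : 0 < R₁) (hR : 0 < R) :
    tsupport (zt u D ζ R₁ R) ⊆ TT u D R₁ R :=
  closure_minimal (fun y hy => by_contra fun k => hy (zt_zero h1 hR k)) (TT_cl h d)

theorem zt_sq (w : Wt l ζ) (y : E n) : zt u D ζ R₁ R y ^ 2 ≤ ζ y ^ 2 := by
  have a := mul_le_one₀ (bp_le (2 * ps u y)) (st_nn (D y / R₁ - 1)) (st_le _)
  have a0 := mul_nonneg (bp_nn (2 * ps u y)) (st_nn (D y / R₁ - 1))
  have z := (w.pos y).le
  refine pow_le_pow_left₀ (mul_nonneg (mul_nonneg a0 z) (st_nn _)) ?_ 2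
  exact (mul_le_of_le_one_right (mul_nonneg a0 z) (st_le _)).trans (mul_le_of_le_one_left z a)

theorem ca (h : Ok C u) : ContDiff ℝ 1 fun y => bp (2 * ps u y) :=
  (bp_cd (k := 1)).comp (contDiff_const.mul (h.smp.of_le (by simp)))

theorem cb (d : Ds B D) : ContDiff ℝ 1 fun y => st (D y / R₁ - 1) :=
  (st_cd (k := 1)).comp ((d.c1.div_const _).sub contDiff_const)

theorem cc : ContDiff ℝ 1 fun y : E n => st (2 - ‖y‖ ^ 2 / R ^ 2) :=
  (st_cd (k := 1)).comp (contDiff_const.sub ((contDiff_norm_sq ℝ).div_const _))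

theorem zt_cd (h : Ok C u) (d : Ds B D) (w : Wt l ζ) : ContDiff ℝ 1 (zt u D ζ R₁ R) :=
  (((ca h).mul (cb d)).mul (w.sm.of_le (by simp))).mul cc

theorem zt_cs (h1 : 0 < R₁) (hR : 0 < R) : HasCompactSupport (zt u D ζ R₁ R) :=
  HasCompactSupport.intro (isCompact_closedBall 0 (2 * R)) fun y hy =>
    zt_zero h1 hR fun k => hy (mem_closedBall_zero_iff.2 k.2.2)

theorem gb (d : Ds B D) (h1 : 0 < R₁) {K : ℝ} (hK : ∀ x, |deriv st x| ≤ K) (y : E n) :
    ‖gradient (fun y => st (D y / R₁ - 1)) y‖ ≤ {y | D y ≤ 2 * R₁}.indicator (fun _ => K / R₁) y := by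
  have dD := d.c1.differentiable (by simp) y
  have hd : HasDerivAt (fun t => st (t / R₁ - 1)) (deriv st (D y / R₁ - 1) * (1 / R₁)) (D y) :=
    (st_hd _).comp (D y) (((hasDerivAt_id _).div_const R₁).sub_const 1)
  rw [grad_comp hd dD, norm_smul, Real.norm_eq_abs]
  by_cases k : y ∈ {y | D y ≤ 2 * R₁}
  · rw [indicator_of_mem k, abs_mul, abs_of_pos (one_div_pos.2 h1)]
    refine (mul_le_of_le_one_right (by positivity) (d.gr y)).trans ?_
    rw [mul_one_div]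
    exact div_le_div_of_nonneg_right (hK _) h1.le
  · have : 2 ≤ D y / R₁ := by rw [le_div_iff₀ h1]; exact (not_le.1 k).le
    rw [indicator_of_notMem k, dst_hi (by linarith)]
    simp

theorem gc (hR : 0 < R) {K : ℝ} (hK : ∀ x, |deriv st x| ≤ K) {y : E n} (hy : ‖y‖ ≤ 2 * R) :
    ‖gradient (fun y : E n => st (2 - ‖y‖ ^ 2 / R ^ 2)) y‖ ≤ 4 * K / R := by
  have hd : HasDerivAt (fun t => st (2 - t / R ^ 2))
      (deriv st (2 - ‖y - 0‖ ^ 2 / R ^ 2) * -(1 / R ^ 2)) (‖y - 0‖ ^ 2) :=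
    (st_hd _).comp (‖y - 0‖ ^ 2) (((hasDerivAt_id _).div_const (R ^ 2)).const_sub 2)
  have := grad_comp (f := fun y : E n => ‖y - 0‖ ^ 2) hd
    ((cd_nsq (k := 1) 0).differentiable (by simp) y)
  rw [grad_nsq] at this
  simp only [sub_zero] at this
  rw [this, norm_smul, norm_smul, Real.norm_eq_abs, abs_mul, abs_neg,
    abs_of_pos (show 0 < 1 / R ^ 2 by positivity), Real.norm_ofNat]
  have K0 : 0 ≤ K := (abs_nonneg _).trans (hK 0)
  calc _ ≤ K * (1 / R ^ 2) * (2 * (2 * R)) := by gcongr; exact hK _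
    _ = _ := by field_simp; ring

theorem gz (tgc : TGC) (h : Ok C u) (d : Ds B D) (w : Wt l ζ) (h1 : 0 < R₁) (hR : 0 < R) {K : ℝ}
    (hK : ∀ x, |deriv st x| ≤ K) (y : E n) :
    ‖Pj u y (gradient (zt u D ζ R₁ R) y)‖ ≤ (TT u D R₁ R).indicator (fun y =>
      ({y | D y ≤ 2 * R₁}.indicator (fun _ => K / R₁) y + l + 4 * K / R) * ζ y) y := by
  by_cases k : y ∈ TT u D R₁ R
  swap
  · rw [indicator_of_notMem k]
    have : zt u D ζ R₁ R =ᶠ[𝓝 y] fun _ => 0 := by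
      filter_upwards [(TT_cl h d).isOpen_compl.mem_nhds k] with x hx using zt_zero h1 hR hx
    rw [this.gradient_eq, grad_const, map_zero, norm_zero]
  rw [indicator_of_mem k]
  have da := (ca h).differentiable (by simp) y
  have db := (cb (R₁ := R₁) d).differentiable (by simp) y
  have dc := (cc (n := n) (R := R)).differentiable (by simp) y
  have dz := w.sm.differentiable (by simp) y
  have hd : HasDerivAt (fun t => bp (2 * t)) (deriv bp (2 * ps u y) * (2 * 1)) (ps u y) :=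
    (bp_hd _).comp (ps u y) ((hasDerivAt_id _).const_mul 2)
  have ga : gradient (fun y => bp (2 * ps u y)) y = (deriv bp (2 * ps u y) * (2 * 1)) • pp u y :=
    grad_comp hd (h.smp.differentiable (by simp) y)
  have e : zt u D ζ R₁ R = fun y => bp (2 * ps u y) *
      (st (D y / R₁ - 1) * (ζ y * st (2 - ‖y‖ ^ 2 / R ^ 2))) := funext fun y => by unfold zt; ring
  obtain ⟨p1, p2⟩ := pj tgc h y
  rw [e, grad_mul da (db.fun_mul (dz.fun_mul dc)), ga, map_add, map_smul, map_smul, map_smul, p2, smul_zero,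
    smul_zero, add_zero, norm_smul, Real.norm_of_nonneg (bp_nn _)]
  refine (mul_le_of_le_one_left (norm_nonneg _) (bp_le _)).trans ((p1 _).trans ?_)
  have z := (w.pos y).le
  rw [grad_mul db (dz.fun_mul dc), grad_mul dz dc]
  refine (norm_add_le _ _).trans ?_
  rw [norm_smul, norm_smul, Real.norm_of_nonneg (st_nn _),
    Real.norm_of_nonneg (mul_nonneg z (st_nn _))]
  have b1 := mul_le_mul (mul_le_of_le_one_right z (st_le (2 - ‖y‖ ^ 2 / R ^ 2))) (gb d h1 hK y)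
    (norm_nonneg _) z
  have b2 := norm_add_le (ζ y • gradient (fun y : E n => st (2 - ‖y‖ ^ 2 / R ^ 2)) y)
    (st (2 - ‖y‖ ^ 2 / R ^ 2) • gradient ζ y)
  rw [norm_smul, norm_smul, Real.norm_of_nonneg z, Real.norm_of_nonneg (st_nn _)] at b2
  have b3 := mul_le_mul_of_nonneg_left (gc hR hK k.2.2) z
  have b4 := (mul_le_of_le_one_left (norm_nonneg (gradient ζ y))
    (st_le (2 - ‖y‖ ^ 2 / R ^ 2))).trans (w.d1 y)
  have b5 := mul_le_of_le_one_left (norm_nonneg (ζ y • gradient (fun y : E n =>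
    st (2 - ‖y‖ ^ 2 / R ^ 2)) y + st (2 - ‖y‖ ^ 2 / R ^ 2) • gradient ζ y)) (st_le (D y / R₁ - 1))
  linarith

/-- the three terms, pointwise -/
theorem pw {Kf ι g₀ S G K g v z : ℝ} {F Θ : ℝ → ℝ} {i₁ i₂ : Prop} [Decidable i₁] [Decidable i₂]
    (P : Pf Kf ι g₀ S G F Θ) (hK : 0 ≤ Kf) (hS : 0 < S) (hG : G = 50 * S) (g2 : 2 ≤ g)
    (gG : g ≤ G) (v0 : 0 ≤ v)
    (hv : v ≤ if i₁ then ((if i₂ then K / R₁ else 0) + l + 4 * K / R) * z else 0) :
    F g ^ 2 ≤ 50 * Kf ∧ F g ^ 2 * v ^ 2 ≤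
      3 * Kf * (K / R₁) ^ 2 / S ^ (4 / 5 : ℝ) * ((if i₁ ∧ i₂ then g ^ (4 / 5 : ℝ) else 0) * z ^ 2) +
      150 * Kf * l ^ 2 * ((if i₁ ∧ g < G then 1 else 0) * z ^ 2) +
      150 * Kf * (4 * K) ^ 2 / R ^ 2 * z ^ 2 := by
  have u1 := P.up g (by linarith)
  have u2 : F g ^ 2 ≤ 50 * Kf := by
    have a : g / S ≤ 50 := by rw [div_le_iff₀ hS]; linarith
    have b : (g / S) ^ (4 / 5 : ℝ) ≤ 50 := by
      refine (Real.rpow_le_rpow (by positivity) a (by norm_num)).trans ?_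
      exact (Real.rpow_le_rpow_of_exponent_le (by norm_num) (by norm_num : (4 / 5 : ℝ) ≤ 1)).trans_eq
        (Real.rpow_one _)
    nlinarith
  refine ⟨u2, ?_⟩
  have g0 : 0 ≤ g := by linarith
  by_cases k3 : g < G
  swap
  · rw [(P.ze g (by linarith [not_lt.1 k3])).1]
    have : (0 : ℝ) ^ 2 * v ^ 2 = 0 := by ring
    rw [this]
    positivity
  by_cases k1 : i₁
  swap
  · rw [if_neg k1] at hv
    rw [le_antisymm hv v0]
    have : F g ^ 2 * (0 : ℝ) ^ 2 = 0 := by ring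
    rw [this]
    positivity
  rw [if_pos k1] at hv
  rw [if_pos (⟨k1, k3⟩ : i₁ ∧ g < G)]
  set a := (if i₂ then K / R₁ else 0) with ha
  have b1 : v ^ 2 ≤ 3 * (a * z) ^ 2 + 3 * (l * z) ^ 2 + 3 * (4 * K / R * z) ^ 2 := by
    have := pow_le_pow_left₀ v0 hv 2
    nlinarith [sq_nonneg (a * z - l * z), sq_nonneg (a * z - 4 * K / R * z),
      sq_nonneg (l * z - 4 * K / R * z)]
  have b2 : F g ^ 2 * (3 * (a * z) ^ 2) ≤ 3 * Kf * (K / R₁) ^ 2 / S ^ (4 / 5 : ℝ) *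
      ((if i₁ ∧ i₂ then g ^ (4 / 5 : ℝ) else 0) * z ^ 2) := by
    by_cases k2 : i₂
    · rw [ha, if_pos k2, if_pos (⟨k1, k2⟩ : i₁ ∧ i₂)]
      rw [Real.div_rpow g0 hS.le] at u1
      exact (mul_le_mul_of_nonneg_right u1 (by positivity)).trans_eq (by ring)
    · rw [ha, if_neg k2, if_neg fun k : i₁ ∧ i₂ => k2 k.2]
      simp
  have b3 := mul_le_mul_of_nonneg_right u2 (show 0 ≤ 3 * (l * z) ^ 2 by positivity)
  have b4 := mul_le_mul_of_nonneg_right u2 (show 0 ≤ 3 * (4 * K / R * z) ^ 2 by positivity)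
  have b5 := mul_le_mul_of_nonneg_left b1 (sq_nonneg (F g))
  have e : 150 * Kf * (4 * K) ^ 2 / R ^ 2 * z ^ 2 = 50 * Kf * (3 * (4 * K / R * z) ^ 2) := by ring
  linarith

theorem io_le {Kf S C k : ℝ} (hK : 0 ≤ Kf) (hS : 0 < S) (hC : 1 ≤ C) (hk : 0 ≤ k) :
    io Kf S (50 * S) * (16 * C * Real.exp ((50 * S + k) / √2) + 2) ^ 7 ≤
      50 * Kf * (18 * C) ^ 7 * Real.exp (7 * k) := by
  have s2 : 1.4142 ≤ √2 := Real.le_sqrt_of_sq_le (by norm_num)
  have a1 : (50 * S + k) / √2 ≤ 35.36 * S + k := by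
    rw [div_le_iff₀ (by positivity)]
    nlinarith
  have a2 : 1 ≤ Real.exp (35.36 * S + k) := Real.one_le_exp (by positivity)
  have a3 : 16 * C * Real.exp ((50 * S + k) / √2) + 2 ≤ 18 * C * Real.exp (35.36 * S + k) := by
    have := Real.exp_le_exp.2 a1
    nlinarith
  have a4 := pow_le_pow_left₀ (by positivity) a3 7
  rw [mul_pow, ← Real.exp_nat_mul] at a4
  have a5 : S * Real.exp (-(26 / 5 * (50 * S - 2 * S))) * Real.exp ((7 : ℕ) * (35.36 * S + k)) ≤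
      Real.exp (7 * k) := by
    have b : S ≤ Real.exp S := by linarith [Real.add_one_le_exp S]
    refine (mul_le_mul_of_nonneg_right (mul_le_mul_of_nonneg_right b (Real.exp_pos _).le)
      (Real.exp_pos _).le).trans ?_
    rw [← Real.exp_add, ← Real.exp_add]
    exact Real.exp_le_exp.2 (by push_cast; linarith)
  unfold io
  refine (mul_le_mul_of_nonneg_left a4 (by positivity)).trans ?_
  exact le_of_eq_of_le (by ring) (mul_le_mul_of_nonneg_left a5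
    (show 0 ≤ 50 * Kf * (18 * C) ^ 7 by positivity))

theorem vol (y : E 7) {r : ℝ} (hr : 0 ≤ r) (N : Set (E 7)) (hN : MeasurableSet N) :
    IntegrableOn (N.indicator fun _ => (1 : ℝ)) (ball y r) ∧
      ∫ x in ball y r, N.indicator (fun _ => (1 : ℝ)) x ≤
        r ^ 7 * (volume (ball (0 : E 7) 1)).toReal := by
  have i1 : IntegrableOn (fun _ : E 7 => (1 : ℝ)) (ball y r) :=
    integrableOn_const measure_ball_lt_top.ne
  refine ⟨i1.indicator hN, (integral_mono_of_nonneg (Eventually.of_forall fun x =>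
    indicator_nonneg (fun _ _ => zero_le_one) x) i1 (Eventually.of_forall fun x =>
      indicator_le_self' (fun _ _ => zero_le_one) x)).trans_eq ?_⟩
  rw [setIntegral_const, smul_eq_mul, mul_one, Measure.real, Measure.addHaar_ball volume y hr,
    ENNReal.toReal_mul, ENNReal.toReal_ofReal (by positivity), finrank_euclideanSpace_fin]

/-- the sum of the three integrals -/
theorem sum (tgc : TGC) {Kf ι g₀ S G K : ℝ} {F Θ : ℝ → ℝ} {u D ζ e : E n → ℝ} {a₁ a₂ a₃ : ℝ}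
    (h : Ok C u) (d : Ds B D) (w : Wt l ζ) (h1 : 0 < R₁) (hR : 0 < R)
    (hK : ∀ x, |deriv st x| ≤ K) (P : Pf Kf ι g₀ S G F Θ) (hKf : 0 ≤ Kf) (hι : 0 ≤ ι) (hS : 0 < S)
    (hG : G = 50 * S) (mg : Measurable (gp u G)) (bg : ∀ y, 2 ≤ gp u G y ∧ gp u G y ≤ G)
    (e0 : ∀ y, 0 ≤ e y)
    (i1 : Integrable (fun y => (TT u D R₁ R ∩ {y | D y ≤ 2 * R₁}).indicator
        (fun y => gp u G y ^ (4 / 5 : ℝ)) y * ζ y ^ 2) ∧
      ∫ y, (TT u D R₁ R ∩ {y | D y ≤ 2 * R₁}).indicator (fun y => gp u G y ^ (4 / 5 : ℝ)) y *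
        ζ y ^ 2 ≤ a₁)
    (i2 : Integrable (fun y => (TT u D R₁ R ∩ {y | gp u G y < G}).indicator (fun _ => (1 : ℝ)) y *
        ζ y ^ 2) ∧
      ∫ y, (TT u D R₁ R ∩ {y | gp u G y < G}).indicator (fun _ => (1 : ℝ)) y * ζ y ^ 2 ≤ a₂)
    (i3 : Integrable (fun y => e y ^ 80 * ζ y ^ 2) ∧ ∫ y, e y ^ 80 * ζ y ^ 2 ≤ a₃) :
    (∫ y, F (gp u G y) ^ 2 * ‖Pj u y (gradient (zt u D ζ R₁ R) y)‖ ^ 2) +
      ι * (∫ y in {y | gp u G y < G}, zt u D ζ R₁ R y ^ 2) +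
      ∫ y, et u (zt u D ζ R₁ R) G F y ^ 2 * e y ^ 80 ≤
    3 * Kf * (K / R₁) ^ 2 / S ^ (4 / 5 : ℝ) * a₁ + (150 * Kf * l ^ 2 + ι) * a₂ + 50 * Kf * a₃ +
      150 * Kf * (4 * K) ^ 2 * ((∫ y, ζ y) / R ^ 2) := by
  classical
  have pw' := fun y => pw (i₁ := y ∈ TT u D R₁ R) (i₂ := y ∈ {y | D y ≤ 2 * R₁}) (K := K) (R₁ := R₁)
    (R := R) (l := l) (z := ζ y) P hKf hS hG (bg y).1 (bg y).2 (norm_nonneg _)
    (by simpa only [indicator_apply] using gz tgc h d w h1 hR hK y)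
  have c1 : 0 ≤ 3 * Kf * (K / R₁) ^ 2 / S ^ (4 / 5 : ℝ) := by positivity
  have c2 : 0 ≤ 150 * Kf * l ^ 2 := by positivity
  have c3 : 0 ≤ 150 * Kf * (4 * K) ^ 2 / R ^ 2 := by positivity
  have j1 := i1.1.const_mul (3 * Kf * (K / R₁) ^ 2 / S ^ (4 / 5 : ℝ))
  have j2 := i2.1.const_mul (150 * Kf * l ^ 2)
  have j3 := w.int.const_mul (150 * Kf * (4 * K) ^ 2 / R ^ 2)
  have j12 := j1.fun_add j2
  have j123 := j12.fun_add j3
  have t1 := integral_mono_of_nonneg (f := fun y => F (gp u G y) ^ 2 *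
      ‖Pj u y (gradient (zt u D ζ R₁ R) y)‖ ^ 2) (Eventually.of_forall fun y => by positivity)
    j123 (Eventually.of_forall fun y => by
      refine (pw' y).2.trans (add_le_add (le_of_eq ?_) (mul_le_mul_of_nonneg_left ?_ c3))
      · simp only [indicator_apply, mem_inter_iff, mem_ofPred_eq]
      · nlinarith [w.pos y, w.le y])
  rw [integral_add j12 j3, integral_add j1 j2, integral_const_mul, integral_const_mul,
    integral_const_mul] at t1
  have mN : MeasurableSet {y | gp u G y < G} := measurableSet_lt mg measurable_const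
  have t2 : ∫ y in {y | gp u G y < G}, zt u D ζ R₁ R y ^ 2 ≤ a₂ := by
    rw [← integral_indicator mN]
    refine (integral_mono_of_nonneg (Eventually.of_forall fun y =>
      indicator_nonneg (fun _ _ => sq_nonneg _) y) i2.1 (Eventually.of_forall fun y => ?_)).trans i2.2
    show indicator _ _ y ≤ indicator _ _ y * ζ y ^ 2
    by_cases k : y ∈ {y | gp u G y < G}
    · rw [indicator_of_mem k]
      by_cases k' : y ∈ TT u D R₁ R
      · rw [indicator_of_mem (show y ∈ _ ∩ _ from ⟨k', k⟩), one_mul]; exact zt_sq w y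
      · rw [zt_zero h1 hR k', indicator_of_notMem fun a => k' a.1]; simp
    · rw [indicator_of_notMem k, indicator_of_notMem fun a => k a.2, zero_mul]
  have t3 : ∫ y, et u (zt u D ζ R₁ R) G F y ^ 2 * e y ^ 80 ≤ 50 * Kf * a₃ := by
    refine le_trans ?_ (mul_le_mul_of_nonneg_left i3.2 (by positivity))
    rw [← integral_const_mul]
    refine integral_mono_of_nonneg (Eventually.of_forall fun y => by have := e0 y; positivity)
      (i3.1.const_mul _) (Eventually.of_forall fun y => ?_)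
    have a := mul_le_mul (pw' y).1 (zt_sq (u := u) (D := D) (R₁ := R₁) (R := R) w y) (sq_nonneg _)
      (by positivity)
    have b := mul_le_mul_of_nonneg_right a (pow_nonneg (e0 y) 80)
    show (F (gp u G y) * zt u D ζ R₁ R y) ^ 2 * e y ^ 80 ≤ 50 * Kf * (e y ^ 80 * ζ y ^ 2)
    rw [mul_pow]
    linarith
  have s1 := mul_le_mul_of_nonneg_left i1.2 c1
  have s2 := mul_le_mul_of_nonneg_left i2.2 c2
  have s3 := mul_le_mul_of_nonneg_left t2 hι
  have s4 : 150 * Kf * (4 * K) ^ 2 / R ^ 2 * ∫ y, ζ y =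
    150 * Kf * (4 * K) ^ 2 * ((∫ y, ζ y) / R ^ 2) := by ring
  linarith

theorem c1_le {Kf K A s M k : ℝ} (hK : 0 ≤ Kf) (hk : 0 ≤ k) (hA : 2 ≤ A) (hs : 1 ≤ s) (hM : 1 ≤ M) :
    3 * Kf * (K / (A * s)) ^ 2 / (60 * M * s) ^ (4 / 5 : ℝ) * (k * (2 * (A * s) + 2) ^ 7) ≤
      3 * Kf * K ^ 2 * k * 3 ^ 7 * A ^ 5 * s ^ (21 / 5 : ℝ) := by
  have s0 : 0 < s := by linarith
  have a1 : s ^ (4 / 5 : ℝ) ≤ (60 * M * s) ^ (4 / 5 : ℝ) :=
    Real.rpow_le_rpow s0.le (by nlinarith) (by norm_num)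
  have a2 : 2 * (A * s) + 2 ≤ 3 * (A * s) := by nlinarith
  have a3 : s ^ (21 / 5 : ℝ) = s ^ 5 / s ^ (4 / 5 : ℝ) := by
    rw [← Real.rpow_natCast, ← Real.rpow_sub s0]; norm_num
  have a4 := Real.rpow_pos_of_pos s0 (4 / 5 : ℝ)
  calc _ ≤ 3 * Kf * (K / (A * s)) ^ 2 / s ^ (4 / 5 : ℝ) * (k * (3 * (A * s)) ^ 7) := by gcongr
    _ = _ := by
      have : A ≠ 0 := by linarith
      rw [a3]; field_simp

theorem fin_ar {l p Kf Cr V Ξ Z σ k₁ k₂ k₃ ι b KP q E c Cn : ℝ} (hl : 0 < l) (l2 : l * p ≤ 1)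
    (p7 : 1 ≤ p) (Kf0 : 0 ≤ Kf) (W0 : 0 ≤ Cr * V) (X0 : 0 ≤ Ξ) (Z0 : 0 ≤ Z) (s1 : 1 ≤ σ)
    (k10 : 0 ≤ k₁) (k20 : 0 ≤ k₂) (k30 : 0 ≤ k₃)
    (hk₂ : k₂ = 150 * Kf * (Cr * V) + E * (Cr * V) + 50 * Kf * (Cn * c))
    (q1 : b * (Cr * KP * q) * Ξ ≤ k₁ * σ * Ξ) (q2 : ι * p ≤ E) :
    b * (Cr * (KP * q) * Ξ) + (150 * Kf * l ^ 2 + ι) * (Cr * (p * V) * Ξ) +
      50 * Kf * (Cn * c * Ξ) + k₃ * Z ≤ (k₁ + k₂ + k₃) * (σ * Ξ + Z) := by
  have l1 : l ≤ 1 := (le_mul_of_one_le_right hl.le p7).trans l2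
  have q3 : l ^ 2 * p ≤ 1 := by
    rw [sq, mul_assoc]; exact mul_le_one₀ l1 (by positivity) l2
  have W1 : 0 ≤ Cr * V * Ξ := mul_nonneg W0 X0
  have q4 := mul_le_mul_of_nonneg_right q2 W1
  have q5 := mul_le_mul_of_nonneg_right (mul_le_mul_of_nonneg_left q3
    (show 0 ≤ 150 * Kf by positivity)) W1
  have q6 : k₂ * Ξ ≤ k₂ * (σ * Ξ) := mul_le_mul_of_nonneg_left (le_mul_of_one_le_left X0 s1) k20
  have q7 := mul_nonneg (add_nonneg k10 k20) Z0
  have q8 := mul_nonneg k30 (mul_nonneg (zero_le_one.trans s1) X0)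
  have q9 : k₂ * Ξ = (150 * Kf * (Cr * V) + E * (Cr * V) + 50 * Kf * (Cn * c)) * Ξ := by rw [hk₂]
  linarith

end Cost

open Cost in
/-- **COST** -/
theorem cost : rCOST := by
  intro tgc greg _ _ low thn pck cnt cnr C δ Kf M β hKf hM hβ
  by_cases hC : 1 ≤ C
  swap
  · exact ⟨1, le_rfl, 0, le_rfl, 0, fun s _ => ⟨1, one_pos, fun u D ζ l g₀ R F Θ h =>
      absurd h.ok.C1 hC⟩⟩
  obtain ⟨K, hK1, hK⟩ := st_bd
  obtain ⟨KL, βL, hβL, low⟩ := low 6 C
  obtain ⟨KP, hKP, βP, hβP, pck⟩ := pck 6 C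
  obtain ⟨Cn, hCn, cnt⟩ := cnt 7
  obtain ⟨Cr, hCr, cnr⟩ := cnr 7
  obtain ⟨β', hβ', b1, b2, b3⟩ : ∃ β' > (0 : ℝ), β' ≤ β ∧ β' ≤ βL ∧ β' ≤ βP :=
    ⟨min β (min βL βP), by positivity, min_le_left _ _, (min_le_right _ _).trans (min_le_left _ _),
      (min_le_right _ _).trans (min_le_right _ _)⟩
  obtain ⟨A, A1, A2⟩ : ∃ A : ℝ, 3000 * M ≤ A ∧ 48000 * M * C ≤ β' * A :=
    ⟨max (3000 * M) (48000 * M * C / β'), le_max_left _ _, by
      rw [← div_le_iff₀' hβ']; exact le_max_right _ _⟩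
  obtain ⟨V, hV, V0⟩ : ∃ V, V = (volume (ball (0 : E 7) 1)).toReal ∧ 0 ≤ V :=
    ⟨_, rfl, ENNReal.toReal_nonneg⟩
  have Kf0 : 0 ≤ Kf := by linarith
  have A0 : 0 < A := by linarith
  obtain ⟨k₁, hk₁, k10⟩ : ∃ k, k = 3 * Kf * K ^ 2 * (Cr * KP) * 3 ^ 7 * A ^ 5 ∧ 0 ≤ k :=
    ⟨_, rfl, by positivity⟩
  obtain ⟨k₂, hk₂, k20⟩ : ∃ k, k = 150 * Kf * (Cr * V) + 50 * Kf * (18 * C) ^ 7 *
      Real.exp (7 * |KL|) * (Cr * V) + 50 * Kf * (Cn * (16 * C) ^ 80) ∧ 0 ≤ k :=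
    ⟨_, rfl, by positivity⟩
  have k30 : 0 ≤ 150 * Kf * (4 * K) ^ 2 := by positivity
  refine ⟨A, by linarith, k₁ + k₂ + 150 * Kf * (4 * K) ^ 2, by positivity, 1, fun s hs => ?_⟩
  obtain ⟨S, hS⟩ : ∃ S, S = 60 * M * s := ⟨_, rfl⟩
  have S1 : 60 ≤ S := by nlinarith
  have eG : 3000 * M * s = 50 * S := by rw [hS]; ring
  obtain ⟨d₁, hd₁⟩ : ∃ d, d = 16 * C * Real.exp ((50 * S + |KL|) / √2) := ⟨_, rfl⟩
  have d0 : 0 < d₁ := by rw [hd₁]; positivity
  have R0 : 50 * S ≤ A * s := by rw [← eG]; exact mul_le_mul_of_nonneg_right A1 (by linarith)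
  have p7 : 1 ≤ (d₁ + 2) ^ 7 := one_le_pow₀ (by linarith)
  refine ⟨min (1 / (2 * (A * s) + 2)) (1 / (d₁ + 2) ^ 7), by positivity,
    fun u D ζ l g₀ R F Θ h d hl hl₀ w hR P => ?_⟩
  have l1 : l * (2 * (A * s) + 2) ≤ 1 := by
    rw [← le_div_iff₀ (by positivity)]; exact hl₀.trans (min_le_left _ _)
  have l2 : l * (d₁ + 2) ^ 7 ≤ 1 := by
    rw [← le_div_iff₀ (by positivity)]; exact hl₀.trans (min_le_right _ _)
  have l3 : l * (d₁ + 2) ≤ 1 := le_trans (mul_le_mul_of_nonneg_left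
    (le_self_pow₀ (by linarith) (by norm_num)) hl.le) l2
  rw [eG, ← hS] at P ⊢
  obtain ⟨e1, e2, e3, -⟩ := thn 7 C δ u D h d
  obtain ⟨mg, bg⟩ := greg 7 C (50 * S) u h.ok (by linarith)
  have R1 : 0 < A * s := by linarith
  have R2 : 0 < R := by linarith
  have D1 : ∀ y, 1 + dd δ u y ≤ D y := fun y => by have := d.lo y; unfold dd; linarith
  have D0 : ∀ y, 1 ≤ D y := fun y => by linarith [D1 y, show 0 ≤ dd δ u y from infDist_nonneg]
  have th : ∀ y ∈ TT u D (A * s) R, Th u (ee C D y) (50 * S) y ∧ 50 * S * ee C D y ≤ β' :=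
    fun y hy => by
      have := d.hi y
      refine ⟨e3 _ y (by linarith) hy.1 (by show 3 ≤ infDist y _; linarith [hy.2.1]), ?_⟩
      unfold ee
      rw [← mul_div_assoc, div_le_iff₀ (by linarith [D0 y]), ← eG]
      have a1 := mul_le_mul_of_nonneg_left hy.2.1 hβ'.le
      have a2 := mul_le_mul_of_nonneg_right A2 (show 0 ≤ s by linarith)
      linarith
  refine ⟨⟨e1, zt_cd h.ok d w, zt_cs R1 R2, fun y hy => ?_⟩, ?_⟩
  · have := th y (ts h.ok d R1 R2 hy)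
    exact ⟨this.1, this.2.trans b1, (e2 y).2⟩
  have mT := (TT_cl (R₁ := A * s) (R := R) h.ok d).measurableSet
  have m1 := mT.inter (isClosed_le d.c1.continuous continuous_const :
    IsClosed {y | D y ≤ 2 * (A * s)}).measurableSet
  have m2 := mT.inter (measurableSet_lt mg measurable_const :
    MeasurableSet {y | gp u (50 * S) y < 50 * S})
  have i1 := cnr (Bad δ u) l (KP * (2 * (A * s) + 2) ^ 7) (2 * (A * s)) ζ _ h.ne w hl.le l1
    (fun y => indicator_nonneg (fun y _ => Real.rpow_nonneg (by linarith [(bg y).1]) (4 / 5 : ℝ)) y)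
    ((mg.pow_const (4 / 5 : ℝ)).indicator m1)
    (fun y hy => indicator_of_notMem (fun k => by
      have : D y ≤ 2 * (A * s) := k.2
      linarith [d.lo y]) _) fun y => by
      have := pck u (50 * S) (2 * (A * s) + 2) _ y h.ok m1 (by linarith) (by linarith)
        fun y hy => ⟨_, (th y hy.1).1, (th y hy.1).2.trans b3⟩
      rw [setIntegral_indicator m1, IntegrableOn, integrable_indicator_iff m1, IntegrableOn,
        Measure.restrict_restrict m1, inter_comm (ball _ _)]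
      exact this
  have i2 := cnr (Bad δ u) l ((d₁ + 2) ^ 7 * V) d₁ ζ _ h.ne w hl.le l3
    (fun y => indicator_nonneg (fun _ _ => zero_le_one) y) (measurable_const.indicator m2)
    (fun y hy => indicator_of_notMem (fun k => by
      have a1 := low u _ _ y h.ok (th y k.1).1 ((th y k.1).2.trans b2) k.2
      have a2 : gp u (50 * S) y < 50 * S := k.2
      have a3 : lg (ee C D y) ≤ (50 * S + |KL|) / √2 := by
        rw [le_div_iff₀ (by positivity)]; linarith [le_abs_self KL]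
      have a4 := Real.exp_le_exp.2 a3
      rw [lg, Real.exp_neg, Real.exp_log (e2 y).1, ee, inv_div, div_le_iff₀ (by positivity)] at a4
      linarith [d.lo y]) _) fun y => hV ▸ vol y (by linarith) _ m2
  have i3 := cnt (Bad δ u) l ((16 * C) ^ 80) ζ (fun y => ee C D y ^ 80) h.ne w
    (fun y => pow_nonneg (e2 y).1.le _) (e1.continuous.pow 80).aestronglyMeasurable
    (Eventually.of_forall fun y => by
      have a1 : (1 + infDist y (Bad δ u)) ^ (5 * 7 + 5) ≤ D y ^ 80 :=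
        (pow_le_pow_left₀ (add_nonneg zero_le_one infDist_nonneg) (D1 y) _).trans (pow_le_pow_right₀ (D0 y) (by norm_num))
      have a2 : D y ≠ 0 := by linarith [D0 y]
      refine (mul_le_mul_of_nonneg_left a1 (pow_nonneg (e2 y).1.le _)).trans_eq ?_
      rw [ee, div_pow, div_mul_cancel₀ _ (pow_ne_zero _ a2)])
  have i0 : 0 ≤ io Kf S (50 * S) := by unfold io; positivity
  refine (sum tgc h.ok d w R1 R2 (fun x => (hK x).1) P Kf0 i0 (by linarith) rfl mg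
    (fun y => ⟨(bg y).1, (bg y).2.1⟩) (fun y => (e2 y).1.le) i1 i2 i3).trans ?_
  have X0 : 0 ≤ Xi (Bad δ u) ζ := integral_nonneg fun _ => sq_nonneg _
  have Z0 : 0 ≤ (∫ y, ζ y) / R ^ 2 := div_nonneg (integral_nonneg fun y => (w.pos y).le) (by positivity)
  generalize Xi (Bad δ u) ζ = Ξ at X0 ⊢
  generalize (∫ y, ζ y) / R ^ 2 = Z at Z0 ⊢
  have s1 : 1 ≤ s ^ (21 / 5 : ℝ) := Real.one_le_rpow hs (by norm_num)
  have q1 := mul_le_mul_of_nonneg_right (c1_le (K := K) Kf0 (mul_nonneg hCr.le hKP)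
    (show 2 ≤ A by linarith) hs hM) X0
  rw [← hS, ← hk₁] at q1
  have q2 := io_le Kf0 (show 0 < S by linarith) hC (abs_nonneg KL)
  rw [← hd₁] at q2
  exact fin_ar hl l2 p7 Kf0 (by positivity) X0 Z0 s1 k10 k20 k30 hk₂ q1 q2

end Vale.Agent.P134E
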