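import Vale.Agent.P134E.Spec2
import Vale.Agent.P134E.Cov0

/-!
# P134E, row COV: the rays cover the band
-/

set_option linter.unusedVariables false

open MeasureTheory Metric Filter Topology Set
open scoped ContDiff RealInnerProductSpace
open Vale.Agent.P366.Stmt (E)

noncomputable section

namespace Vale.Agent.P134E

open Vale.Agent.P134B
open Vale.Agent.P134C (Pos Ft Bad Rt dd Bd)

namespace Cov1

open Cov0

variable {n : ℕ} {C K η L ℓ δ ε G S T a b t : ℝ} {u e : E n → ℝ} {x y : E n}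

/-- the slope on the outer side below a long gap -/
theorem slope (hE : RET) (hr : Ry C K η L ℓ δ u ε G y)
    (hp : ∀ s ∈ Icc 2 S, 0 < -u (ray u (y, -s))) (t1 : 3 * t + 106 ≤ S)
    (t2 : 3 * t + 105 < 65 * lg ε) : ∀ s ∈ Icc (-t) 0, 1 / 2 ≤ sl u (y, s) := by
  intro s hs
  have h1 := hr.L1
  have h2 := hr.η1
  have h3 : ∀ s, -4 ≤ s → s ≤ 4 → 1 / 2 ≤ sl u (y, s) := fun s a b => by
    linarith [(hr.r0.2 s (abs_le.2 ⟨by linarith, by linarith⟩)).1]
  by_cases h4 : -4 ≤ s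
  · exact h3 s h4 (by linarith [hs.2])
  obtain ⟨t₀, h5, ⟨hl, -⟩⟩ := hr.rf.1
  have h6 := abs_le.1 h5
  have := hE _ _ _ (t₀ - s) _ _ _ _ _ _ hl (by linarith) (by linarith [hs.1]) (fun τ hτ => ?_)
    (t₀ - s) ⟨by linarith, le_rfl⟩
  · simpa using this
  by_cases h7 : 2 ≤ τ - t₀
  · have := hp (τ - t₀) ⟨h7, by linarith [hτ.2, hs.1]⟩
    rwa [show -(τ - t₀) = t₀ + -1 * τ by ring] at this
  obtain ⟨c, hc1, hc2⟩ := exists_hasDerivAt_eq_slope _ _ hτ.1
    (continuous_iff_continuousAt.2 fun t => (hl.dψ t).continuousAt).continuousOn fun t _ => hl.dψ t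
  have h8 := h3 (t₀ + -1 * c) (by linarith [hc1.2]) (by linarith [hc1.1])
  have h9 := hl.ψ0
  have h10 := hl.th τ
  beta_reduce at hc2 h9 h10 ⊢
  rw [h9, sub_zero, sub_zero, eq_div_iff hτ.1.ne'] at hc2
  rw [h10, ← hc2, Real.tanh_eq_sinh_div_cosh]
  exact div_pos (Real.sinh_pos_iff.2 (div_pos (mul_pos (by linarith) hτ.1) (by positivity)))
    (Real.cosh_pos _)

/-- a foot below the point -/
theorem one (hS : SYM) (hG : GREG) (hW : REGW) (hE : RET) (h : Ok C u) (G2 : 2 ≤ G)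
    (r1 : gp u G y < G → Ry C K η L 1 δ u (e y) G y)
    (r2 : gp (-u) G y < G → Ry C K η L 1 δ (-u) (e y) G y)
    (hF : Ft u T x y t) (t0 : 0 ≤ t) (p1 : Pos u y a) (p2 : Pos (-u) y a)
    (p3 : ¬(Pos u y b ∧ Pos (-u) y b)) (hT : 3 * T + 105 < 65 * lg (e y)) (bS : b ≤ S)
    (SG : S < G) : (S < 3 * t + 106 ∧ gp (-u) G y ≤ b) ∨ Cov u e G a S T x (ps u y) ∨
      Cov (-u) e G a S T x (-ps u y) := by
  by_cases c1 : gp u G y ≤ S
  · have hr := r1 (c1.trans_lt SG)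
    have h1 := up h hr hF
    obtain ⟨k1, k2, k3⟩ := inn hW h hr t0 h1
    exact .inr (.inl ⟨y, t, hF.eq.symm, rfl, hF.le, abs_le.2 ⟨by linarith [hr.rm.1, hr.L1],
      by linarith⟩, k1, lo hr p1, c1, k2, k3⟩)
  have p4 : Pos u y S := by
    by_contra hn
    exact c1 (gp_le hG h G2 hn)
  have c2 := gp_le hG ((hS.1 n u).2.1 C h) G2 fun k => p3 ⟨pos_mono p4 bS, k⟩
  by_cases c3 : S < 3 * t + 106
  · exact .inl ⟨c3, c2⟩
  have hr := r2 (c2.trans_lt (bS.trans_lt SG))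
  have h1 := (le_abs_self t).trans hF.le
  obtain ⟨k1, k2, k3⟩ := out hr t0 (by linarith) (slope hE hr (fun s hs => by
    rw [ray_neg hS, Pi.neg_apply, neg_neg]
    exact p4 s hs) (not_lt.1 c3) (by linarith))
  refine .inr (.inr ⟨y, -t, (ray_neg hS u y t).trans hF.eq.symm, ?_, ?_, ?_, k1, lo hr p2,
    c2.trans bS, k2, k3⟩)
  · rw [(hS.1 n u).1.1, Pi.neg_apply]
  · rw [abs_neg]; exact hF.le
  · rw [abs_neg, abs_of_nonneg t0]; linarith

/-- the scale at the foot -/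
theorem scale {D : E n → ℝ} {β : ℝ} (C1 : 1 ≤ C) (hD : Ds (Bad δ u) D) (d0 : 0 ≤ dd δ u x)
    (hx : dist x y ≤ dd δ u x / 2) (G0 : 0 ≤ G) (hβ : G * (32 * C) ≤ β * dd δ u x) (β0 : 0 ≤ β) :
    dd δ u x / 2 ≤ dd δ u y ∧ G * ee C D y ≤ β ∧
      Real.log (1 + dd δ u x) - Real.log (32 * C) ≤ lg (ee C D y) := by
  have h1 : dd δ u x ≤ dd δ u y + dist x y := infDist_le_infDist_add_dist
  have h2 : dd δ u y + 1 ≤ D y := hD.lo y
  have h3 : ee C D y ≤ 32 * C / (1 + dd δ u x) := by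
    rw [ee, div_le_div_iff₀ (by linarith) (by linarith)]
    nlinarith
  have h4 : 0 < ee C D y := div_pos (by linarith) (by linarith)
  refine ⟨by linarith, (mul_le_mul_of_nonneg_left h3 G0).trans ?_, ?_⟩
  · rw [← mul_div_assoc, div_le_iff₀ (by linarith)]
    nlinarith
  · have := Real.log_le_log h4 h3
    rw [Real.log_div (by linarith) (by linarith)] at this
    rw [lg]
    linarith

/-- the deep points -/
theorem deep {g f d A c : ℝ} (A0 : 0 ≤ A) (f0 : 0 ≤ f) (d0 : 0 ≤ d) (h1 : g ≤ A * f ^ 2)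
    (h2 : f ≤ C * Real.exp (c - 20 * Real.log (1 + d))) :
    g * (1 + d) ^ 40 ≤ A * (C * Real.exp c) ^ 2 := by
  have e1 : Real.exp (20 * Real.log (1 + d)) = (1 + d) ^ 20 := by
    rw [show (20 : ℝ) = (20 : ℕ) by simp, Real.exp_nat_mul, Real.exp_log (by linarith)]
  rw [Real.exp_sub, e1, ← mul_div_assoc, le_div_iff₀ (by positivity)] at h2
  calc g * (1 + d) ^ 40 ≤ A * f ^ 2 * (1 + d) ^ 40 := by gcongr
    _ = A * (f * (1 + d) ^ 20) ^ 2 := by ring
    _ ≤ _ := by gcongr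

theorem ev (c d₁ : ℝ) : ∃ d₀ : ℝ, ∀ d ≥ d₀, 42 * Real.log d ≤ d ∧ d₁ ≤ d ∧ 6 ≤ d ∧ c ≤ Real.log d ∧
    Real.log d ≤ Real.log (1 + d) ∧ Real.log (1 + d) ≤ Real.log d + 1 := by
  obtain ⟨d₀, hd⟩ := eventually_atTop.1 ((eventually_ge_atTop d₁).and ((eventually_ge_atTop 6).and
    ((Real.tendsto_log_atTop.eventually_ge_atTop c).and
      (Real.isLittleO_log_id_atTop.bound (c := 1 / 42) (by positivity)))))
  refine ⟨d₀, fun d h => ?_⟩
  obtain ⟨a1, a2, a3, a4⟩ := hd d h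
  rw [id, Real.norm_of_nonneg (show 0 ≤ d by linarith)] at a4
  refine ⟨by linarith [le_abs_self (Real.log d), Real.norm_eq_abs (Real.log d)], a1, a2, a3,
    Real.log_le_log (by linarith) (by linarith), ?_⟩
  have h1 := Real.log_le_log (by linarith) (show 1 + d ≤ d * 2 by linarith)
  rw [Real.log_mul (by linarith) (by norm_num)] at h1
  linarith [Real.log_two_lt_d9]

end Cov1

open Cov0 Cov1 in
theorem cov : rCOV := by
  intro hT hS hG hR _ _ _ hL hW hN hE hP C δ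
  obtain ⟨L, hR⟩ := hR 6 C 1
  obtain ⟨K, -, hR⟩ := hR L le_rfl
  obtain ⟨β₁, b1, hR⟩ := hR (1 / 1000) (1 / 1000) (by norm_num) le_rfl (by norm_num) le_rfl
  obtain ⟨K₂, β₂, b2, hL⟩ := hL 6 C
  obtain ⟨d₁, hP⟩ := hP 6 C δ
  obtain ⟨c, hc⟩ : ∃ c, c = |Real.log (32 * C)| := ⟨_, rfl⟩
  obtain ⟨d₀, hd⟩ := ev (60 + 33 * c) (40 + 2 * d₁)
  have c0 : 0 ≤ c := hc ▸ abs_nonneg _
  have c1 : Real.log (32 * C) ≤ c := hc ▸ le_abs_self _
  have m0 := lt_min b1 b2
  refine ⟨(1 + (7 : ℕ) * C ^ 2) * (C * Real.exp (38 + 20 * |K₂| + 20 * c)) ^ 2, by positivity,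
    min β₁ β₂ / (32 * (|C| + 1)), by positivity, d₀, ?_⟩
  intro u D x τ a b S G hu hD hx hτ a2 ab bS SG Gβ hB
  obtain ⟨a1, a3, a4, a5, a6, a7⟩ := hd _ hx
  have ok := hu.ok
  have C1 := ok.C1
  have K0 := abs_nonneg K₂
  have f0 : 0 ≤ ff u x := le_trans (by positivity) (ok.flo x)
  obtain ⟨-, -, n1, n2, n3, n4, -, -, n5⟩ := hN 7 C δ u D hu hD
  have dp := fun h => deep (C := C) (c := 38 + 20 * |K₂| + 20 * c) (d := dd δ u x) (by positivity)
    f0 (by linarith) (n5 x).2 h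
  by_cases c2 : C * Real.exp (-(20 * Real.log (1 + dd δ u x))) < ff u x
  swap
  · exact .inl (dp ((not_lt.1 c2).trans (by gcongr; linarith)))
  obtain ⟨y, t, rfl, hF', hf⟩ := hP u x τ _ hu hτ (by linarith) (by linarith) c2
  have hF : Ft u (21 * Real.log (dd δ u x)) x y t :=
    ⟨hF'.eq, hF'.lo, hF'.le.trans (by linarith), hF'.ne⟩
  obtain ⟨p1, p2, p3⟩ := hB y t hF
  have G2 : 2 ≤ G := by linarith
  obtain ⟨s1, s2, s3⟩ := scale (G := G) (β := min β₁ β₂) C1 hD (by linarith)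
    ((dist_le hF).trans (hF.le.trans (by linarith))) (by linarith) (by
      rw [div_mul_eq_mul_div, le_div_iff₀ (by positivity), abs_of_nonneg (by linarith)] at Gβ
      nlinarith) m0.le
  have t1 := n1 G y G2 (hF.lo.trans (by norm_num)) (by linarith)
  have t2 := (hN 7 C δ (-u) D n2 (n3 ▸ hD)).2.2.1 G y G2 ((ft_neg hS hF).lo.trans (by norm_num))
    (by rw [n4]; linarith)
  have r1 := (hR u _ G y ok t1 (s2.trans (min_le_left _ _))).2
  have r2 := (hR (-u) _ G y n2.ok t2 (s2.trans (min_le_left _ _))).2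
  have hT : 3 * (21 * Real.log (dd δ u x)) + 105 < 65 * lg (ee C D y) := by linarith
  have dq : ∀ v, Ok C v → Th v (ee C D y) G y → S < 3 * |t| + 106 → gp v G y ≤ b →
      ff u x ≤ C * Real.exp (38 + 20 * |K₂| + 20 * c - 20 * Real.log (1 + dd δ u x)) := by
    intro v k1 k2 k3 k4
    have k5 := hL v _ G y k1 k2 (s2.trans (min_le_right _ _)) (by linarith)
    have k6 : lg (ee C D y) ≤ √2 * lg (ee C D y) :=
      le_mul_of_one_le_left (by linarith) (Real.one_le_sqrt.2 (by norm_num))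
    refine hf.trans ?_
    gcongr
    linarith [le_abs_self K₂]
  rcases le_total 0 t with t0 | t0
  · rcases one hS hG hW hE ok G2 r1 r2 hF t0 p1 p2 p3 hT (show b ≤ S by linarith) SG with k | k
    · exact .inl (dp (dq _ n2.ok t2 (by linarith [le_abs_self t, k.1]) k.2))
    · exact .inr k
  · rcases one hS hG hW hE n2.ok G2 r2 (by rw [neg_neg]; exact r1) (ft_neg hS hF) (by linarith) p2
      (by rw [neg_neg]; exact p1) (by rw [neg_neg, and_comm]; exact p3) hT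
      (show b ≤ S by linarith) SG with k | k
    · rw [neg_neg] at k
      exact .inl (dp (dq _ ok t1 (by linarith [neg_abs_le t, k.1]) k.2))
    · rw [neg_neg, (hS.1 7 u).1.1, Pi.neg_apply, neg_neg] at k
      exact .inr k.symm

end Vale.Agent.P134E
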