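import Vale.Agent.P134E.Spec
import Vale.Agent.P134C.Top

/-!
# P134E: from the inequality in the tube to `P134C.TE`
-/

set_option linter.unusedVariables false

open MeasureTheory Metric Filter Topology Set
open scoped ContDiff RealInnerProductSpace
open Vale.Agent.P366.Stmt (E)

noncomputable section

namespace Vale.Agent.P134E

open Vale.Agent.P134B
open Vale.Agent.P134C (Wt Bad Xi Rt dd Pos Ft Bd CNT CNR SLO)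

variable {n m : ℕ}

/-- a regularised distance -/
structure Rd (B : Set (E n)) (ρ : E n → ℝ) : Prop where
  c1 : ContDiff ℝ 1 ρ
  ap : ∀ x, |ρ x - infDist x B| ≤ 1
  gr : ∀ x, ‖gradient ρ x‖ ≤ 1

/-- the local scale -/
def ee (C : ℝ) (ρ : E n → ℝ) (y : E n) : ℝ := 32 * √C / √(1 + ρ y ^ 2)
/-- the cut-off of the base -/
def zc (u ρ ζ : E n → ℝ) (D R : ℝ) (y : E n) : ℝ :=
  bp (2 * ps u y) * st (4 * ρ y / D - 1) * bp (‖y‖ ^ 2 / R ^ 2) * ζ y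
/-- the base points far from the bad set -/
def Bs (δ : ℝ) (u : E n → ℝ) (D : ℝ) : Set (E n) := {y | |ps u y| ≤ 1 ∧ D / 5 ≤ dd δ u y}

/-- the point `x` is covered by the ray of `y` -/
structure Cv (u e : E n → ℝ) (G S a : ℝ) (x y : E n) (t : ℝ) : Prop where
  eq : ray u (y, t) = x
  uu : (y, t) ∈ UU u
  lo : a ≤ gp u G y
  hi : gp u G y ≤ S
  a1 : aa u e G (y, t) = 1
  s1 : 1 / 2 ≤ sv u G (y, t)

/-- **RD** -/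
def RD : Prop := ∀ (n : ℕ) (B : Set (E n)), ∃ ρ, Rd B ρ

/-- **CX**: the cut-off of the base -/
def CX : Prop := ∃ K ≥ (0 : ℝ), ∀ (n : ℕ) (C δ l D R G β : ℝ) (u ρ ζ : E n → ℝ), Rt C δ u →
  Rd (Bad δ u) ρ → Wt l ζ → 20 ≤ D → 0 < R → 2 ≤ G → G * (320 * √C / D) ≤ β →
  Cx β u (ee C ρ) (zc u ρ ζ D R) G ∧ ∀ y,
    (y ∉ Bs δ u D → zc u ρ ζ D R y = 0 ∧ gradient (zc u ρ ζ D R) y = 0) ∧
    zc u ρ ζ D R y ^ 2 ≤ ζ y ^ 2 ∧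
    ‖Pj u y (gradient (zc u ρ ζ D R) y)‖ ^ 2 ≤ K * (1 / D ^ 2 + l ^ 2 + 1 / R ^ 2) * ζ y ^ 2 ∧
    (D ≤ dd δ u y →
      ‖Pj u y (gradient (zc u ρ ζ D R) y)‖ ^ 2 ≤ K * (l ^ 2 + 1 / R ^ 2) * ζ y ^ 2) ∧
    (|ps u y| ≤ 1 / 2 → 3 / 4 * D ≤ dd δ u y → ‖y‖ ≤ R → zc u ρ ζ D R y = ζ y) ∧
    (2 ≤ dd δ u y → 16 * √C ≤ ee C ρ y * dd δ u y ∧ ee C ρ y * dd δ u y ≤ 64 * √C ∧
      Gd u (ee C ρ y) y (4 / ee C ρ y))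

/-- **PKG**: packing of the base points with a long gap -/
def PKG : Prop := ∀ (m : ℕ) (C : ℝ), ∃ K ≥ (0 : ℝ), ∃ β > (0 : ℝ), ∀ (u : E (m + 1) → ℝ)
  (ε G R a : ℝ) (A : Set (E (m + 1))) (z : E (m + 1)), Ok C u → G * ε ≤ β → G ≤ R → 0 < a →
  MeasurableSet A → (∀ y ∈ A, Th u ε G y ∧ a ≤ gp u G y) →
  volume (A ∩ ball z R) ≤ ENNReal.ofReal (K * R ^ (m + 1) / a)

/-- **PKI**: the same in the integral form -/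
def PKI : Prop := ∀ (m : ℕ) (C : ℝ), ∃ K ≥ (0 : ℝ), ∃ β > (0 : ℝ), ∀ (u : E (m + 1) → ℝ)
  (ε G R : ℝ) (A : Set (E (m + 1))) (z : E (m + 1)), Ok C u → G * ε ≤ β → 2 ≤ G → G ≤ R →
  MeasurableSet A → (∀ y ∈ A, Th u ε G y) →
  IntegrableOn (fun y => gp u G y ^ (4 / 5 : ℝ)) (A ∩ ball z R) ∧
    ∫ y in A ∩ ball z R, gp u G y ^ (4 / 5 : ℝ) ≤ K * R ^ (m + 1)

/-- **UPD**: a short gap lies close to the bad set -/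
def UPD : Prop := ∀ (m : ℕ) (C δ : ℝ), ∃ K ≥ (1 : ℝ), ∀ (u : E (m + 1) → ℝ) (y : E (m + 1))
  (G : ℝ), Rt C δ u → |ps u y| ≤ 1 → 2 ≤ G → K * G ≤ dd δ u y → gp u G y < G →
  dd δ u y ≤ K * Real.exp (gp u G y / √2)

/-- **COST**: the right side of `TE0` -/
def COST : Prop := ∀ C δ Kf : ℝ, 1 ≤ Kf → ∃ K ≥ (1 : ℝ), ∀ (u ρ ζ : E 7 → ℝ)
  (l S D R ι g₀ : ℝ) (F Θ : ℝ → ℝ), Rt C δ u → Rd (Bad δ u) ρ → Wt l ζ →
  Pf Kf ι g₀ S (100 * S) F Θ → 1 ≤ S → K * S ≤ D → 0 < R → 0 ≤ ι → 0 ≤ l →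
  l * (K * Real.exp (100 * S) + D + 2) ≤ 1 →
  (∫ y, F (gp u (100 * S) y) ^ 2 * ‖Pj u y (gradient (zc u ρ ζ D R) y)‖ ^ 2) +
    ι * (∫ y in {y | gp u (100 * S) y < 100 * S}, zc u ρ ζ D R y ^ 2) +
    ∫ y, et u (zc u ρ ζ D R) (100 * S) F y ^ 2 * ee C ρ y ^ 80 ≤
    K * (D ^ 5 / S ^ (4 / 5 : ℝ) + (l ^ 2 + 1 / R ^ 2 + ι) * Real.exp (500 * S) + 1) *
      Xi (Bad δ u) ζ

/-- **FEET**: a point is deep or it has a foot on every level -/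
def FEET : Prop := ∀ C δ : ℝ, ∃ K ≥ (0 : ℝ), ∃ d₀ : ℝ, ∀ (u : E 7 → ℝ) (x : E 7), Rt C δ u →
  d₀ ≤ dd δ u x → gn u x * (1 + dd δ u x) ^ 40 ≤ K ∨
    ∀ τ ∈ Icc (-(1 / 2) : ℝ) (1 / 2), ∃ y t, Ft u (30 * Real.log (dd δ u x)) x y t ∧ ps u y = τ

/-- **CVP**: the coverage of a point -/
def CVP : Prop := ∀ (m : ℕ) (C δ M : ℝ), 1 ≤ M → ∃ M₂ ≥ M, ∃ s' : ℝ,
  ∀ (u ρ : E (m + 1) → ℝ) (x y : E (m + 1)) (s t : ℝ), Rt C δ u → Rd (Bad δ u) ρ → s' ≤ s →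
  s ^ (41 / 40 : ℝ) ≤ dd δ u x → Bd u (30 * Real.log (dd δ u x)) (s / M) (M * s) x →
  Ft u (30 * Real.log (dd δ u x)) x y t →
  |t| ≤ M₂ * s ∧ 3 / 4 * dd δ u x ≤ dd δ u y ∧
    (Cv u (ee C ρ) (100 * (M₂ * s)) (M₂ * s) (s / M) x y t ∨
      Cv (-u) (ee C ρ) (100 * (M₂ * s)) (M₂ * s) (s / M) x y (-t))

/-- **COVA**: the area inequality against an integrable density -/
def COVA : Prop := ∀ (n : ℕ) (C c : ℝ) (u φ : E n → ℝ) (H : E n × ℝ → ℝ) (S : Set (E n × ℝ)),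
  Ok C u → Continuous φ → (∀ x, 0 ≤ φ x) → Integrable H → (∀ z, 0 ≤ H z) → 0 < c →
  (∀ w ∈ S, ∃ z ∈ UU u, ray u z = w.1 ∧ ps u z.1 = w.2 ∧ c * (φ w.1 * JJ u z) ≤ H z) →
  ENNReal.ofReal c * ∫⁻ w in S, ENNReal.ofReal (φ w.1) ≤ ENNReal.ofReal (∫ z, H z)

def rPKG : Prop := TGC → GREG → FOOT → PAR2 → SLAB → PKG
def rPKI : Prop := GREG → PKG → PKI
def rUPD : Prop := LOW → UPD
def rCOST : Prop := GREG → CNT → CNR → CX → PKI → UPD → COST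
def rFEET : Prop := SEG → CVQ → FEET
def rCVP : Prop := SYM → GREG → RAY → REGW → CX → UPD → SLO → CVP
def rCOVA : Prop := TGC → AR → COVA
def rTE : Prop := SYM → CVQ → PRS → TE0 → CNT → RD → CX → COST → FEET → CVP → COVA → P134C.TE

end Vale.Agent.P134E
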