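import Vale.Agent.P134E.Spec2

/-!
# P134E: the packing of the gaps
-/

set_option linter.unusedVariables false

open MeasureTheory Metric Filter Topology Set
open scoped ContDiff RealInnerProductSpace
open Vale.Agent.P366.Stmt (E)

noncomputable section

namespace Vale.Agent.P134E

open Vale.Agent.P134B

namespace PckP

variable {n m : ℕ}

theorem vol_ball (z : E n) {r : ℝ} (hr : 0 < r) :
    volume.real (ball z r) = r ^ n * volume.real (ball (0 : E n) 1) := by
  rw [measureReal_def, Measure.addHaar_ball_of_pos _ _ hr, ENNReal.toReal_mul,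
    ENNReal.toReal_ofReal (by positivity), finrank_euclideanSpace_fin, measureReal_def]

/-- disjoint translates -/
theorem pack {B : Set (E n)} {z v : E n} {R : ℝ} {N : ℕ} (hB : MeasurableSet B)
    (hz : B ⊆ ball z R) (hv : N * ‖v‖ ≤ R)
    (h : ∀ y ∈ B, ∀ j : ℕ, 1 ≤ j → j ≤ N → y + (j : ℝ) • v ∉ B) :
    (N + 1) * volume.real B ≤ volume.real (ball z (2 * R)) := by
  have e : ∀ j : ℕ, volume ((fun x => x + (j : ℝ) • v) ⁻¹' B) = volume B := fun j =>
    measure_preimage_add_right _ _ _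
  have fin : volume B ≠ ⊤ := ((measure_mono hz).trans_lt measure_ball_lt_top).ne
  have key : ∀ i j : ℕ, i < j → j ≤ N →
      Disjoint ((fun x => x + (i : ℝ) • v) ⁻¹' B) ((fun x => x + (j : ℝ) • v) ⁻¹' B) :=
    fun i j hij hj => Set.disjoint_left.2 fun x p q => h _ p (j - i) (by omega) (by omega) (by
      rw [Nat.cast_sub hij.le, sub_smul, add_add_sub_cancel]
      exact q)
  have := measureReal_biUnion_finset (μ := volume) (s := Finset.range (N + 1))
    (f := fun j : ℕ => (fun x => x + (j : ℝ) • v) ⁻¹' B) (fun i hi j hj hij => by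
      have := Finset.mem_range.1 hi
      have := Finset.mem_range.1 hj
      rcases lt_or_gt_of_ne hij with c | c
      exacts [key i j c (by omega), (key j i c (by omega)).symm])
    (fun j _ => hB.preimage (measurable_add_const _)) fun j _ => by rw [e]; exact fin
  simp only [measureReal_def, e, Finset.sum_const, Finset.card_range, nsmul_eq_mul] at this
  push_cast at this
  rw [measureReal_def, ← this]
  refine measureReal_mono (μ := volume) (iUnion₂_subset fun j hj x hx => ?_) measure_ball_lt_top.ne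
  have a1 := mem_ball_iff_norm.1 (hz hx)
  have a2 : ‖(j : ℝ) • v‖ ≤ R := by
    rw [norm_smul, Real.norm_natCast]
    have : (j : ℝ) ≤ N := by exact_mod_cast Nat.lt_succ_iff.1 (Finset.mem_range.1 hj)
    exact (mul_le_mul_of_nonneg_right this (norm_nonneg _)).trans hv
  have a3 := norm_sub_le (x + (j : ℝ) • v - z) ((j : ℝ) • v)
  rw [show x + (j : ℝ) • v - z - (j : ℝ) • v = x - z by abel] at a3
  exact mem_ball_iff_norm.2 (by linarith)

/-- the directions of the axes -/
def dir (i : Fin n × Bool) : E n := EuclideanSpace.single i.1 (if i.2 then 1 else -1)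

theorem dir_norm (i : Fin n × Bool) : ‖dir i‖ = 1 := by
  rw [dir, EuclideanSpace.single, PiLp.norm_single]
  split_ifs <;> simp

theorem exists_dir {ν : E (m + 1)} (h : ‖ν‖ = 1) : ∃ i, (m + 1 : ℝ)⁻¹ ≤ ⟪dir i, ν⟫ := by
  by_contra! c
  have c0 : (0 : ℝ) < (m + 1 : ℝ)⁻¹ := by positivity
  have c1 : (m + 1 : ℝ)⁻¹ ≤ 1 := inv_le_one_of_one_le₀ (by linarith [m.cast_nonneg (α := ℝ)])
  have := Finset.sum_lt_sum_of_nonempty (s := Finset.univ) Finset.univ_nonempty
    (f := fun k => ν k ^ 2) (g := fun _ => (m + 1 : ℝ)⁻¹) fun k _ => by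
      have a := c (k, true)
      have b := c (k, false)
      simp only [dir, EuclideanSpace.inner_single_left] at a b
      simp at a b
      nlinarith
  rw [← EuclideanSpace.real_norm_sq_eq, h] at this
  simp only [Finset.sum_const, Finset.card_univ, Fintype.card_fin, nsmul_eq_mul] at this
  push_cast at this
  rw [mul_inv_cancel₀ (by positivity)] at this
  simp at this

theorem pp_ne {C ε G : ℝ} {u : E n → ℝ} {y : E n} (hu : Ok C u) (h : Th u ε G y)
    (hε : ε ≤ 1 / 10) : pp u y ≠ 0 := fun e => by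
  have a := h.gd y (mem_ball_self (div_pos four_pos h.e0))
  have s0 : 0 < √2 := by positivity
  have s2 : √2 ^ 2 = 2 := Real.sq_sqrt zero_le_two
  have s3 : √2 ≤ 3 / 2 := by nlinarith
  have b : Real.exp (-(3 / 2)) / √2 ≤ ff u y := le_trans (div_le_div_of_nonneg_right
    (Real.exp_le_exp.2 (by nlinarith [h.ps, abs_nonneg (ps u y)])) s0.le) (hu.flo y)
  have c : 1 / 5 ≤ Real.exp (-(3 / 2)) := by
    have e1 : Real.exp (3 / 2) ^ 2 = Real.exp 1 ^ 3 := by
      rw [← Real.exp_nat_mul, ← Real.exp_nat_mul]; norm_num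
    have e2 := pow_le_pow_left₀ (Real.exp_pos 1).le Real.exp_one_lt_d9.le 3
    rw [Real.exp_neg, one_div]
    exact inv_anti₀ (Real.exp_pos _) (by nlinarith [Real.exp_pos (3 / 2)])
  have d : 2 / 15 ≤ ff u y := le_trans (by rw [le_div_iff₀ s0]; linarith) b
  rw [EE, qq, e, norm_zero] at a
  nlinarith [h.e0]

theorem nu_meas {C : ℝ} {u : E n → ℝ} (hu : Ok C u) : Measurable (nu u) := by
  have c : Continuous (pp u) := (InnerProductSpace.toDual ℝ (E n)).symm.continuous.comp
    (hu.smp.continuous_fderiv (by simp))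
  exact c.measurable.norm.inv.smul c.measurable

/-- no base point at a moderate distance in a transversal direction -/
theorem sep (tgc : TGC) (foot : FOOT) (slab : SLAB) (m : ℕ) (C : ℝ) : ∃ β > (0 : ℝ), β ≤ 1 / 10 ∧
    ∀ (u : E (m + 1) → ℝ) (ε G t : ℝ) (y e : E (m + 1)), Ok C u → Th u ε G y → G * ε ≤ β →
      ‖e‖ = 1 → (m + 1 : ℝ)⁻¹ ≤ ⟪e, nu u y⟫ → 11 * (m + 1 : ℝ) ≤ t → 3 * t ≤ gp u G y →
      3 * t ≤ G → 1 < |ps u (y + t • e)| := by
  obtain ⟨K, ε₀, e0, hf⟩ := foot (m + 1) C 1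
  have c0 : (0 : ℝ) < (m + 1 : ℝ)⁻¹ := by positivity
  have m1 : (1 : ℝ) ≤ m + 1 := by linarith [m.cast_nonneg (α := ℝ)]
  have c1 : (m + 1 : ℝ)⁻¹ ≤ 1 := inv_le_one_of_one_le₀ m1
  obtain ⟨β, β0, hs⟩ := slab m C ((m + 1 : ℝ)⁻¹ / 2) (by positivity)
  refine ⟨min (min β ε₀) (1 / 10), by positivity, min_le_right _ _,
    fun u ε G t y e hu h hβ he hc t1 t2 t3 => lt_of_not_ge fun hp => ?_⟩
  obtain ⟨b1, b3⟩ := le_min_iff.1 hβ
  obtain ⟨b1, b2⟩ := le_min_iff.1 b1
  have ε0 := h.e0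
  have G2 := h.G2
  have εG : ε ≤ G * ε := by nlinarith
  have t0 : 0 < t := by linarith
  have nt : ‖t • e‖ = t := by rw [norm_smul, he, mul_one, Real.norm_of_nonneg t0.le]
  obtain ⟨z, z0, z1, -⟩ := hf u ε (y + t • e) hu ε0 (εG.trans b2) (fun x hx => h.gd x (by
    have a1 := mem_ball_iff_norm.1 hx
    have a2 := norm_add_le (x - (y + t • e)) (t • e)
    rw [show x - (y + t • e) + t • e = x - y by abel, nt] at a2
    have a3 : 2 * G ≤ 4 / ε := by rw [le_div_iff₀ ε0]; linarith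
    exact mem_ball_iff_norm.2 (by linarith))) hp
  obtain ⟨n1, -, -, -, -, -, -, pj, -⟩ := (tgc _ C u hu).2.2.2.1 y (pp_ne hu h (εG.trans b3))
  have e1 : z - y = z - (y + t • e) + t • e := by abel
  have d1 : ‖z - y‖ ≤ t + 2 := by
    rw [e1]
    linarith [norm_add_le (z - (y + t • e)) (t • e)]
  have d2 : ⟪z - y, nu u y⟫ ≤ t + 2 := (real_inner_le_norm _ _).trans (by rwa [n1, mul_one])
  have d3 : (m + 1 : ℝ)⁻¹ * t - 2 ≤ ⟪z - y, nu u y⟫ := by
    have a1 := abs_real_inner_le_norm (z - (y + t • e)) (nu u y)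
    rw [n1] at a1
    rw [e1, inner_add_left, real_inner_smul_left]
    linarith [(abs_le.1 a1).1, mul_le_mul_of_nonneg_left hc t0.le]
  have d4 := mul_le_mul_of_nonneg_left ((pj (z - y)).1.trans d1) (half_pos c0).le
  have d5 : 11 ≤ (m + 1 : ℝ)⁻¹ * t := by rw [le_inv_mul_iff₀ (by positivity)]; linarith
  have d6 := mul_le_mul_of_nonneg_right c1 t0.le
  rcases hs u ε G y z hu h b1 z0 (by linarith) with q | q <;> linarith

/-- the base points with a long gap -/
theorem lev (tgc : TGC) (greg : GREG) (foot : FOOT) (slab : SLAB) (m : ℕ) (C : ℝ) :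
    ∃ K ≥ (0 : ℝ), ∃ β > (0 : ℝ), ∀ (u : E (m + 1) → ℝ) (G R a : ℝ) (A : Set (E (m + 1)))
      (z : E (m + 1)), Ok C u → MeasurableSet A → 2 ≤ G → G ≤ R → 0 < a →
      (∀ y ∈ A, ∃ ε, Th u ε G y ∧ G * ε ≤ β) →
      a * volume.real ({y | a ≤ gp u G y} ∩ (A ∩ ball z R)) ≤ K * R ^ (m + 1) := by
  obtain ⟨β, β0, β1, hs⟩ := sep tgc foot slab m C
  refine ⟨(m + 1) * 2 * (33 * (m + 1) * (2 ^ (m + 1) * volume.real (ball (0 : E (m + 1)) 1))),
    by positivity, β, β0, fun u G R a A z hu hA G2 GR a0 h => ?_⟩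
  obtain ⟨gm, gg⟩ := greg _ C G u hu G2
  have R0 : 0 < R := by linarith
  rcases lt_or_ge G a with c | c
  · rw [show {y | a ≤ gp u G y} = ∅ from eq_empty_of_forall_notMem fun y (p : a ≤ _) => by
      linarith [(gg y).2.1], empty_inter, measureReal_empty, mul_zero]
    positivity
  have L0 : (0 : ℝ) < 11 * (m + 1) := by positivity
  have one : ∀ i : Fin (m + 1) × Bool, a * volume.real ({y | (m + 1 : ℝ)⁻¹ ≤ ⟪dir i, nu u y⟫} ∩
      ({y | a ≤ gp u G y} ∩ (A ∩ ball z R))) ≤
      33 * (m + 1) * (2 ^ (m + 1) * volume.real (ball (0 : E (m + 1)) 1)) * R ^ (m + 1) := fun i => by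
    have f1 := (le_div_iff₀ (mul_pos three_pos L0)).1
      (Nat.floor_le (div_pos a0 (mul_pos three_pos L0)).le)
    have f2 := (div_lt_iff₀ (mul_pos three_pos L0)).1 (Nat.lt_floor_add_one (a / (3 * (11 * (m + 1)))))
    generalize ⌊a / (3 * (11 * (m + 1 : ℝ)))⌋₊ = N at f1 f2
    have := pack (z := z) (R := R) (v := (11 * (m + 1) : ℝ) • dir i) (N := N)
      (B := {y | (m + 1 : ℝ)⁻¹ ≤ ⟪dir i, nu u y⟫} ∩ ({y | a ≤ gp u G y} ∩ (A ∩ ball z R)))
      ((measurableSet_le measurable_const (measurable_const.inner (nu_meas hu))).inter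
        ((measurableSet_le measurable_const gm).inter (hA.inter measurableSet_ball)))
      (fun y p => p.2.2.2) (by
        rw [norm_smul, dir_norm, mul_one, Real.norm_of_nonneg L0.le]
        nlinarith [mul_nonneg (N.cast_nonneg (α := ℝ)) L0.le]) fun y p j j1 j2 q => by
          obtain ⟨ε, p1, p2⟩ := h y p.2.2.1
          obtain ⟨ε', q1, -⟩ := h _ q.2.2.1
          have j3 : (1 : ℝ) ≤ j := by exact_mod_cast j1
          have j4 := mul_le_mul_of_nonneg_right (show (j : ℝ) ≤ N by exact_mod_cast j2) L0.le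
          have p3 : a ≤ gp u G y := p.2.1
          have := hs u ε G (j * (11 * (m + 1))) y (dir i) hu p1 p2 (dir_norm i) p.1
            (le_mul_of_one_le_left L0.le j3) (by linarith) (by linarith)
          rw [mul_smul] at this
          exact this.not_ge q1.ps
    rw [vol_ball z (by linarith : 0 < 2 * R), mul_pow] at this
    refine (mul_le_mul_of_nonneg_right f2.le measureReal_nonneg).trans ?_
    have := mul_le_mul_of_nonneg_left this (mul_pos three_pos L0).le
    linarith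
  have cov : {y | a ≤ gp u G y} ∩ (A ∩ ball z R) = ⋃ i : Fin (m + 1) × Bool,
      {y | (m + 1 : ℝ)⁻¹ ≤ ⟪dir i, nu u y⟫} ∩ ({y | a ≤ gp u G y} ∩ (A ∩ ball z R)) := by
    refine Subset.antisymm (fun y p => ?_) (iUnion_subset fun i => inter_subset_right)
    obtain ⟨ε, p1, p2⟩ := h y p.2.1
    obtain ⟨i, hi⟩ := exists_dir ((tgc _ C u hu).2.2.2.1 y
      (pp_ne hu p1 (by nlinarith [p1.e0]))).1
    exact mem_iUnion.2 ⟨i, hi, p⟩
  rw [cov]
  refine (mul_le_mul_of_nonneg_left (measureReal_iUnion_fintype_le _) a0.le).trans ?_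
  rw [Finset.mul_sum]
  refine (Finset.sum_le_sum fun i _ => one i).trans_eq ?_
  simp only [Finset.sum_const, Finset.card_univ, Fintype.card_prod, Fintype.card_fin,
    Fintype.card_bool, nsmul_eq_mul]
  push_cast
  ring

theorem dyad {g : ℝ} {J : ℕ} (h1 : 1 ≤ g) (h2 : g < 32 ^ J) : g ^ (4 / 5 : ℝ) ≤
    ∑ j ∈ Finset.range J, if (32 : ℝ) ^ j ≤ g then (16 : ℝ) ^ (j + 1) else 0 := by
  obtain ⟨j, j1, j2⟩ := exists_nat_pow_near h1 (by norm_num : (1 : ℝ) < 32)
  have j3 : j < J := (pow_lt_pow_iff_right₀ (by norm_num : (1 : ℝ) < 32)).1 (j1.trans_lt h2)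
  refine le_trans ?_ (Finset.single_le_sum (f := fun j => if (32 : ℝ) ^ j ≤ g then
    (16 : ℝ) ^ (j + 1) else 0) (fun j _ => by split_ifs <;> positivity) (Finset.mem_range.2 j3))
  rw [if_pos j1]
  refine (Real.rpow_le_rpow (by linarith) j2.le (by norm_num)).trans_eq ?_
  rw [← Real.rpow_natCast, ← Real.rpow_mul (by norm_num), mul_comm, Real.rpow_mul (by norm_num),
    Real.rpow_natCast, show (32 : ℝ) = 2 ^ (5 : ℝ) by norm_num, ← Real.rpow_mul zero_le_two]
  norm_num

end PckP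

open PckP in
/-- **PCK** -/
theorem pck : rPCK := by
  intro tgc greg foot slab m C
  obtain ⟨K, K0, β, β0, h⟩ := lev tgc greg foot slab m C
  refine ⟨32 * K, by positivity, β, β0, fun u G R A z hu hA G2 GR hT => ?_⟩
  obtain ⟨gm, gg⟩ := greg _ C G u hu G2
  obtain ⟨J, hJ⟩ := pow_unbounded_of_one_lt G (by norm_num : (1 : ℝ) < 32)
  have : IsFiniteMeasure (volume.restrict (A ∩ ball z R)) := isFiniteMeasure_restrict.2
    ((measure_mono inter_subset_right).trans_lt measure_ball_lt_top).ne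
  have ms : ∀ j : ℕ, MeasurableSet {y | (32 : ℝ) ^ j ≤ gp u G y} := fun j =>
    measurableSet_le measurable_const gm
  have i1 : IntegrableOn (fun y => gp u G y ^ (4 / 5 : ℝ)) (A ∩ ball z R) :=
    Integrable.of_bound (gm.pow_const _).aestronglyMeasurable (G ^ (4 / 5 : ℝ))
      (.of_forall fun y => by
        have g0 : 0 ≤ gp u G y := by linarith [(gg y).1]
        rw [Real.norm_of_nonneg (Real.rpow_nonneg g0 _)]
        exact Real.rpow_le_rpow g0 (gg y).2.1 (by norm_num))
  have i2 : ∀ j ∈ Finset.range J, Integrable ({y | (32 : ℝ) ^ j ≤ gp u G y}.indicator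
      fun _ => (16 : ℝ) ^ (j + 1)) (volume.restrict (A ∩ ball z R)) := fun j _ =>
    (integrable_const _).indicator (ms j)
  refine ⟨i1, (integral_mono i1 (integrable_finsetSum _ i2) fun y => ?_).trans ?_⟩
  · simpa only [indicator, mem_ofPred_eq] using
      dyad (by linarith [(gg y).1]) ((gg y).2.1.trans_lt hJ)
  rw [integral_finsetSum _ i2]
  have R0 : 0 ≤ K * R ^ (m + 1) := mul_nonneg K0 (pow_nonneg (by linarith) _)
  refine (Finset.sum_le_sum (g := fun j => 16 * (K * R ^ (m + 1)) * (1 / 2) ^ j)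
    fun j _ => ?_).trans ?_
  · rw [integral_indicator_const _ (ms j), measureReal_restrict_apply (ms j), smul_eq_mul]
    have := mul_le_mul_of_nonneg_right (h u G R (32 ^ j) A z hu hA G2 GR (by positivity) hT)
      (show (0 : ℝ) ≤ 16 * (1 / 2) ^ j by positivity)
    rw [show (16 : ℝ) ^ (j + 1) = 32 ^ j * (16 * (1 / 2) ^ j) by
      rw [mul_left_comm, ← mul_pow, pow_succ']; norm_num]
    linarith
  · rw [← Finset.mul_sum]
    linarith [mul_le_mul_of_nonneg_left (sum_geometric_two_le J) (mul_nonneg (by norm_num : (0 : ℝ) ≤ 16) R0)]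

end Vale.Agent.P134E
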