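import Vale.Agent.P134E.Spec

/-!
# P134E, row RAY1: the second core of a ray
-/

open MeasureTheory Metric Filter Topology Set
open scoped ContDiff RealInnerProductSpace
open Vale.Agent.P366.Stmt (E)
open Vale.Agent.P366W (contDiff_gradient inner_grad)

noncomputable section

namespace Vale.Agent.P134E

open Vale.Agent.P134B

namespace Ray1

variable {n : ℕ} {C : ℝ} {u : E n → ℝ}

theorem small (a : ℝ) {b : ℝ} (hb : 0 < b) :
    ∀ᶠ β in 𝓝[>] (0 : ℝ), ∀ ε, 0 < ε → ε ≤ β → a * ε ≤ b := by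
  have h : 0 < b / (|a| + 1) := by positivity
  filter_upwards [Ioc_mem_nhdsGT h] with β hβ ε e0 e1
  have := (le_div_iff₀ (by positivity)).1 (e1.trans hβ.2)
  nlinarith [le_abs_self a]

theorem d_line {F : Type} [NormedAddCommGroup F] [NormedSpace ℝ F] {f : E n → F}
    (hf : Differentiable ℝ f) (x v : E n) (t : ℝ) :
    HasDerivAt (fun t : ℝ => f (x + t • v)) (fderiv ℝ f (x + t • v) v) t :=
  (hf _).hasFDerivAt.comp_hasDerivAt t
    (by simpa using ((hasDerivAt_id t).smul_const v).const_add x)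

theorem dpp (ok : Ok C u) : Differentiable ℝ (pp u) :=
  (contDiff_gradient (k := 1) (ok.smp.of_le (by norm_cast))).differentiable (by norm_num)

theorem dqq (ok : Ok C u) : Differentiable ℝ (qq u) := fun x =>
  ((dpp ok x).norm_sq ℝ).const_sub 1

theorem p1 (ok : Ok C u) (x : E n) : ‖pp u x‖ ≤ 1 := by
  have := ok.q0 x
  unfold qq at this
  nlinarith [norm_nonneg (pp u x)]

/-- the growth of `q` along a segment -/
theorem q_le (ok : Ok C u) (x : E n) {v : E n} (hv : ‖v‖ = 1) {t : ℝ} (ht : 0 ≤ t) :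
    qq u (x + t • v) ≤ Real.exp (C * t) * qq u x := by
  have := norm_le_gronwallBound_of_norm_deriv_right_le (δ := qq u x) (K := C) (ε := 0) (a := 0)
    (b := t) (fun s _ => (d_line (dqq ok) x v s).continuousAt.continuousWithinAt)
    (fun s _ => (d_line (dqq ok) x v s).hasDerivWithinAt)
    (by simp [abs_of_nonneg (ok.q0 x)]) (fun s _ => by
      rw [← inner_grad, Real.norm_of_nonneg (ok.q0 _), add_zero]
      exact (norm_inner_le_norm _ _).trans (by rw [hv, mul_one]; exact ok.q1 _)) t ⟨ht, le_rfl⟩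
  rw [gronwallBound_ε0, sub_zero, mul_comm] at this
  exact (le_abs_self _).trans this

theorem ex_v (y : E n) {ν : E n} (hν : ‖ν‖ = 1) (g t : ℝ) :
    ∃ v : E n, ‖v‖ = 1 ∧ y + t • ν = y + g • ν + |t - g| • v := by
  rcases le_total g t with h | h
  · exact ⟨ν, hν, by rw [abs_of_nonneg (sub_nonneg.2 h)]; module⟩
  · exact ⟨-ν, by rwa [norm_neg], by rw [abs_of_nonpos (sub_nonpos.2 h)]; module⟩

/-- the variation of the tangential part of `p` in a core -/
theorem core (ok : Ok C u) {y ν : E n} {P : E n →L[ℝ] E n} (hν : ‖ν‖ = 1)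
    (hP : ∀ v, ‖P v‖ ≤ ‖v‖) (hd : ∀ v, v = P v + ⟪v, ν⟫ • ν) {g s Q : ℝ}
    (h : ∀ t, |t - g| ≤ s → 1 / 2 ≤ |⟪pp u (y + t • ν), ν⟫| ∧ qq u (y + t • ν) ≤ Q)
    {t : ℝ} (ht : |t - g| ≤ s) : ‖P (pp u (y + t • ν)) - P (pp u (y + g • ν))‖ ≤
      s * (C + 2 * C ^ 2 * s) * Q + 2 * s * C * √Q * ‖P (pp u (y + g • ν))‖ := by
  have C0 : 0 ≤ C := zero_le_one.trans ok.C1
  have s0 : 0 ≤ s := (abs_nonneg _).trans ht
  have hg : g ∈ closedBall g s := mem_closedBall_self s0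
  have Q0 : 0 ≤ Q := (ok.q0 _).trans (h t ht).2
  have S : ∀ t ∈ closedBall g s, ‖SS u (y + t • ν)‖ ≤ C * √Q := fun t ht =>
    (ok.S0 _).trans (mul_le_mul_of_nonneg_left (Real.sqrt_le_sqrt (h t ht).2) C0)
  have D : ∀ t : ℝ, HasDerivAt (fun t : ℝ => P (pp u (y + t • ν))) (P (SS u (y + t • ν) ν)) t :=
    fun t => P.hasFDerivAt.comp_hasDerivAt t (d_line (dpp ok) y ν t)
  have b1 : ∀ t ∈ closedBall g s,
      ‖P (pp u (y + t • ν))‖ ≤ ‖P (pp u (y + g • ν))‖ + C * √Q * s := fun t ht => by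
    have := (convex_closedBall g s).norm_image_sub_le_of_norm_hasDerivWithin_le (C := C * √Q)
      (fun t _ => (D t).hasDerivWithinAt) (fun t ht => (hP _).trans
        (((SS u _).le_opNorm ν).trans (by rw [hν, mul_one]; exact S t ht))) hg ht
    have e : ‖t - g‖ ≤ s := ht
    have k := norm_sub_norm_le (P (pp u (y + t • ν))) (P (pp u (y + g • ν)))
    have := mul_le_mul_of_nonneg_left e (show 0 ≤ C * √Q by positivity)
    linarith
  have := (convex_closedBall g s).norm_image_sub_le_of_norm_hasDerivWithin_le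
    (C := C * Q + 2 * (C * √Q * (‖P (pp u (y + g • ν))‖ + C * √Q * s)))
    (fun t _ => (D t).hasDerivWithinAt) (fun t ht => (hP _).trans (by
      set x := y + t • ν
      have e : ⟪pp u x, ν⟫ • SS u x ν = SS u x (pp u x) - SS u x (P (pp u x)) := by
        rw [← map_smul, ← map_sub, eq_sub_of_add_eq' (hd (pp u x)).symm]
      have a1 : 2 * ‖SS u x (pp u x)‖ ≤ C * Q := by
        have := ok.q1 x
        rw [ok.gq, norm_smul] at this
        norm_num at this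
        exact this.trans (mul_le_mul_of_nonneg_left (h t ht).2 C0)
      have a2 : ‖SS u x (P (pp u x))‖ ≤ C * √Q * (‖P (pp u (y + g • ν))‖ + C * √Q * s) :=
        (SS u x).le_of_opNorm_le_of_le (S t ht) (b1 t ht)
      have a3 := norm_sub_le (SS u x (pp u x)) (SS u x (P (pp u x)))
      rw [← e, norm_smul, Real.norm_eq_abs] at a3
      nlinarith [(h t ht).1, norm_nonneg (SS u x ν)])) hg (show t ∈ closedBall g s from ht)
  refine this.trans ((mul_le_mul_of_nonneg_left (show ‖t - g‖ ≤ s from ht)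
    (by positivity)).trans (le_of_eq ?_))
  linear_combination (2 * C ^ 2 * s ^ 2) * Real.mul_self_sqrt Q0

/-- the tilt at a zero parallel to the foot point -/
theorem tilt {w a b c : E n} {θ δ : ℝ} (hθ : 0 ≤ θ) (wa : ⟪w, a⟫ = 0) (wc : ⟪w, c⟫ = ‖w‖ ^ 2)
    (ab : ‖a - b‖ ≤ δ) (b0 : 1 / 2 ≤ ‖b‖) (b1 : ‖b‖ ≤ 1) (c1 : ‖c‖ ≤ 1)
    (H : ∀ τ, ⟪τ, b⟫ = 0 → |⟪τ, c⟫| ≤ θ * ‖τ‖) : ‖w‖ ≤ 8 * θ + 4 * δ := by
  have δ0 := (norm_nonneg _).trans ab
  have w0 := norm_nonneg w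
  have h1 := H ((‖b‖ ^ 2) • w - ⟪w, b⟫ • b) (by
    rw [inner_sub_left, real_inner_smul_left, real_inner_smul_left, real_inner_self_eq_norm_sq]
    ring)
  rw [inner_sub_left, real_inner_smul_left, real_inner_smul_left, wc] at h1
  have h2 : |⟪w, b⟫| ≤ ‖w‖ * δ := by
    rw [show ⟪w, b⟫ = -⟪w, a - b⟫ by rw [inner_sub_right, wa]; ring, abs_neg]
    exact (abs_real_inner_le_norm _ _).trans (mul_le_mul_of_nonneg_left ab w0)
  have h3 : |⟪b, c⟫| ≤ 1 := (abs_real_inner_le_norm _ _).trans (mul_le_one₀ b1 (norm_nonneg _) c1)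
  have h4 : ‖(‖b‖ ^ 2) • w - ⟪w, b⟫ • b‖ ≤ 2 * ‖w‖ := by
    refine (norm_sub_le _ _).trans ?_
    rw [norm_smul, norm_smul, Real.norm_of_nonneg (sq_nonneg _), Real.norm_eq_abs]
    have k1 : ‖b‖ ^ 2 ≤ 1 := pow_le_one₀ (norm_nonneg _) b1
    have k2 := (abs_real_inner_le_norm w b).trans (mul_le_of_le_one_right w0 b1)
    have k3 := mul_le_of_le_one_right (abs_nonneg ⟪w, b⟫) b1
    nlinarith
  have h5 : ⟪w, b⟫ * ⟪b, c⟫ ≤ ‖w‖ * δ := by
    refine (le_abs_self _).trans ?_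
    rw [abs_mul]
    exact (mul_le_of_le_one_right (abs_nonneg _) h3).trans h2
  have h6 := (le_abs_self _).trans (h1.trans (mul_le_mul_of_nonneg_left h4 hθ))
  have h7 : 1 / 4 * ‖w‖ ^ 2 ≤ ‖b‖ ^ 2 * ‖w‖ ^ 2 :=
    mul_le_mul_of_nonneg_right (by nlinarith) (sq_nonneg _)
  rcases w0.eq_or_lt with h | h
  · rw [← h]; positivity
  · exact le_of_mul_le_mul_left (by nlinarith) h

/-- the solution is positive at the height `2` -/
theorem pos2 (ok : Ok C u) {y : E n} (hy : |ps u y| ≤ 1)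
    (h : ∀ t, |t| ≤ 2 → 3 / 4 ≤ sl u (y, t)) : 0 < u (ray u (y, 2)) := by
  have D := d_line (ok.smp.differentiable (by simp)) y (nu u y)
  obtain ⟨c, hc, e⟩ := exists_hasDerivAt_eq_slope _ _ (two_pos (α := ℝ))
    (fun s _ => (D s).continuousAt.continuousWithinAt) fun s _ => D s
  have k := h c (by rw [abs_of_pos hc.1]; exact hc.2.le)
  rw [← inner_grad] at e
  replace k : 3 / 4 ≤ (ps u (y + (2 : ℝ) • nu u y) - ps u (y + (0 : ℝ) • nu u y)) / (2 - 0) :=
    e ▸ k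
  rw [zero_smul, add_zero] at k
  have p : 0 < ps u (ray u (y, 2)) := by
    show 0 < ps u (y + (2 : ℝ) • nu u y)
    linarith [(abs_le.1 hy).1]
  rw [ok.th, Real.tanh_eq_sinh_div_cosh]
  exact div_pos (Real.sinh_pos_iff.2 (by positivity)) (Real.cosh_pos _)

theorem slope_le {η q w s : ℝ} (η0 : 0 < η) (η1 : η ≤ 1 / 2) (hq : q ≤ η / 4) (w0 : 0 ≤ w)
    (hw : w ≤ η / 2) (e : 1 - q = w ^ 2 + s ^ 2) (hs : s ≤ 0) : s ≤ -(1 - η / 2) := by
  by_contra h
  push Not at h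
  nlinarith

theorem sqrt_le {η s C Q : ℝ} (η0 : 0 < η) (s0 : 0 < s) (C0 : 0 < C)
    (h : (2 * s * C) ^ 2 * Q ≤ η ^ 2) : 2 * s * C * √Q ≤ η := by
  rw [← Real.sqrt_sq (show 0 ≤ 2 * s * C by positivity), ← Real.sqrt_mul (sq_nonneg _)]
  exact Real.sqrt_le_iff.2 ⟨η0.le, h⟩

theorem fin (ok : Ok C u) {y : E n} {g s η η' K L B : ℝ} (ν1 : ‖nu u y‖ = 1)
    (T1 : ∀ v, ‖Pj u y v‖ ≤ ‖v‖ ∧ ‖v‖ ^ 2 = ‖Pj u y v‖ ^ 2 + ⟪v, nu u y⟫ ^ 2) (s0 : 0 < s)
    (sL : 2 * L ≤ s) (η0 : 0 < η) (η1 : η ≤ 1 / 2) (η2 : η ≤ η')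
    (hK : Real.exp (C * s) + s * (C + 2 * C ^ 2 * s) * Real.exp (C * s) ≤ K)
    (z0 : u (ray u (y, g)) = 0) (sg : sl u (y, g) ≤ 0)
    (wg : ‖Pj u y (pp u (ray u (y, g)))‖ ≤ η / 2) (B1 : B ≤ η / 4)
    (B2 : (2 * s * C) ^ 2 * (Real.exp (C * s) * B) ≤ η ^ 2)
    (sg1 : ∀ t, |t - g| ≤ s → ‖pp u (ray u (y, t)) - pp u (ray u (y, g))‖ ≤ η / 4 ∧
      qq u (ray u (y, t)) ≤ B ∧ qq u (ray u (y, t)) ≤ Real.exp (C * s) * qq u (ray u (y, g))) :
    R1 K η' L u y g := by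
  have C0 : 0 < C := one_pos.trans_le ok.C1
  have qg := (sg1 g (by simpa using s0.le)).2.1
  have sg2 : sl u (y, g) ≤ -(1 - η / 2) :=
    slope_le η0 η1 (qg.trans B1) (norm_nonneg _) wg
      (by rw [qq, sub_sub_cancel]; exact (T1 _).2) sg
  have sg3 : ∀ t, |t - g| ≤ s → sl u (y, t) ≤ -(1 - η) := fun t ht => by
    have a := real_inner_le_norm (pp u (ray u (y, t)) - pp u (ray u (y, g))) (nu u y)
    rw [ν1, mul_one, inner_sub_left] at a
    have b : sl u (y, t) - sl u (y, g) ≤ η / 4 := a.trans (sg1 t ht).1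
    linarith
  have q0 := ok.q0 (ray u (y, g))
  have E0 := Real.exp_pos (C * s)
  have K0 : 0 ≤ s * (C + 2 * C ^ 2 * s) * Real.exp (C * s) := by positivity
  refine ⟨z0, fun t ht => ?_⟩
  replace ht := ht.trans sL
  refine ⟨by linarith [sg3 t ht], by linarith [(sg1 t ht).2.1],
    (sg1 t ht).2.2.trans (mul_le_mul_of_nonneg_right (by linarith) q0), ?_, ?_⟩
  · have a := ((T1 _).1).trans (sg1 t ht).1
    rw [map_sub] at a
    linarith [norm_sub_norm_le (Pj u y (pp u (ray u (y, t)))) (Pj u y (pp u (ray u (y, g))))]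
  · refine (core ok (P := Pj u y) (Q := Real.exp (C * s) * qq u (ray u (y, g))) ν1
      (fun v => (T1 v).1) (fun v => by simp [Pj, real_inner_comm]) (fun t ht => ⟨?_,
        (sg1 t ht).2.2⟩) ht).trans (add_le_add ?_ (mul_le_mul_of_nonneg_right
          ((sqrt_le η0 s0 C0 (le_trans ?_ B2)).trans η2) (norm_nonneg _)))
    · have := sg3 t ht
      exact le_abs.2 (Or.inr (by show _ ≤ -sl u (y, t); linarith))
    · rw [← mul_assoc]
      exact mul_le_mul_of_nonneg_right (by linarith) q0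
    · exact mul_le_mul_of_nonneg_left (mul_le_mul_of_nonneg_left qg E0.le) (sq_nonneg _)

end Ray1

open Ray1

/-- **RAY1** -/
theorem ray1 : rRAY1 := by
  intro tgc seg foot greg par ray0 m C L
  by_cases hC : 1 ≤ C
  swap
  · exact ⟨0, fun K _ η _ => ⟨1, one_pos, fun u ε G y ok => absurd ok.C1 hC⟩⟩
  obtain ⟨s, s1, sL⟩ : ∃ s : ℝ, 1 ≤ s ∧ 2 * L ≤ s := ⟨_, le_max_left _ _, le_max_right _ _⟩
  obtain ⟨K₁, k1, seg⟩ := seg (m + 1) C (s + 1)
  obtain ⟨K₂, ε₀, e0, foot⟩ := foot (m + 1) C 1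
  obtain ⟨K₃, ray0⟩ := ray0 m C 1
  obtain ⟨β₃, b3, ray0⟩ := ray0 K₃ le_rfl (1 / 4) (by norm_num)
  have s0 : 0 < s := one_pos.trans_le s1
  have C0 : 0 < C := one_pos.trans_le hC
  refine ⟨Real.exp (C * s) + s * (C + 2 * C ^ 2 * s) * Real.exp (C * s), fun K hK η' hη => ?_⟩
  obtain ⟨η, η0, η1, η2⟩ : ∃ η : ℝ, 0 < η ∧ η ≤ 1 / 2 ∧ η ≤ η' :=
    ⟨min (1 / 2) η', lt_min (by norm_num) hη, min_le_left _ _, min_le_right _ _⟩
  obtain ⟨β₄, b4, par⟩ := par m C (η / 32) (by positivity)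
  obtain ⟨β, β0, h1, h2, h3, h4, h5, h6, h7, h8⟩ := (eventually_mem_nhdsWithin.and
    ((small s one_pos).and ((small 1 e0).and ((small 1 b3).and ((small 2 b4).and
    ((small (K₁ * s ^ 2) (show 0 < η / 4 by positivity)).and
    ((small K₂ (show 0 < η / 16 by positivity)).and
    ((small ((2 * s * C) ^ 2 * (Real.exp (C * s) * K₁)) (show 0 < η ^ 2 by positivity)).and
    (small 1 one_pos))))))))).exists
  refine ⟨β, β0, fun u ε G y ok th hβ gG => ?_⟩
  have ε0 := th.e0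
  have G2 := th.G2
  have Gε : 0 < G * ε := by positivity
  have εG : 2 * ε ≤ G * ε := mul_le_mul_of_nonneg_right G2 ε0.le
  have εβ : ε ≤ β := by linarith
  replace h1 := h1 ε ε0 εβ
  replace h2 := h2 ε ε0 εβ
  replace h3 := h3 _ Gε hβ
  replace h4 := h4 _ Gε hβ
  replace h5 := h5 ε ε0 εβ
  replace h6 := h6 ε ε0 εβ
  replace h7 := h7 ε ε0 εβ
  replace h8 := h8 _ Gε hβ
  obtain ⟨p0, r0⟩ := ray0 u ε G y ok th (by linarith)
  obtain ⟨ν1, -, -, -, -, -, -, T1, T2, -⟩ := (tgc _ C u ok).2.2.2.1 y p0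
  obtain ⟨g2, -, -, -, -, z0, -⟩ := (greg _ C G u ok G2).2 y
  obtain ⟨z0, sg⟩ := z0 gG (pos2 ok th.ps fun t ht => by linarith [(r0 t (by linarith)).1])
  set g := gp u G y
  have xy : ‖ray u (y, g) - y‖ ≤ G := by
    simp only [ray, add_sub_cancel_left, norm_smul, ν1, mul_one, Real.norm_eq_abs]
    rw [abs_of_nonneg (by linarith)]
    exact gG.le
  -- the tilt at the zero
  have py : 3 / 4 ≤ ‖pp u y‖ := by
    have a := (r0 0 (by simp)).1
    have b := real_inner_le_norm (pp u (ray u (y, 0))) (nu u y)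
    rw [ν1, mul_one, show ray u (y, 0) = y by simp [ray]] at b
    rw [sl, show ray u (y, 0) = y by simp [ray]] at a
    linarith
  obtain ⟨z, uz, zy, pz⟩ := foot u ε y ok ε0 (by linarith) (fun x hx => th.gd x
    (ball_subset_ball (by rw [le_div_iff₀ ε0]; linarith) hx)) th.ps
  have wg : ‖Pj u y (pp u (ray u (y, g)))‖ ≤ η / 2 := by
    have := tilt (θ := η / 32) (w := Pj u y (pp u (ray u (y, g)))) (a := pp u y) (b := pp u z)
      (c := pp u (ray u (y, g))) (by positivity) (by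
        have := (T1 (pp u (ray u (y, g)))).2.1
        rw [nu, real_inner_smul_right] at this
        exact (mul_eq_zero.1 this).resolve_left (inv_ne_zero (norm_ne_zero_iff.2 p0)))
      (by rw [← real_inner_self_eq_norm_sq, (T2 _ (Pj u y _)).1, (T1 _).2.2.1, real_inner_comm])
      pz (by linarith [norm_sub_norm_le (pp u y) (pp u z)]) (p1 ok _) (p1 ok _) fun τ hτ =>
        par u ε z _ τ ok ε0 (by linarith) (fun x hx => th.gd x (ball_subset_ball' (by
          have : 2 ≤ 2 / ε := by rw [le_div_iff₀ ε0]; linarith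
          rw [dist_eq_norm, show 4 / ε = 2 / ε + 2 / ε by ring]
          linarith) hx)) uz z0 (by
          have a := norm_sub_le_norm_sub_add_norm_sub (ray u (y, g)) y z
          rw [norm_sub_rev y z] at a
          have := mul_le_mul_of_nonneg_right (show ‖ray u (y, g) - z‖ ≤ 2 * G by linarith) ε0.le
          linarith) hτ
    linarith
  -- the segment
  have sg1 : ∀ t, |t - g| ≤ s → ‖pp u (ray u (y, t)) - pp u (ray u (y, g))‖ ≤ η / 4 ∧
      qq u (ray u (y, t)) ≤ K₁ * ε ^ 2 ∧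
      qq u (ray u (y, t)) ≤ Real.exp (C * s) * qq u (ray u (y, g)) := fun t ht => by
    obtain ⟨v, v1, e⟩ := ex_v y ν1 g t
    replace e : ray u (y, t) = ray u (y, g) + |t - g| • v := e
    obtain ⟨a, b⟩ := seg u ε (ray u (y, g)) v s ok ε0 v1.le s0.le (fun τ hτ => th.gd _ (by
      rw [mem_ball, dist_eq_norm, add_sub_right_comm, lt_div_iff₀ ε0]
      have a := norm_add_le (ray u (y, g) - y) (τ • v)
      rw [norm_smul, v1, mul_one, Real.norm_of_nonneg hτ.1] at a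
      have := mul_le_mul_of_nonneg_right
        (show ‖ray u (y, g) - y + τ • v‖ ≤ G + s by linarith [hτ.2]) ε0.le
      linarith)) (by
      have a : |pe u v (ray u (y, g))| ≤ 1 := (abs_real_inner_le_norm _ _).trans (by
        rw [v1, mul_one]; exact p1 ok _)
      have := mul_le_of_le_one_left s0.le a
      rw [ps, z0]
      norm_num
      linarith) _ ⟨abs_nonneg _, ht⟩
    rw [e]
    refine ⟨a.trans ?_, b, (q_le ok _ v1 (abs_nonneg _)).trans ?_⟩
    · have := mul_le_mul_of_nonneg_left (ht.trans (le_self_pow₀ s1 two_ne_zero))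
        (show 0 ≤ K₁ * ε by positivity)
      linarith
    · exact mul_le_mul_of_nonneg_right (Real.exp_le_exp.2 (mul_le_mul_of_nonneg_left ht C0.le))
        (ok.q0 _)
  have k0 : 0 ≤ K₁ * ε := by positivity
  have ε1 : ε ≤ 1 := by linarith
  refine fin ok ν1 (fun v => ⟨(T1 v).1, (T1 v).2.2.2⟩) s0 sL η0 η1 η2 hK z0 sg wg ?_
    (le_trans ?_ h7) sg1
  · have := mul_le_mul_of_nonneg_left (ε1.trans (one_le_pow₀ (n := 2) s1)) k0
    linarith
  · rw [mul_assoc _ (Real.exp (C * s) * K₁), mul_assoc _ K₁, sq ε, ← mul_assoc K₁]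
    exact mul_le_mul_of_nonneg_left (mul_le_mul_of_nonneg_left (mul_le_of_le_one_right k0 ε1)
      (Real.exp_pos _).le) (sq_nonneg _)

end Vale.Agent.P134E
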