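import Vale.Agent.P134E.Defs

/-!
# P134E: the rows of the test in the tube
-/

set_option linter.unusedVariables false

open MeasureTheory Metric Filter Topology Set
open scoped ContDiff RealInnerProductSpace
open Vale.Agent.P366.Stmt (E)
open Vale.Agent.P366W (dvg trc)

noncomputable section

namespace Vale.Agent.P134E

open Vale.Agent.P134B

variable {n m : ℕ}

/-! ## Profiles -/

/-- the smooth step -/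
def st (x : ℝ) : ℝ := Real.smoothTransition x
/-- a bump, `1` on `[-1, 1]`, `0` outside `(-2, 2)` -/
def bp (x : ℝ) : ℝ := st (x + 2) * st (2 - x)
/-- the derivative of the heteroclinic solution -/
def f0 (s : ℝ) : ℝ := (1 - Real.tanh (s / √2) ^ 2) / √2
/-- the radial profile -/
def Tq (μ q : ℝ) : ℝ := √(1 - (1 - μ) * q)

/-- the profiles in the phase -/
structure Ga (l ℓ : ℝ) (γ κ Kp : ℝ → ℝ) : Prop where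
  l0 : 0 < l
  l1 : l ≤ 1 / 200
  ℓ1 : 2 ≤ ℓ
  cγ : ContDiff ℝ 2 γ
  cκ : ContDiff ℝ 1 κ
  γ0 : ∀ s, 0 ≤ γ s ∧ γ s ≤ 1 ∧ deriv γ s ≤ 0 ∧ |deriv γ s| ≤ 1 ∧ |deriv (deriv γ) s| ≤ 1
  lo : ∀ s, s ≤ 1 → γ s = 1
  hi : ∀ s, ℓ ≤ s → γ s = 0
  dz : ∀ s, s ≤ 1 ∨ ℓ ≤ s → deriv γ s = 0 ∧ deriv (deriv γ) s = 0
  κ0 : ∀ s, 0 ≤ κ s ∧ κ s ≤ 1 ∧ deriv γ s ≤ deriv κ s
  κz : ∀ s, ℓ ≤ |s| → κ s = 0 ∧ deriv κ s = 0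
  key : ∀ s, 69 / 50 * -deriv γ s - l / 2 * (√2 * f0 s) ≤
    (1 - 2 * l) * (deriv (deriv γ) s / 2 - √2 * Real.tanh (s / √2) * deriv γ s)
  Kd : ∀ s, HasDerivAt Kp (κ s * f0 s ^ 2) s
  Klo : (1 - 1 / 500) * sg ≤ Kp ℓ - Kp (-ℓ)
  Khi : Kp ℓ - Kp (-ℓ) ≤ sg

/-- **PRG** -/
def PRG : Prop := ∀ l : ℝ, 0 < l → l ≤ 1 / 200 → ∃ ℓ γ κ Kp, Ga l ℓ γ κ Kp

/-- the profile behind the outer ridges -/
structure K1 (l δ₀ B : ℝ) (k : ℝ → ℝ) : Prop where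
  c2 : ∀ q ∈ Icc (0 : ℝ) 1, ContDiffAt ℝ 2 k q
  eq : ∀ q ∈ Icc (0 : ℝ) 1, 1 - 4 * δ₀ ^ 2 ≤ q → k q = Tq l q
  ze : ∀ q, q ≤ 15 / 16 → k q = 0
  nn : ∀ q ∈ Icc (0 : ℝ) 1, 0 ≤ k q ∧ k q ≤ 1
  b1 : ∀ q ∈ Icc (0 : ℝ) 1, k q * |deriv k q| ≤ B ∧ k q * |deriv (deriv k) q| * (1 - q) ≤ B
  b2 : ∀ q ∈ Icc (0 : ℝ) 1, q ≤ 1 - 16 * δ₀ ^ 2 →
    k q * |deriv k q| ≤ B * l ∧ k q * |deriv (deriv k) q| ≤ B * l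

/-- **PRK** -/
def PRK : Prop := ∃ B ≥ (0 : ℝ), ∀ l δ₀ : ℝ, 0 < δ₀ → δ₀ ≤ l → l ≤ 1 / 200 → ∃ k, K1 l δ₀ B k

/-- the profiles in the gap -/
structure Pf (K ι g₀ S G : ℝ) (F Θ : ℝ → ℝ) : Prop where
  c1 : ∀ s, 1 < s → ContDiffAt ℝ 1 F s ∧ ContDiffAt ℝ 1 Θ s
  ze : ∀ s, G - 1 ≤ s → F s = 0 ∧ Θ s = 0
  bd : ∀ s, g₀ ≤ s → 0 ≤ Θ s ∧ Θ s ≤ 131 / 100 * F s ^ 2 ∧ 0 ≤ -deriv Θ s ∧
    deriv F s ^ 2 ≤ (1 + 1 / 500) * -deriv Θ s + ι ∧ Θ s ^ 2 ≤ K * F s ^ 2 * -deriv Θ s ∧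
    Θ s ≤ K * s * -deriv Θ s ∧ -deriv Θ s ≤ K * (F s ^ 2 + ι)
  up : ∀ s, 1 < s → F s ^ 2 ≤ K * (s / S) ^ (4 / 5 : ℝ)
  lo : ∀ s, 1 < s → s ≤ S → (s / S) ^ (4 / 5 : ℝ) ≤ F s ^ 2

/-- **PRS** -/
def PRS : Prop := ∃ K ≥ (1 : ℝ), ∃ g₀ ≥ (2 : ℝ), ∀ S G : ℝ, 1 ≤ S → 2 * S + 2 ≤ G →
  ∃ F Θ, Pf K (K * G * Real.exp (-(26 / 5 * (G - 2 * S)))) g₀ S G F Θ

/-! ## The pointwise gain -/

/-- the density of the gain -/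
def gn (u : E n → ℝ) (x : E n) : ℝ := ff u x ^ 2 * (PP u x + hs (SS u x))
/-- the main profile -/
def M0 (l : ℝ) (γ : ℝ → ℝ) (u : E n → ℝ) (x : E n) : ℝ :=
  γ (ps u x) * Tq l (qq u x) + (1 - γ (ps u x)) * Tq (1 - l) (qq u x)
/-- the profile behind the ridges -/
def M1 (k : ℝ → ℝ) (u : E n → ℝ) (x : E n) : ℝ := k (qq u x)
/-- the field of the integration by parts -/
def YY (γ : ℝ → ℝ) (u : E n → ℝ) (x : E n) : E n := (EE u x * deriv γ (ps u x)) • pp u x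

/-- **CVQ**: functions of `q` -/
def CVQ : Prop := ∀ (n : ℕ) (C : ℝ) (u : E n → ℝ), Ok C u → ContDiff ℝ ∞ (qq u) ∧
  (∀ x, qq u x ≤ 1 ∧ 0 ≤ PP u x ∧ PP u x ≤ 1 ∧ 0 ≤ hs (SS u x) ∧ hs (SS u x) ≤ n * C ^ 2 * qq u x ∧
    ∀ v, ‖SS u x v‖ ^ 2 ≤ hs (SS u x) * ‖v‖ ^ 2) ∧
  (∀ (k : ℝ → ℝ) (x : E n), ContDiffAt ℝ 2 k (qq u x) → ContDiffAt ℝ 2 (fun y => k (qq u y)) x ∧
    gradient (fun y => k (qq u y)) x = deriv k (qq u x) • gradient (qq u) x ∧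
    Lf u (fun y => k (qq u y)) x =
      deriv k (qq u x) * (-2 * hs (SS u x) + 2 * PP u x * ‖pp u x‖ ^ 2) +
        4 * deriv (deriv k) (qq u x) * ‖SS u x (pp u x)‖ ^ 2) ∧
  ∀ μ : ℝ, 0 < μ → μ < 1 → ContDiff ℝ 2 (fun y => Tq μ (qq u y)) ∧ ∀ x,
    0 < Tq μ (qq u x) ∧ Tq μ (qq u x) ≤ 1 ∧ Tq μ (qq u x) ^ 2 = μ + (1 - μ) * ‖pp u x‖ ^ 2 ∧
    μ * PP u x + μ * (1 - μ) * hs (SS u x) / Tq μ (qq u x) ^ 2 ≤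
      Tq μ (qq u x) * LP u (fun y => Tq μ (qq u y)) x

/-- **GN0**: the gain of the main profile -/
def GN0 : Prop := ∀ (n : ℕ) (C l ℓ : ℝ), ∃ q₁ > (0 : ℝ), ∀ (u : E n → ℝ) (γ κ Kp : ℝ → ℝ),
  Ok C u → Ga l ℓ γ κ Kp → ContDiff ℝ 2 (M0 l γ u) ∧ ContDiff ℝ 1 (YY γ u) ∧ ∀ x,
    0 ≤ M0 l γ u x ∧ M0 l γ u x ≤ 1 ∧
    (ps u x < 1 → M0 l γ u =ᶠ[𝓝 x] fun y => Tq l (qq u y)) ∧
    (ps u x ≤ 1 ∨ ℓ ≤ ps u x → dvg (YY γ u) x = 0) ∧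
    (qq u x ≤ q₁ ∨ ps u x ≤ 1 ∨ ℓ ≤ ps u x →
      l / 4 * gn u x + 69 / 50 * (EE u x * -deriv γ (ps u x)) - (1 - 2 * l) * dvg (YY γ u) x ≤
        ff u x ^ 2 * M0 l γ u x * LP u (M0 l γ u) x)

/-- **GN1**: the loss behind the ridges -/
def GN1 : Prop := ∀ (n : ℕ) (C B : ℝ), ∃ K ≥ (0 : ℝ), ∀ (u : E n → ℝ) (l δ₀ : ℝ) (k : ℝ → ℝ),
  Ok C u → 0 < l → 0 < δ₀ → K1 l δ₀ B k → ContDiff ℝ 2 (M1 k u) ∧ ∀ x,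
    0 ≤ M1 k u x ∧ M1 k u x ≤ 1 ∧
    (‖pp u x‖ < 2 * δ₀ → M1 k u =ᶠ[𝓝 x] fun y => Tq l (qq u y)) ∧
    (1 / 4 ≤ ‖pp u x‖ → M1 k u x = 0) ∧
    -K ≤ M1 k u x * LP u (M1 k u) x ∧
    (4 * δ₀ ≤ ‖pp u x‖ → -(K * l) ≤ M1 k u x * LP u (M1 k u) x)

/-- **FARC**: the loss behind a ridge is paid by the gain in front of it -/
def FARC : Prop := ∀ K : ℝ, 1 ≤ K → ∃ l₀ > (0 : ℝ), ∀ (l δ₀ ε δ T : ℝ)
  (ψ s d q u f a J H g : ℝ → ℝ), 0 < δ₀ → δ₀ ≤ l → l ≤ l₀ → Ln ε δ T ψ s d q u f →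
  (∀ t, |d t| ≤ K) → AntitoneOn a (Ici 0) → (∀ t, 0 ≤ a t) → ContinuousOn a (Icc 0 T) →
  ContinuousOn J (Icc 0 T) → ContinuousOn H (Icc 0 T) → ContinuousOn g (Icc 0 T) →
  (∀ t ∈ Icc 0 T, 1 / 2 ≤ J t ∧ J t ≤ 2) →
  (∀ t ∈ Iv s T (-(3 / 4)), 0 ≤ t → 0 ≤ g t ∧ (-(δ₀ / 2) ≤ s t → g t ≤ H t) ∧
    (0 ≤ s t → s t ≤ √l → f t ^ 2 * d t ^ 2 / 4 ≤ g t) ∧ -(K * f t ^ 2) ≤ H t ∧
    (s t ≤ -(4 * δ₀) → -(K * l * f t ^ 2) ≤ H t)) →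
  (∫ t in Iv s T (-(3 / 4)) ∩ Ici 0, a t ^ 2 * st (2 * s t) * g t * J t) / 2 ≤
    ∫ t in Iv s T (-(3 / 4)) ∩ Ici 0, a t ^ 2 * H t * J t

def rGN0 : Prop := CVQ → GN0
def rGN1 : Prop := CVQ → GN1
def rFARC : Prop := COL → FARC

/-! ## The geometry of a ray -/

/-- the data of the outer side of the zero at the height `t₀`, in the direction `σ` -/
structure Lr (u : E n → ℝ) (y : E n) (t₀ σ ε δ T : ℝ) : Prop where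
  ln : Ln ε δ T (fun t => -ps u (ray u (y, t₀ + σ * t))) (fun t => -σ * sl u (y, t₀ + σ * t))
    (fun t => -⟪SS u (ray u (y, t₀ + σ * t)) (nu u y), nu u y⟫)
    (fun t => qq u (ray u (y, t₀ + σ * t))) (fun t => -u (ray u (y, t₀ + σ * t)))
    fun t => ff u (ray u (y, t₀ + σ * t))
  ti : ∀ t, |t| ≤ T → ‖Pj u y (pp u (ray u (y, t₀ + σ * t)))‖ ≤ δ

/-- the linear algebra along the ray -/
def RA (K η : ℝ) (u : E n → ℝ) (ε G : ℝ) (y : E n) : Prop :=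
  |trc (BB u y)| ≤ K * qq u y ∧ ∀ t, |t| ≤ G + 65 * lg ε → (y, t) ∈ UU u ∧ ‖t • BB u y‖ ≤ η ∧
    |JJ u (y, t) - 1| ≤ η ∧ (∀ v, ‖Ai u (y, t) v - v‖ ≤ η * ‖v‖) ∧
    ∃ b, (1 - η) * hs (BB u y) ≤ b ∧ b ≤ (1 + η) * hs (BB u y) ∧
      trc (Ai u (y, t) ∘L BB u y) = trc (BB u y) - t * b

/-- the first core -/
def R0 (K η L : ℝ) (u : E n → ℝ) (y : E n) : Prop := pp u y ≠ 0 ∧ ∀ t, |t| ≤ 2 * L →
  1 - η ≤ sl u (y, t) ∧ qq u (ray u (y, t)) ≤ η ∧ qq u (ray u (y, t)) ≤ K * qq u y ∧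
    ‖Pj u y (pp u (ray u (y, t)))‖ ≤ K * qq u y

/-- the second core -/
def R1 (K η L : ℝ) (u : E n → ℝ) (y : E n) (g : ℝ) : Prop := u (ray u (y, g)) = 0 ∧
  ∀ t, |t - g| ≤ 2 * L → sl u (y, t) ≤ -(1 - η) ∧ qq u (ray u (y, t)) ≤ η ∧
    qq u (ray u (y, t)) ≤ K * qq u (ray u (y, g)) ∧ ‖Pj u y (pp u (ray u (y, t)))‖ ≤ η ∧
    ‖Pj u y (pp u (ray u (y, t))) - Pj u y (pp u (ray u (y, g)))‖ ≤
      K * qq u (ray u (y, g)) + η * ‖Pj u y (pp u (ray u (y, g)))‖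

/-- the gap -/
def RM (C L ℓ : ℝ) (u : E n → ℝ) (y : E n) (g : ℝ) : Prop := 8 * L ≤ g ∧
  (∀ t ∈ Icc 0 g, ff u (ray u (y, t)) ≤ 8 * C * Real.exp (-(min t (g - t) / 2))) ∧
  (∀ t ∈ Icc L (g - L), ℓ < ps u (ray u (y, t))) ∧
  ∀ t ∈ Icc L (2 * L), ps u (ray u (y, -t)) < -ℓ ∧ ps u (ray u (y, g + t)) < -ℓ

/-- the outer sides -/
def RF (δ : ℝ) (u : E n → ℝ) (ε : ℝ) (y : E n) (g : ℝ) : Prop :=
  (∃ t₀, |t₀| ≤ 3 / 2 ∧ Lr u y t₀ (-1) ε δ (65 * lg ε)) ∧ Lr u y g 1 ε δ (65 * lg ε)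

/-- all the facts about a ray -/
structure Ry (C K η L ℓ δ : ℝ) (u : E n → ℝ) (ε G : ℝ) (y : E n) : Prop where
  η0 : 0 < η
  η1 : η ≤ 1 / 1000
  L1 : 2 ≤ L
  lg : 2 * L + 3 ≤ lg ε
  th : Th u ε G y
  gG : gp u G y < G
  ra : RA K η u ε G y
  r0 : R0 K η L u y
  r1 : R1 K η L u y (gp u G y)
  rm : RM C L ℓ u y (gp u G y)
  rf : RF δ u ε y (gp u G y)

/-- quantification over the base points in the thin region -/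
def ForT (P : ∀ (m : ℕ) (K η L : ℝ) (u : E (m + 1) → ℝ) (ε G : ℝ) (y : E (m + 1)), Prop) : Prop :=
  ∀ (m : ℕ) (C L : ℝ), ∃ K₀ : ℝ, ∀ K ≥ K₀, ∀ η > (0 : ℝ), ∃ β > (0 : ℝ),
    ∀ (u : E (m + 1) → ℝ) (ε G : ℝ) (y : E (m + 1)), Ok C u → Th u ε G y → G * ε ≤ β →
      P m K η L u ε G y

/-- **RAYA** -/
def RAYA : Prop := ForT fun _ K η _ u ε G y => RA K η u ε G y
/-- **RAY0** -/
def RAY0 : Prop := ForT fun _ K η L u _ _ y => R0 K η L u y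
/-- **RAY1** -/
def RAY1 : Prop := ForT fun _ K η L u _ G y => gp u G y < G → R1 K η L u y (gp u G y)
/-- **LOW**: the gap is at least logarithmic, with the sharp constant -/
def LOW : Prop := ∀ (m : ℕ) (C : ℝ), ∃ K : ℝ, ∃ β > (0 : ℝ), ∀ (u : E (m + 1) → ℝ) (ε G : ℝ)
  (y : E (m + 1)), Ok C u → Th u ε G y → G * ε ≤ β → gp u G y < G → √2 * lg ε - K ≤ gp u G y
/-- **RAYM** -/
def RAYM : Prop := ∀ (m : ℕ) (C ℓ : ℝ), ∃ L₀ : ℝ, ∀ L ≥ L₀, ∃ β > (0 : ℝ),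
  ∀ (u : E (m + 1) → ℝ) (ε G : ℝ) (y : E (m + 1)), Ok C u → Th u ε G y → G * ε ≤ β →
  gp u G y < G → RM C L ℓ u y (gp u G y)
/-- **RAYF** -/
def RAYF : Prop := ∀ (m : ℕ) (C δ : ℝ), 0 < δ → δ ≤ 1 / 1000 → ∃ β > (0 : ℝ),
  ∀ (u : E (m + 1) → ℝ) (ε G : ℝ) (y : E (m + 1)), Ok C u → Th u ε G y → G * ε ≤ β →
  (∃ t₀, |t₀| ≤ 3 / 2 ∧ Lr u y t₀ (-1) ε δ (65 * lg ε)) ∧
    (gp u G y < G → Lr u y (gp u G y) 1 ε δ (65 * lg ε))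
/-- **RAY** -/
def RAY : Prop := ∀ (m : ℕ) (C ℓ : ℝ), ∃ L₀ : ℝ, ∀ L ≥ L₀, ∃ K ≥ (1 : ℝ), ∀ η δ : ℝ, 0 < η →
  η ≤ 1 / 1000 → 0 < δ → δ ≤ 1 / 1000 → ∃ β > (0 : ℝ), ∀ (u : E (m + 1) → ℝ) (ε G : ℝ)
  (y : E (m + 1)), Ok C u → Th u ε G y → G * ε ≤ β →
  pp u y ≠ 0 ∧ (gp u G y < G → Ry C K η L ℓ δ u ε G y)

def rRAYA : Prop := TGC → ALG → RAYA
def rRAY0 : Prop := TGC → SEG → RAY0
def rRAY1 : Prop := TGC → SEG → FOOT → GREG → PAR2 → RAY0 → RAY1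
def rLOW : Prop := TGC → FOOT → TL → ZT → GREG → RAY0 → RAY1 → LOW
def rRAYM : Prop := TGC → GREG → SLAB → RAY0 → RAY1 → LOW → RAYM
def rRAYF : Prop := TGC → SYM → SEG → TL → ZT → LN0 → RAY0 → RAY1 → RAYF
def rRAY : Prop := RAYA → RAY0 → RAY1 → RAYM → RAYF → RAY

/-! ## The test functions -/

section

variable (u e ζ : E n → ℝ) (G L δ₀ l : ℝ) (γ κ k F Θ : ℝ → ℝ)

/-- the slope, seen from the nearer sheet -/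
def sv (z : E n × ℝ) : ℝ := if z.2 < 2 then sl u z else if gp u G z.1 - 2 < z.2 then -sl u z else 1
/-- the part of the tube in front of the outer cuts -/
def WW : Set (E n × ℝ) := {z | ∀ t ∈ uIcc 0 z.2, -(3 / 4) < sv u G (z.1, t)}
/-- the cut behind the outer ridges -/
def aW (z : E n × ℝ) : ℝ := (WW u G).indicator (fun w => st (8 * sv u G w + 5)) z
/-- the cut in the depth -/
def aT (z : E n × ℝ) : ℝ :=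
  st (z.2 + 64 * lg (e z.1)) * st (gp u G z.1 + 64 * lg (e z.1) - z.2)
/-- the cut -/
def aa (z : E n × ℝ) : ℝ := aT u e G z * aW u G z
/-- the switch at the outer ridges -/
def th (z : E n × ℝ) : ℝ := st (sv u G z / δ₀ + 1 / 2)
/-- the window around the first core -/
def w0 (z : E n × ℝ) : ℝ := bp (z.2 / L)
/-- the window around the second core -/
def w1 (z : E n × ℝ) : ℝ := bp ((z.2 - gp u G z.1) / L)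
/-- the amplitude -/
def et (y : E n) : ℝ := F (gp u G y) * ζ y
/-- the tangential gradient of the amplitude -/
def vb (y : E n) : E n := (deriv F (gp u G y) * ζ y) • Vg u y (gp u G y) +
  F (gp u G y) • Pj u y (gradient ζ y)
/-- the tangential gradient of the multiplier -/
def va (y : E n) : E n := (deriv Θ (gp u G y) * ζ y ^ 2) • Vg u y (gp u G y) +
  (2 * Θ (gp u G y) * ζ y) • Pj u y (gradient ζ y)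
/-- the test function of the stability inequality -/
def xi (z : E n × ℝ) : ℝ := et u ζ G F z.1 * aa u e G z
/-- the test function of the stress identity -/
def pS (z : E n × ℝ) : ℝ :=
  Θ (gp u G z.1) * ζ z.1 ^ 2 * (κ (ps u (ray u z)) * (w1 u G L z - w0 L z))
/-- the test function of the integration by parts -/
def pY (z : E n × ℝ) : ℝ := et u ζ G F z.1 ^ 2 * (w0 L z + w1 u G L z)

/-- the density of `Ia` -/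
def ia (a : E n) (z : E n × ℝ) : ℝ := κ (ps u (ray u z)) * (w1 u G L z - w0 L z) *
  (ff u (ray u z) ^ 2 * sl u z * ⟪Ai u z a, pp u (ray u z)⟫) * JJ u z
/-- the density of `Ib` -/
def ib (z : E n × ℝ) : ℝ := (w1 u G L z - w0 L z) *
  (-(deriv κ (ps u (ray u z)) * EE u (ray u z) * sl u z / 2) + κ (ps u (ray u z)) * Cu u z) *
    JJ u z
/-- the density of the flux -/
def af (z : E n × ℝ) : ℝ :=
  (w0 L z + w1 u G L z) * (EE u (ray u z) * -deriv γ (ps u (ray u z))) * JJ u z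
/-- the density of `Dv` -/
def dv (z : E n × ℝ) : ℝ := (w0 L z + w1 u G L z) * dvg (YY γ u) (ray u z) * JJ u z
/-- the density of `Iy` -/
def iy (b : E n) (z : E n × ℝ) : ℝ :=
  (w0 L z + w1 u G L z) * ⟪Ai u z b, YY γ u (ray u z)⟫ * JJ u z
/-- the density of the output -/
def gy (z : E n × ℝ) : ℝ := aa u e G z ^ 2 * st (2 * sv u G z) * gn u (ray u z) * JJ u z
/-- the density of the gain -/
def hy (z : E n × ℝ) : ℝ := aa u e G z ^ 2 * Hg u (th u G δ₀) (M0 l γ u) (M1 k u) z * JJ u z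
/-- the density of the cost -/
def rr (η₀ : ℝ) (b : E n) (z : E n × ℝ) : ℝ :=
  ff u (ray u z) ^ 2 * La u (th u G δ₀) (M0 l γ u) (M1 k u) z ^ 2 *
    ‖aa u e G z • Ai u z b + (η₀ * aW u G z) • tg u (aT u e G) z‖ ^ 2 * JJ u z
/-- the size of the errors -/
def QQ (y : E n) : ℝ := qq u y + qq u (ray u (y, gp u G y))

end

/-- **REGW**: the regularity of the cuts -/
def REGW : Prop := ∃ B ≥ (1 : ℝ), ∀ (n : ℕ) (C K η L ℓ δ G : ℝ) (u e : E n → ℝ) (y : E n),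
  Ok C u → Ry C K η L ℓ δ u (e y) G y →
  ContDiffAt ℝ 1 (gp u G) y ∧ Pj u y (gradient (gp u G) y) = Vg u y (gp u G y) ∧
  ‖Vg u y (gp u G y)‖ ≤ 2 * η ∧ Pj u y (Vg u y (gp u G y)) = Vg u y (gp u G y) ∧
  (∀ c : ℝ → ℝ, ContDiff ℝ 1 c → (∀ s, 1 / 2 ≤ s → c s = c 1) →
    ∀ t, ContDiffAt ℝ 1 (fun z => c (sv u G z)) (y, t)) ∧
  (∀ t ∈ Icc (-(2 * L)) (gp u G y + 2 * L), 1 / 2 ≤ sv u G (y, t) ∧ aW u G (y, t) = 1) ∧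
  (∀ t ∈ Icc (-(64 * lg (e y))) (gp u G y + 64 * lg (e y)), ContDiffAt ℝ 1 (aW u G) (y, t) ∧
    (tg u (aW u G) (y, t) = 0 ∨ sv u G (y, t) ≤ -(1 / 2)) ∧
    ((y, t) ∉ WW u G → aW u G =ᶠ[𝓝 (y, t)] fun _ => 0) ∧
    ((y, t) ∈ WW u G → t ≤ -2 ∨ gp u G y + 2 ≤ t → ps u (ray u (y, t)) < 0 ∧
      ff u (ray u (y, t)) ≤ Real.exp (122 - max (-t) (t - gp u G y)))) ∧
  (ContDiffAt ℝ 1 e y → ‖gradient e y‖ ≤ e y → ∀ t, ContDiffAt ℝ 1 (aT u e G) (y, t) ∧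
    ‖tg u (aT u e G) (y, t)‖ ≤ B ∧ (tg u (aT u e G) (y, t) = 0 ∨
      t ∈ Icc (-(64 * lg (e y))) (-(64 * lg (e y)) + 1) ∨
      t ∈ Icc (gp u G y + 64 * lg (e y) - 1) (gp u G y + 64 * lg (e y))))

def rREGW : Prop := TGC → GREG → COL → REGW

/-- the hypotheses on the cut-off of the base -/
structure Cx (β : ℝ) (u e ζ : E n → ℝ) (G : ℝ) : Prop where
  ce : ContDiff ℝ 1 e
  cζ : ContDiff ℝ 1 ζ
  cs : HasCompactSupport ζ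
  th : ∀ y ∈ tsupport ζ, Th u (e y) G y ∧ G * e y ≤ β ∧ ‖gradient e y‖ ≤ e y

/-- the hypotheses on the cut-off of the base, with the geometry of the rays -/
structure Cy (C K η L ℓ δ : ℝ) (u e ζ : E n → ℝ) (G : ℝ) : Prop where
  ok : Ok C u
  G2 : 2 ≤ G
  ce : ContDiff ℝ 1 e
  cζ : ContDiff ℝ 1 ζ
  cs : HasCompactSupport ζ
  ry : ∀ y ∈ tsupport ζ, pp u y ≠ 0 ∧ ‖gradient e y‖ ≤ e y ∧
    (gp u G y < G → Ry C K η L ℓ δ u (e y) G y)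

/-- the active base points -/
def Ac (u ζ : E n → ℝ) (G : ℝ) (y : E n) : Prop := y ∈ tsupport ζ ∧ gp u G y < G

/-- **RG1**: the test function of the stability inequality -/
def RG1 : Prop := ∀ (n : ℕ) (C K η L ℓ δ G δ₀ l B Kf ι g₀ S : ℝ) (u e ζ : E n → ℝ)
  (γ κ Kp k F Θ : ℝ → ℝ), Cy C K η L ℓ δ u e ζ G → Ga l ℓ γ κ Kp → K1 l δ₀ B k →
  Pf Kf ι g₀ S G F Θ → δ ≤ δ₀ → δ₀ ≤ l → Tu u (xi u e ζ G F) ∧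
  (∀ z ∈ tsupport (xi u e ζ G F), ContDiffAt ℝ 1 (th u G δ₀) z ∧
    ((∃ c : ℝ, th u G δ₀ =ᶠ[𝓝 z] fun _ => c) ∨ M0 l γ u =ᶠ[𝓝 (ray u z)] M1 k u) ∧
    ContinuousAt (gy u e G) z) ∧
  ∀ y t, (Ac u ζ G y →
    ff u (ray u (y, t)) ^ 2 * La u (th u G δ₀) (M0 l γ u) (M1 k u) (y, t) ^ 2 *
      ‖tg u (xi u e ζ G F) (y, t)‖ ^ 2 * JJ u (y, t) =
      rr u e G δ₀ l γ k (et u ζ G F y) (vb u ζ G F y) (y, t)) ∧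
    (¬Ac u ζ G y → et u ζ G F y = 0 ∧ tg u (xi u e ζ G F) (y, t) = 0)

/-- **RG2**: the test function of the stress identity -/
def RG2 : Prop := ∀ (n : ℕ) (C K η L ℓ δ G l Kf ι g₀ S : ℝ) (u e ζ : E n → ℝ)
  (γ κ Kp F Θ : ℝ → ℝ), Cy C K η L ℓ δ u e ζ G → Ga l ℓ γ κ Kp → Pf Kf ι g₀ S G F Θ →
  Tu u (pS u ζ G L κ Θ) ∧ ∀ y t, (Ac u ζ G y →
    (⟪tg u (pS u ζ G L κ Θ) (y, t), Te u (nu u y) (ray u (y, t))⟫ +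
      pS u ζ G L κ Θ (y, t) * Cu u (y, t)) * JJ u (y, t) =
      ia u G L κ (va u ζ G Θ y) (y, t) + Θ (gp u G y) * ζ y ^ 2 * ib u G L κ (y, t)) ∧
    (¬Ac u ζ G y → pS u ζ G L κ Θ (y, t) = 0 ∧ tg u (pS u ζ G L κ Θ) (y, t) = 0)

/-- **RG3**: the test function of the integration by parts -/
def RG3 : Prop := ∀ (n : ℕ) (C K η L ℓ δ G l Kf ι g₀ S : ℝ) (u e ζ : E n → ℝ)
  (γ κ Kp F Θ : ℝ → ℝ), Cy C K η L ℓ δ u e ζ G → Ga l ℓ γ κ Kp → Pf Kf ι g₀ S G F Θ →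
  Tu u (pY u ζ G L F) ∧ ∀ y t, (Ac u ζ G y →
    (pY u ζ G L F (y, t) * dvg (YY γ u) (ray u (y, t)) +
      ⟪tg u (pY u ζ G L F) (y, t), YY γ u (ray u (y, t))⟫) * JJ u (y, t) =
      et u ζ G F y ^ 2 * dv u G L γ (y, t) + 2 * et u ζ G F y * iy u G L γ (vb u ζ G F y) (y, t)) ∧
    (¬Ac u ζ G y → pY u ζ G L F (y, t) = 0 ∧ tg u (pY u ζ G L F) (y, t) = 0)

def rRG1 : Prop := TGC → GREG → CVQ → GN0 → GN1 → REGW → RG1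
def rRG2 : Prop := TGC → GREG → REGW → RG2
def rRG3 : Prop := TGC → GREG → REGW → RG3

/-! ## The estimates on a ray -/

/-- quantification over the rays -/
def ForR (P : ∀ (n : ℕ) (K' η' L l : ℝ) (u : E n → ℝ) (G : ℝ) (y : E n) (γ κ Kp : ℝ → ℝ), Prop) :
    Prop :=
  ∀ (n : ℕ) (C K L ℓ : ℝ), ∃ K' ≥ (0 : ℝ), ∀ η' > (0 : ℝ), ∃ η₁ > (0 : ℝ),
    ∀ (η δ ε G l : ℝ) (u : E n → ℝ) (y : E n) (γ κ Kp : ℝ → ℝ), η ≤ η₁ → Ok C u →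
      Ry C K η L ℓ δ u ε G y → Ga l ℓ γ κ Kp → P n K' η' L l u G y γ κ Kp

/-- **STA**: the tilt in the stress identity -/
def STA : Prop := ForR fun n K' η' L _ u G y _ κ Kp => ∃ σ, (1 - 1 / 500) * sg ≤ σ ∧ σ ≤ sg ∧
  ∀ a : E n, Pj u y a = a → Integrable (fun t => ia u G L κ a (y, t)) ∧
    |(∫ t, ia u G L κ a (y, t)) + σ * ⟪Vg u y (gp u G y), a⟫| ≤
      (η' * ‖Vg u y (gp u G y)‖ + K' * QQ u G y) * ‖a‖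

/-- **STB**: the flux and the curvature in the stress identity -/
def STB : Prop := ForR fun n _ η' L _ u G y γ κ _ =>
  Integrable (fun t => ib u G L κ (y, t)) ∧ Integrable (fun t => af u G L γ (y, t)) ∧
  0 ≤ ∫ t, af u G L γ (y, t) ∧
  -((∫ t, af u G L γ (y, t)) / 2) - η' * QQ u G y -
    η' / gp u G y * ‖Vg u y (gp u G y)‖ ^ 2 ≤ ∫ t, ib u G L κ (y, t)

/-- **SBC**: the cross term of the integration by parts -/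
def SBC : Prop := ForR fun n K' η' L _ u G y γ _ _ => QQ u G y ≤ η' ∧ 0 ≤ QQ u G y ∧
  Integrable (fun t => dv u G L γ (y, t)) ∧ ∀ b : E n, Integrable (fun t => iy u G L γ b (y, t)) ∧
    |∫ t, iy u G L γ b (y, t)| ≤ K' * QQ u G y * ‖b‖

/-- **SBA**: the cost -/
def SBA : Prop := ∀ C : ℝ, ∃ L₀ : ℝ, ∃ K' ≥ (0 : ℝ), ∀ (n : ℕ) (K η L ℓ δ G δ₀ l B η₀ : ℝ)
  (u e : E n → ℝ) (y b : E n) (γ κ Kp k : ℝ → ℝ), L₀ ≤ L → Ok C u →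
  Ry C K η L ℓ δ u (e y) G y → ContDiffAt ℝ 1 e y → ‖gradient e y‖ ≤ e y → Ga l ℓ γ κ Kp →
  K1 l δ₀ B k → 0 < δ₀ →
  ∫ t, rr u e G δ₀ l γ k η₀ b (y, t) ≤ (2 + 1 / 50) * sg * ‖b‖ ^ 2 + K' * (η₀ ^ 2 * e y ^ 80)

/-- **SBB**: the gain -/
def SBB : Prop := ∀ (n : ℕ) (C B : ℝ), ∃ l₀ > (0 : ℝ), ∀ l ℓ : ℝ, l ≤ l₀ → ∃ η₁ > (0 : ℝ),
  ∀ (K η L δ G δ₀ : ℝ) (u e : E n → ℝ) (y : E n) (γ κ Kp k : ℝ → ℝ), η ≤ η₁ → Ok C u →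
  Ry C K η L ℓ δ u (e y) G y → ContDiffAt ℝ 1 e y → ‖gradient e y‖ ≤ e y → Ga l ℓ γ κ Kp →
  K1 l δ₀ B k → δ ≤ δ₀ → δ₀ ≤ l →
  69 / 50 * (∫ t, af u G L γ (y, t)) + l / 8 * (∫ t, gy u e G (y, t)) -
    (1 - 2 * l) * ∫ t, dv u G L γ (y, t) ≤ ∫ t, hy u e G δ₀ l γ k (y, t)

/-- **SBD**: the gain controls the errors -/
def SBD : Prop := ∀ C : ℝ, ∃ K' ≥ (0 : ℝ), ∀ (n : ℕ) (K η L ℓ δ G : ℝ) (u e : E n → ℝ) (y : E n),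
  Ok C u → Ry C K η L ℓ δ u (e y) G y → ContDiffAt ℝ 1 e y → ‖gradient e y‖ ≤ e y →
  QQ u G y ≤ K' * ∫ t, gy u e G (y, t)

def rSTA : Prop := TGC → STA
def rSTB : Prop := TGC → STB
def rSBC : Prop := TGC → GN0 → SBC
def rSBA : Prop := TGC → GN0 → GN1 → REGW → SBA
def rSBB : Prop := TGC → CVQ → GN0 → GN1 → COL → FARC → REGW → SBB
def rSBD : Prop := TGC → CVQ → REGW → SBD

/-- **ALR**: the algebra at a base point -/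
def ALR : Prop := ∀ (Kf K' l : ℝ), 1 ≤ Kf → 0 ≤ K' → 0 < l → l ≤ 1 / 200 → ∃ η' > (0 : ℝ),
  ∃ K ≥ (0 : ℝ), ∀ (n : ℕ) (V W : E n) (F F' Θ ϑ ζ ι g σ Q A Gy D Hy R Ia Ib Iy e : ℝ),
  0 ≤ ι → 0 < g → 0 ≤ e → ‖V‖ ≤ 1 → 0 ≤ Θ → Θ ≤ 131 / 100 * F ^ 2 → 0 ≤ ϑ →
  F' ^ 2 ≤ (1 + 1 / 500) * ϑ + ι → Θ ^ 2 ≤ Kf * F ^ 2 * ϑ → Θ ≤ Kf * g * ϑ →
  ϑ ≤ Kf * (F ^ 2 + ι) → (1 - 1 / 500) * sg ≤ σ → σ ≤ sg → 0 ≤ Q → Q ≤ η' → Q ≤ K' * Gy →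
  0 ≤ Gy → 0 ≤ A →
  |Ia + σ * ⟪V, (-ϑ * ζ ^ 2) • V + (2 * Θ * ζ) • W⟫| ≤
    (η' * ‖V‖ + K' * Q) * ‖(-ϑ * ζ ^ 2) • V + (2 * Θ * ζ) • W‖ →
  -(A / 2) - η' * Q - η' / g * ‖V‖ ^ 2 ≤ Ib →
  |Iy| ≤ K' * Q * ‖(F' * ζ) • V + F • W‖ →
  R ≤ (2 + 1 / 50) * sg * ‖(F' * ζ) • V + F • W‖ ^ 2 + K' * ((F * ζ) ^ 2 * e) →
  69 / 50 * A + l / 8 * Gy - (1 - 2 * l) * D ≤ Hy →
  l / 16 * ((F * ζ) ^ 2 * Gy) ≤ K * (F ^ 2 * ‖W‖ ^ 2 + ι * ζ ^ 2 + (F * ζ) ^ 2 * e) +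
    (((F * ζ) ^ 2 * Hy - R) + (1 - 2 * l) * ((F * ζ) ^ 2 * D + 2 * (F * ζ) * Iy) +
      52 / 25 * (Ia + Θ * ζ ^ 2 * Ib))

/-- **TE0**: the inequality in the tube -/
def TE0 : Prop := ∀ (m : ℕ) (C Kf g₀ : ℝ), 1 ≤ Kf → ∃ K ≥ (0 : ℝ), ∃ β > (0 : ℝ),
  ∀ (u e ζ : E (m + 1) → ℝ) (G ι S : ℝ) (F Θ : ℝ → ℝ), Ok C u → Stab u → 2 ≤ G → 0 ≤ ι →
  Pf Kf ι g₀ S G F Θ → Cx β u e ζ G →
  Integrable (fun z => et u ζ G F z.1 ^ 2 * gy u e G z) ∧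
  ∫ z, et u ζ G F z.1 ^ 2 * gy u e G z ≤
    K * ((∫ y, F (gp u G y) ^ 2 * ‖Pj u y (gradient ζ y)‖ ^ 2) +
      ι * (∫ y in {y | gp u G y < G}, ζ y ^ 2) + ∫ y, et u ζ G F y ^ 2 * e y ^ 80)

def rTE0 : Prop := TGC → PB → JT → STI → GREG → PRG → PRK → CVQ → GN0 → GN1 → RAY → REGW →
  RG1 → RG2 → RG3 → STA → STB → SBC → SBA → SBB → SBD → ALR → TE0

end Vale.Agent.P134E
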