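import Vale.Agent.P134E.Lib
import Vale.Agent.P134C.Top

/-!
# P134E: from the inequality in the tube to the statement `P134C.TE`
-/

set_option linter.unusedVariables false

open MeasureTheory Metric Filter Topology Set
open scoped ContDiff RealInnerProductSpace
open Vale.Agent.P366.Stmt (E)

noncomputable section

namespace Vale.Agent.P134E

open Vale.Agent.P134B
open Vale.Agent.P134C (Wt Bad Xi Rt dd Bd CNT CNR)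

variable {n m : ℕ}

/-- **TE1**: the inequality in the tube -/
def TE1 : Prop := ∀ (m : ℕ) (C Kf g₀ : ℝ), 1 ≤ Kf → ∃ K ≥ (0 : ℝ), ∃ β > (0 : ℝ),
  ∀ (u e ζ : E (m + 1) → ℝ) (G ι S : ℝ) (F Θ : ℝ → ℝ), Ok C u → Stab u → 2 ≤ G → 0 ≤ ι →
  Pf Kf ι g₀ S G F Θ → Cx β u e ζ G →
  Continuous (fun z => xi u e ζ G F z ^ 2 * st (2 * sv u G z)) ∧
  Integrable (fun z => et u ζ G F z.1 ^ 2 * gy u e G z) ∧
  ∫ z, et u ζ G F z.1 ^ 2 * gy u e G z ≤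
    K * ((∫ y, F (gp u G y) ^ 2 * ‖Pj u y (gradient ζ y)‖ ^ 2) +
      ι * (∫ y in {y | gp u G y < G}, ζ y ^ 2) + ∫ y, et u ζ G F y ^ 2 * e y ^ 80)

def rTE1 : Prop := TGC → PB → JT → STI → GREG → PRG → PRK → CVQ → GN0 → GN1 → RAY → REGW →
  RG1 → RG2 → RG3 → STA → STB → SBC → SBA → SBB → SBD → ALR → TE1

/-- a smooth distance -/
structure Ds (B : Set (E n)) (D : E n → ℝ) : Prop where
  c1 : ContDiff ℝ 1 D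
  lo : ∀ x, infDist x B + 1 ≤ D x
  hi : ∀ x, D x ≤ infDist x B + 3
  gr : ∀ x, ‖gradient D x‖ ≤ 1

/-- **DST** -/
def DST : Prop := ∀ (n : ℕ) (B : Set (E n)), ∃ D, Ds B D

/-- the local scale -/
def ee (C : ℝ) (D : E n → ℝ) (y : E n) : ℝ := 16 * C / D y

/-- **THN**: the rate gives the thin region -/
def THN : Prop := ∀ (n : ℕ) (C δ : ℝ) (u D : E n → ℝ), Rt C δ u → Ds (Bad δ u) D →
  ContDiff ℝ 1 (ee C D) ∧ (∀ y, 0 < ee C D y ∧ ‖gradient (ee C D) y‖ ≤ ee C D y) ∧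
  (∀ G y, 2 ≤ G → |ps u y| ≤ 1 → 3 ≤ dd δ u y → Th u (ee C D y) G y) ∧
  Rt C δ (-u) ∧ Bad δ (-u) = Bad δ u ∧ dd δ (-u) = dd δ u ∧ gn (-u) = gn u ∧
  Continuous (gn u) ∧ ∀ x, 0 ≤ gn u x ∧ gn u x ≤ (1 + n * C ^ 2) * ff u x ^ 2

/-- the cut-off of the base -/
def zt (u D ζ : E n → ℝ) (R₁ R : ℝ) (y : E n) : ℝ :=
  bp (2 * ps u y) * st (D y / R₁ - 1) * ζ y * st (2 - ‖y‖ ^ 2 / R ^ 2)

/-- **PCK**: the packing of the gaps -/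
def PCK : Prop := ∀ (m : ℕ) (C : ℝ), ∃ K ≥ (0 : ℝ), ∃ β > (0 : ℝ), ∀ (u : E (m + 1) → ℝ) (G R : ℝ)
  (A : Set (E (m + 1))) (z : E (m + 1)), Ok C u → MeasurableSet A → 2 ≤ G → G ≤ R →
  (∀ y ∈ A, ∃ ε, Th u ε G y ∧ G * ε ≤ β) →
  IntegrableOn (fun y => gp u G y ^ (4 / 5 : ℝ)) (A ∩ ball z R) ∧
  ∫ y in A ∩ ball z R, gp u G y ^ (4 / 5 : ℝ) ≤ K * R ^ (m + 1)

/-- the error of the profile -/
def io (Kf S G : ℝ) : ℝ := Kf * G * Real.exp (-(26 / 5 * (G - 2 * S)))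

/-- **COST**: the right-hand side of `TE1` -/
def COST : Prop := ∀ (C δ Kf M β : ℝ), 1 ≤ Kf → 1 ≤ M → 0 < β → ∃ A ≥ (1 : ℝ), ∃ K ≥ (0 : ℝ),
  ∃ s' : ℝ, ∀ s ≥ s', ∃ l₀ > (0 : ℝ), ∀ (u D ζ : E 7 → ℝ) (l g₀ R : ℝ) (F Θ : ℝ → ℝ), Rt C δ u →
  Ds (Bad δ u) D → 0 < l → l ≤ l₀ → Wt l ζ → 1 ≤ R →
  Pf Kf (io Kf (60 * M * s) (3000 * M * s)) g₀ (60 * M * s) (3000 * M * s) F Θ →
  Cx β u (ee C D) (zt u D ζ (A * s) R) (3000 * M * s) ∧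
  (∫ y, F (gp u (3000 * M * s) y) ^ 2 * ‖Pj u y (gradient (zt u D ζ (A * s) R) y)‖ ^ 2) +
    io Kf (60 * M * s) (3000 * M * s) *
      (∫ y in {y | gp u (3000 * M * s) y < 3000 * M * s}, zt u D ζ (A * s) R y ^ 2) +
    ∫ y, et u (zt u D ζ (A * s) R) (3000 * M * s) F y ^ 2 * ee C D y ^ 80 ≤
    K * (s ^ (21 / 5 : ℝ) * Xi (Bad δ u) ζ + (∫ y, ζ y) / R ^ 2)

/-- **RET**: below a long gap the slope is large -/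
def RET : Prop := ∀ (ε δ T t₁ : ℝ) (ψ s d q u f : ℝ → ℝ), Ln ε δ T ψ s d q u f → 0 ≤ t₁ →
  3 * t₁ + 100 < T → (∀ t ∈ Ioc 0 (3 * t₁ + 100), 0 < u t) → ∀ t ∈ Icc 0 t₁, 1 / 2 ≤ s t

/-- **NRP**: the nearest point of a level set -/
def NRP : Prop := ∀ (m : ℕ) (C δ : ℝ), ∃ d₀ : ℝ, ∀ (u : E (m + 1) → ℝ) (x : E (m + 1)) (τ r : ℝ),
  Rt C δ u → |τ| ≤ 1 / 2 → 0 ≤ r → r + d₀ ≤ dd δ u x → C * Real.exp (-r) < ff u x →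
  ∃ y t, ps u y = τ ∧ P134C.Ft u (r + 2) x y t ∧ ff u x ≤ C * Real.exp (-(|t| - 2))

/-- the point `x` is seen from the level `τ` -/
def Cov (u e : E n → ℝ) (G a S T : ℝ) (x : E n) (τ : ℝ) : Prop := ∃ y t, ray u (y, t) = x ∧
  ps u y = τ ∧ |t| ≤ T ∧ |t| ≤ S + 2 ∧ (y, t) ∈ UU u ∧ a ≤ gp u G y ∧ gp u G y ≤ S ∧
  aa u e G (y, t) = 1 ∧ 1 / 2 ≤ sv u G (y, t)

/-- **COV**: the rays cover the band -/
def COV : Prop := ∀ (C δ : ℝ), ∃ K ≥ (0 : ℝ), ∃ β > (0 : ℝ), ∃ d₀ : ℝ,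
  ∀ (u D : E 7 → ℝ) (x : E 7) (τ a b S G : ℝ), Rt C δ u → Ds (Bad δ u) D → d₀ ≤ dd δ u x →
  |τ| ≤ 1 / 2 → 2 ≤ a → a ≤ b → 60 * b ≤ S → S < G → G ≤ β * dd δ u x →
  Bd u (21 * Real.log (dd δ u x)) a b x →
  gn u x * (1 + dd δ u x) ^ 40 ≤ K ∨ Cov u (ee C D) G a S (21 * Real.log (dd δ u x)) x τ ∨
    Cov (-u) (ee C D) G a S (21 * Real.log (dd δ u x)) x (-τ)

/-- **COVI**: the left-hand side of `TE1` -/
def COVI : Prop := ∀ (C δ M A₁ : ℝ), 1 ≤ M → 1 ≤ A₁ → ∃ K ≥ (0 : ℝ), ∃ s' : ℝ, ∀ s ≥ s',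
  ∃ l₀ > (0 : ℝ), ∃ R₀ : ℝ, ∀ (u D ζ : E 7 → ℝ) (l Kf ι g₀ R : ℝ) (F Θ : ℝ → ℝ) (A : Set (E 7)),
  Rt C δ u → Ds (Bad δ u) D → 0 < l → l ≤ l₀ → Wt l ζ → R₀ ≤ R →
  Pf Kf ι g₀ (60 * M * s) (3000 * M * s) F Θ → MeasurableSet A →
  (∀ x ∈ A, s ^ (41 / 40 : ℝ) ≤ dd δ u x ∧
    Bd u (21 * Real.log (dd δ u x)) (s / M) (M * s) x) →
  (∀ v, v = u ∨ v = -u →
    Continuous (fun z => xi v (ee C D) (zt v D ζ (A₁ * s) R) (3000 * M * s) F z ^ 2 *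
      st (2 * sv v (3000 * M * s) z)) ∧
    Integrable (fun z => et v (zt v D ζ (A₁ * s) R) (3000 * M * s) F z.1 ^ 2 *
      gy v (ee C D) (3000 * M * s) z)) →
  ∫ x in A ∩ ball 0 (R / 2), gn u x * ζ x ^ 2 ≤
    K * ((∫ z, et u (zt u D ζ (A₁ * s) R) (3000 * M * s) F z.1 ^ 2 *
        gy u (ee C D) (3000 * M * s) z) +
      (∫ z, et (-u) (zt (-u) D ζ (A₁ * s) R) (3000 * M * s) F z.1 ^ 2 *
        gy (-u) (ee C D) (3000 * M * s) z) + Xi (Bad δ u) ζ)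

def rTHN : Prop := SYM → CVQ → THN
def rPCK : Prop := TGC → GREG → FOOT → SLAB → PCK
def rCOST : Prop := TGC → GREG → RAY0 → RAY1 → LOW → THN → PCK → CNT → CNR → COST
def rRET : Prop := COL → RET
def rNRP : Prop := SEG → NRP
def rCOV : Prop := TGC → SYM → GREG → RAY → RAYA → RAY0 → RAYF → LOW → REGW → THN → RET → NRP →
  COV
def rCOVI : Prop := TGC → SYM → AR → THN → CNT → COV → COVI
def rTEF : Prop := PRS → DST → THN → TE1 → COST → COVI → P134C.TE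

end Vale.Agent.P134E
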